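import Vale.Agent.P225.Profile.Theta

/-!
# P225: growth along the checkpoints

The checkpoints are `(j₀ + n)^8`, the period between two of them has length `plen (j₀ + n)`. If the
logarithmic growth over period `n` is at most `(f n + o(1)) * plen (j₀ + n)` with `f` periodic of
mean below `k`, and at most `B * plen (j₀ + n)` inside the period, then the growth is `O(exp (k s))`.
-/

namespace Vale.Agent.P225

open Filter Topology Real Finset
open scoped Matrix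

noncomputable section

/-- The partial sums of a periodic sequence of sum zero are bounded by one period. -/
lemma abs_sum_periodic_le {g : ℕ → ℝ} {P : ℕ} (hP : 1 ≤ P) (hper : ∀ n, g (n + P) = g n)
    (h0 : ∑ e ∈ range P, g e = 0) (N : ℕ) :
    |∑ i ∈ range N, g i| ≤ ∑ e ∈ range P, |g e| := by
  induction N using Nat.strong_induction_on with
  | _ N ih =>
    rcases lt_or_ge N P with h | h
    · exact (Finset.abs_sum_le_sum_abs _ _).trans
        (sum_le_sum_of_subset_of_nonneg (range_subset_range.2 h.le) fun i _ _ => abs_nonneg _)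
    · obtain ⟨m, rfl⟩ : ∃ m, N = P + m := ⟨N - P, by omega⟩
      rw [sum_range_add, h0, zero_add, sum_congr rfl fun i _ => by rw [add_comm, hper]]
      exact ih m (by omega)

/-- Abel summation against increasing nonnegative weights. -/
lemma sum_periodic_weight_le {g w : ℕ → ℝ} {P : ℕ} (hP : 1 ≤ P) (hper : ∀ n, g (n + P) = g n)
    (h0 : ∑ e ∈ range P, g e = 0) (hw : Monotone w) (hw0 : ∀ n, 0 ≤ w n) (N : ℕ) :
    ∑ i ∈ range N, g i * w i ≤ 2 * (∑ e ∈ range P, |g e|) * w N := by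
  have hA := abs_sum_periodic_le hP hper h0
  have key : ∑ i ∈ range N, g i * w i ≤
      (∑ i ∈ range N, g i) * w N + (∑ e ∈ range P, |g e|) * (w N - w 0) := by
    induction N with
    | zero => simp
    | succ N ih =>
      rw [sum_range_succ]
      have h1 : 0 ≤ ((∑ i ∈ range (N + 1), g i) + ∑ e ∈ range P, |g e|) * (w (N + 1) - w N) :=
        mul_nonneg (by linarith [(abs_le.1 (hA (N + 1))).1]) (sub_nonneg.2 (hw (Nat.le_succ N)))
      rw [sum_range_succ] at h1 ⊢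
      linarith
  nlinarith [mul_le_mul_of_nonneg_right ((le_abs_self _).trans (hA N)) (hw0 N),
    mul_nonneg (sum_nonneg fun e (_ : e ∈ range P) => abs_nonneg (g e)) (hw0 0)]

/-- A periodic sequence has the same sum over every period. -/
lemma sum_periodic_shift {h : ℕ → ℝ} {P : ℕ} (hper : ∀ n, h (n + P) = h n) (i : ℕ) :
    ∑ e ∈ range P, h (e + i) = ∑ e ∈ range P, h e := by
  induction i with
  | zero => rfl
  | succ i ih =>
    rw [← ih]
    have a := sum_range_succ' (fun e => h (e + i)) P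
    have b := sum_range_succ (fun e => h (e + i)) P
    rw [b, zero_add, show P + i = i + P by omega, hper] at a
    simp only [show ∀ e, e + 1 + i = e + (i + 1) from fun e => by omega] at a
    linarith

lemma plen_nonneg (j : ℕ) : 0 ≤ plen j := le_trans (by positivity) (plen_ge j)

lemma plen_mono : Monotone plen := fun i j hij => by
  have h : ∀ n : ℕ, plen n = 8 * (n : ℝ) ^ 7 + 28 * (n : ℝ) ^ 6 + 56 * (n : ℝ) ^ 5 +
      70 * (n : ℝ) ^ 4 + 56 * (n : ℝ) ^ 3 + 28 * (n : ℝ) ^ 2 + 8 * (n : ℝ) + 1 := fun n => by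
    rw [plen]; ring
  rw [h, h]
  gcongr

lemma sum_plen (j₀ N : ℕ) :
    ∑ i ∈ range N, plen (j₀ + i) = ((j₀ + N : ℕ) : ℝ) ^ 8 - (j₀ : ℝ) ^ 8 := by
  induction N with
  | zero => simp
  | succ N ih => rw [sum_range_succ, ih, plen]; push_cast; ring

/-- A period is short against its starting point. -/
lemma eventually_plen_small (B : ℝ) {δ : ℝ} (hδ : 0 < δ) :
    ∀ᶠ j : ℕ in atTop, B * plen j ≤ δ * (j : ℝ) ^ 8 := by
  obtain ⟨m, hm⟩ := exists_nat_ge (256 * |B| / δ)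
  filter_upwards [eventually_ge_atTop m, eventually_ge_atTop 1] with j hj h1
  have hj' : (m : ℝ) ≤ j := by exact_mod_cast hj
  have h2 : 256 * |B| ≤ (j : ℝ) * δ := (div_le_iff₀ hδ).1 (hm.trans hj')
  calc B * plen j ≤ |B| * (256 * (j : ℝ) ^ 7) :=
        mul_le_mul (le_abs_self B) (plen_le h1) (plen_nonneg j) (abs_nonneg B)
    _ = 256 * |B| * (j : ℝ) ^ 7 := by ring
    _ ≤ (j : ℝ) * δ * (j : ℝ) ^ 7 := mul_le_mul_of_nonneg_right h2 (by positivity)
    _ = δ * (j : ℝ) ^ 8 := by ring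

/-- A recursion which holds eventually gives a bound at all indices. -/
lemma recursion_le {c : ℕ → ℝ} {e : ℕ → ℝ} (hc : ∀ n, 0 ≤ c n)
    (h : ∀ᶠ n in atTop, c (n + 1) ≤ c n * exp (e n)) :
    ∃ C, 0 ≤ C ∧ ∀ n, c n ≤ C * exp (∑ i ∈ range n, e i) := by
  obtain ⟨n₁, hn⟩ := eventually_atTop.1 h
  set D : ℕ → ℝ := fun n => c n * exp (-∑ i ∈ range n, e i) with hDdef
  have hD : ∀ n, 0 ≤ D n := fun n => mul_nonneg (hc n) (exp_pos _).le
  refine ⟨∑ i ∈ range (n₁ + 1), D i, sum_nonneg fun i _ => hD i, fun n => ?_⟩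
  have hle : D n ≤ ∑ i ∈ range (n₁ + 1), D i := by
    induction n with
    | zero => exact single_le_sum (fun i _ => hD i) (mem_range.2 (Nat.succ_pos _))
    | succ n ih =>
      rcases lt_or_ge n n₁ with hlt | hge
      · exact single_le_sum (fun i _ => hD i) (mem_range.2 (by omega))
      · refine le_trans ?_ ih
        calc c (n + 1) * exp (-∑ i ∈ range (n + 1), e i)
            ≤ c n * exp (e n) * exp (-∑ i ∈ range (n + 1), e i) :=
              mul_le_mul_of_nonneg_right (hn n hge) (exp_pos _).le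
          _ = D n := by
              rw [hDdef, mul_assoc, ← exp_add, sum_range_succ]; ring_nf
  calc c n = D n * exp (∑ i ∈ range n, e i) := by
        rw [hDdef, mul_assoc, ← exp_add, neg_add_cancel, exp_zero, mul_one]
    _ ≤ _ := mul_le_mul_of_nonneg_right hle (exp_pos _).le

/-- Periodic exponents of mean below `k` at the checkpoints give growth `O(exp (k s))`. -/
theorem growth_of_checkpoints {φ : ℝ → ℝ} (hφ : Continuous φ) (hφ0 : ∀ s, 0 ≤ φ s)
    {f : ℕ → ℝ} {P : ℕ} (j₀ : ℕ) {k B : ℝ} (hP : 1 ≤ P) (hper : ∀ n, f (n + P) = f n)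
    (hmean : ∑ e ∈ range P, f e < k * P)
    (hstep : ∀ η : ℝ, 0 < η → ∀ᶠ n : ℕ in atTop,
      φ (((j₀ + (n + 1) : ℕ) : ℝ) ^ 8) ≤
        φ (((j₀ + n : ℕ) : ℝ) ^ 8) * exp ((f n + η) * plen (j₀ + n)))
    (hin : ∀ᶠ n : ℕ in atTop, ∀ s : ℝ, ((j₀ + n : ℕ) : ℝ) ^ 8 ≤ s →
      s < ((j₀ + (n + 1) : ℕ) : ℝ) ^ 8 →
        φ s ≤ φ (((j₀ + n : ℕ) : ℝ) ^ 8) * exp (B * plen (j₀ + n))) :
    ∃ C : ℝ, ∀ s, 0 ≤ s → φ s ≤ C * exp (k * s) := by
  have hP' : (0 : ℝ) < P := by exact_mod_cast hP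
  set μ := (∑ e ∈ range P, f e) / (P : ℝ) with hμdef
  have hμk : μ < k := by rwa [hμdef, div_lt_iff₀ hP']
  set η := (k - μ) / 3 with hηdef
  have hη : 0 < η := by rw [hηdef]; linarith
  obtain ⟨C₀, hC₀, hcp⟩ := recursion_le (c := fun n => φ (((j₀ + n : ℕ) : ℝ) ^ 8))
    (e := fun n => (f n + η) * plen (j₀ + n)) (fun n => hφ0 _) (hstep η hη)
  set A := ∑ e ∈ range P, |f e - μ| with hAdef
  have hsum : ∀ n, ∑ i ∈ range n, (f i + η) * plen (j₀ + i) ≤
      2 * A * plen (j₀ + n) + (μ + η) * (((j₀ + n : ℕ) : ℝ) ^ 8 - (j₀ : ℝ) ^ 8) := by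
    intro n
    have h0 : ∑ e ∈ range P, (f e - μ) = 0 := by
      rw [sum_sub_distrib, sum_const, card_range, nsmul_eq_mul, hμdef]
      field_simp
      ring
    have h1 := sum_periodic_weight_le (g := fun i => f i - μ) (w := fun i => plen (j₀ + i)) hP
      (fun i => by rw [hper]) h0 (fun a b hab => plen_mono (by omega)) (fun i => plen_nonneg _) n
    have e : ∑ i ∈ range n, (f i + η) * plen (j₀ + i) =
        (∑ i ∈ range n, (f i - μ) * plen (j₀ + i)) + (μ + η) * ∑ i ∈ range n, plen (j₀ + i) := by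
      rw [mul_sum, ← sum_add_distrib]
      exact sum_congr rfl fun i _ => by ring
    rw [e, sum_plen]
    linarith
  have htend : Tendsto (fun n : ℕ => j₀ + n) atTop atTop :=
    tendsto_atTop_mono (fun n => Nat.le_add_left n j₀) tendsto_id
  obtain ⟨n₁, hn₁⟩ := eventually_atTop.1
    (hin.and (htend.eventually (eventually_plen_small (2 * A + B + |k|) hη)))
  obtain ⟨M₁, hM₁⟩ :=
    (isCompact_Icc (a := (0 : ℝ)) (b := ((j₀ + n₁ : ℕ) : ℝ) ^ 8)).exists_bound_of_continuousOn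
      (f := fun s => φ s * exp (-(k * s))) (Continuous.continuousOn (by fun_prop))
  set C₁ := C₀ * exp (-((μ + η) * (j₀ : ℝ) ^ 8)) with hC₁def
  refine ⟨max M₁ C₁, fun s hs => ?_⟩
  rcases le_or_gt s (((j₀ + n₁ : ℕ) : ℝ) ^ 8) with hsm | hlg
  · have h := (le_abs_self _).trans (hM₁ s ⟨hs, hsm⟩)
    calc φ s = φ s * exp (-(k * s)) * exp (k * s) := by
          rw [mul_assoc, ← exp_add, neg_add_cancel, exp_zero, mul_one]
      _ ≤ _ := mul_le_mul_of_nonneg_right (h.trans (le_max_left _ _)) (exp_pos _).le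
  · obtain ⟨h1, h2⟩ := period_spec hs
    obtain ⟨n, hn⟩ : ∃ n, period s = j₀ + n :=
      ⟨period s - j₀, by
        have h : (j₀ : ℝ) ^ 8 ≤ s := le_trans (by gcongr; omega) hlg.le
        have := le_period h
        omega⟩
    have hnn : n₁ ≤ n := by have := le_period hlg.le; omega
    rw [hn] at h1 h2
    obtain ⟨ha, hb⟩ := hn₁ n hnn
    set x := ((j₀ + n : ℕ) : ℝ) ^ 8 with hx
    have e1 : ((j₀ + (n + 1) : ℕ) : ℝ) ^ 8 = (((j₀ + n : ℕ) : ℝ) + 1) ^ 8 := by push_cast; ring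
    have hsx : s - x ≤ plen (j₀ + n) := by rw [plen, hx]; linarith
    have hks : -(|k| * plen (j₀ + n)) ≤ k * (s - x) :=
      calc -(|k| * plen (j₀ + n)) ≤ -(|k| * (s - x)) :=
            neg_le_neg (mul_le_mul_of_nonneg_left hsx (abs_nonneg k))
        _ ≤ k * (s - x) := by
            rw [← neg_mul]
            exact mul_le_mul_of_nonneg_right (neg_abs_le k) (by linarith)
    have hx0 : 0 ≤ η * x := mul_nonneg hη.le (by rw [hx]; positivity)
    have h3 : η * 3 = k - μ := by rw [hηdef]; ring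
    have h4 : (μ + η) * x + η * x + η * x = k * x := by linear_combination x * h3
    calc φ s ≤ φ x * exp (B * plen (j₀ + n)) := ha s h1 (by rw [e1]; exact h2)
      _ ≤ C₀ * exp (2 * A * plen (j₀ + n) + (μ + η) * (x - (j₀ : ℝ) ^ 8)) *
            exp (B * plen (j₀ + n)) := by
          refine mul_le_mul_of_nonneg_right ((hcp n).trans ?_) (exp_pos _).le
          exact mul_le_mul_of_nonneg_left (exp_le_exp.2 (hsum n)) hC₀
      _ = C₁ * exp ((2 * A + B) * plen (j₀ + n) + (μ + η) * x) := by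
          rw [hC₁def, mul_assoc C₀, mul_assoc C₀, ← exp_add, ← exp_add]; ring_nf
      _ ≤ C₁ * exp (k * s) :=
          mul_le_mul_of_nonneg_left (exp_le_exp.2 (by nlinarith))
            (mul_nonneg hC₀ (exp_pos _).le)
      _ ≤ _ := mul_le_mul_of_nonneg_right (le_max_right _ _) (exp_pos _).le

/-- The same along an orbit of a permutation, in either phase `i`. -/
theorem growth_of_cycle {d : ℕ} {Y : ℝ → Fin d → ℝ} (hY : Continuous Y)
    (σ : Equiv.Perm (Fin d)) (a : Fin d) (g : Fin d → ℝ) (j₀ i : ℕ) {k B : ℝ} {P : ℕ} (hP : 1 ≤ P)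
    (hcyc : (σ ^ P) a = a) (hmean : ∑ e ∈ range P, g ((σ ^ e) a) < k * P)
    (hstep : ∀ η : ℝ, 0 < η → ∀ᶠ n : ℕ in atTop,
      ∑ b, |Y (((j₀ + (n + 1) : ℕ) : ℝ) ^ 8) b| ≤ (∑ b, |Y (((j₀ + n : ℕ) : ℝ) ^ 8) b|) *
        exp ((g ((σ ^ (n + i)) a) + η) * plen (j₀ + n)))
    (hin : ∀ᶠ n : ℕ in atTop, ∀ s : ℝ, ((j₀ + n : ℕ) : ℝ) ^ 8 ≤ s →
      s < ((j₀ + (n + 1) : ℕ) : ℝ) ^ 8 → ∑ b, |Y s b| ≤
        (∑ b, |Y (((j₀ + n : ℕ) : ℝ) ^ 8) b|) * exp (B * plen (j₀ + n))) :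
    ∃ C : ℝ, ∀ s, 0 ≤ s → ∑ b, |Y s b| ≤ C * exp (k * s) := by
  have hper : ∀ n, g ((σ ^ (n + P)) a) = g ((σ ^ n) a) := fun n => by
    rw [pow_add, Equiv.Perm.mul_apply, hcyc]
  refine growth_of_checkpoints (φ := fun s => ∑ b, |Y s b|)
    (f := fun n => g ((σ ^ (n + i)) a)) (continuous_finsetSum _ fun b _ => ((continuous_apply b).comp hY).abs)
    (fun s => sum_nonneg fun b _ => abs_nonneg _) j₀ hP (fun n => ?_) ?_ hstep hin
  · rw [show n + P + i = n + i + P by omega, hper]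
  · rwa [sum_periodic_shift (h := fun n => g ((σ ^ n) a)) hper i]

lemma monoMat_mulVec_single {d : ℕ} (σ : Equiv.Perm (Fin d)) (ε : Fin d → ℝ) (b : Fin d) :
    Matrix.of (monoMat σ ε) *ᵥ Pi.single b 1 = ε b • Pi.single (σ b) 1 := by
  ext a
  by_cases h : a = σ b
  · simp [monoMat, Matrix.mulVec_single, h]
  · simp [monoMat, Matrix.mulVec_single, h]

lemma diag_mono_single {d : ℕ} (σ : Equiv.Perm (Fin d)) (ε G : Fin d → ℝ) (x : ℝ) (b : Fin d) :
    Matrix.diagonal G *ᵥ (Matrix.of (monoMat σ ε) *ᵥ (x • Pi.single b 1)) =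
      (x * ε b * G (σ b)) • Pi.single (σ b) 1 := by
  rw [Matrix.mulVec_smul, monoMat_mulVec_single, Matrix.mulVec_smul, Matrix.mulVec_smul]
  ext a
  by_cases h : a = σ b
  · simp [h]; ring
  · simp [Pi.single_eq_of_ne h]

/-- Exact monomial transfers at the checkpoints: one basis vector follows its orbit. -/
theorem growth_of_transfer {d : ℕ} {Y : ℝ → Fin d → ℝ} (hY : Continuous Y)
    (σ : Equiv.Perm (Fin d)) {ε : Fin d → ℝ} (hε : ∀ b, |ε b| = 1) (a : Fin d) (g : Fin d → ℝ)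
    (j₀ : ℕ) {k B : ℝ} {P : ℕ} (hP : 1 ≤ P) (hcyc : (σ ^ P) a = a)
    (hmean : ∑ e ∈ range P, g ((σ ^ e) a) < k * P) {x₀ : ℝ}
    (hY0 : Y ((j₀ : ℝ) ^ 8) = x₀ • Pi.single a 1) {γ : ℕ → ℝ} {G : ℕ → Fin d → ℝ}
    (hT : ∀ n : ℕ, Y (((j₀ + (n + 1) : ℕ) : ℝ) ^ 8) = γ n •
      (Matrix.diagonal (G n) *ᵥ (Matrix.of (monoMat σ ε) *ᵥ Y (((j₀ + n : ℕ) : ℝ) ^ 8))))
    (hG : ∀ η : ℝ, 0 < η → ∀ᶠ n : ℕ in atTop, ∀ b,
      |γ n * G n b| ≤ exp ((g b + η) * plen (j₀ + n)))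
    (hin : ∀ᶠ n : ℕ in atTop, ∀ s : ℝ, ((j₀ + n : ℕ) : ℝ) ^ 8 ≤ s →
      s < ((j₀ + (n + 1) : ℕ) : ℝ) ^ 8 → ∑ b, |Y s b| ≤
        (∑ b, |Y (((j₀ + n : ℕ) : ℝ) ^ 8) b|) * exp (B * plen (j₀ + n))) :
    ∃ C : ℝ, ∀ s, 0 ≤ s → ∑ b, |Y s b| ≤ C * exp (k * s) := by
  have hst : ∀ n : ℕ, ∃ x : ℝ, Y (((j₀ + n : ℕ) : ℝ) ^ 8) = x • Pi.single ((σ ^ n) a) 1 := by
    intro n
    induction n with
    | zero => exact ⟨x₀, by simpa using hY0⟩
    | succ n ih =>
      obtain ⟨x, hx⟩ := ih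
      refine ⟨γ n * (x * ε ((σ ^ n) a) * G n (σ ((σ ^ n) a))), ?_⟩
      rw [hT n, hx, diag_mono_single, smul_smul, pow_succ', Equiv.Perm.mul_apply]
  have hnorm : ∀ (x : ℝ) (b : Fin d), ∑ c, |(x • (Pi.single b (1 : ℝ) : Fin d → ℝ)) c| = |x| := by
    intro x b
    rw [Finset.sum_eq_single b (fun c _ hc => by simp [Pi.single_eq_of_ne hc]) (by simp)]
    simp
  refine growth_of_cycle hY σ a g j₀ 1 hP hcyc hmean (fun η hη => ?_) hin
  filter_upwards [hG η hη] with n hn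
  obtain ⟨x, hx⟩ := hst n
  rw [hT n, hx, diag_mono_single, smul_smul, hnorm, hnorm, pow_succ', Equiv.Perm.mul_apply,
    show γ n * (x * ε ((σ ^ n) a) * G n (σ ((σ ^ n) a))) =
      x * ε ((σ ^ n) a) * (γ n * G n (σ ((σ ^ n) a))) by ring, abs_mul, abs_mul, hε, mul_one]
  exact mul_le_mul_of_nonneg_left (hn _) (abs_nonneg _)

end

end Vale.Agent.P225
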