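import Mathlib

/-!
# P225: exact solvability under a Lipschitz small perturbation, and inductive choice of parameters

Abstract lemmas: a map with surjective strict derivative keeps hitting its value after a
perturbation which is small at the base point and has small Lipschitz constant; and a sequence of
parameters can be chosen period by period when every period can be solved from a small state.
-/

namespace Vale.Agent.P225.Solve

open Metric

variable {E F : Type*} [NormedAddCommGroup E] [NormedSpace ℝ E] [CompleteSpace E]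
  [NormedAddCommGroup F] [NormedSpace ℝ F] [CompleteSpace F]

/-- Uniform solvability near a point with surjective strict derivative. -/
theorem exists_solve {f : E → F} {D : E →L[ℝ] F} {z₀ : E} (hf : HasStrictFDerivAt f D z₀)
    (hD : Function.Surjective D) :
    ∃ r > 0, ∃ η > 0, ∃ δ > 0, ∀ g : E → F,
      (∀ x ∈ closedBall z₀ r, ∀ y ∈ closedBall z₀ r, ‖g x - f x - (g y - f y)‖ ≤ η * ‖x - y‖) →
      ‖g z₀ - f z₀‖ ≤ δ → ∃ z ∈ closedBall z₀ r, g z = f z₀ := by
  have hr : D.range = ⊤ := LinearMap.range_eq_top.2 hD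
  let S := D.nonlinearRightInverseOfSurjective hr
  have hS : 0 < (S.nnnorm : ℝ) := D.nonlinearRightInverseOfSurjective_nnnorm_pos hr
  set c : NNReal := S.nnnorm⁻¹ / 3 with hc
  have hcpos : 0 < c := by
    rw [hc]; exact div_pos (inv_pos.2 (by exact_mod_cast hS)) (by norm_num)
  obtain ⟨s, hs, hap⟩ := hf.approximates_deriv_on_nhds (Or.inr hcpos)
  obtain ⟨ε, hε, hεs⟩ := Metric.mem_nhds_iff.1 hs
  refine ⟨ε / 2, half_pos hε, c, hcpos, (c : ℝ) * (ε / 2),
    mul_pos (by exact_mod_cast hcpos) (half_pos hε), fun g hg h0 => ?_⟩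
  have hsub : closedBall z₀ (ε / 2) ⊆ s := (closedBall_subset_ball (half_lt_self hε)).trans hεs
  have hg' : ApproximatesLinearOn g D (closedBall z₀ (ε / 2)) (c + c) := by
    intro x hx y hy
    calc ‖g x - g y - D (x - y)‖
        = ‖(g x - f x - (g y - f y)) + (f x - f y - D (x - y))‖ := by congr 1; abel
      _ ≤ c * ‖x - y‖ + c * ‖x - y‖ :=
          (norm_add_le _ _).trans (add_le_add (hg x hx y hy) (hap x (hsub hx) y (hsub hy)))
      _ = ((c + c : NNReal) : ℝ) * ‖x - y‖ := by push_cast; ring
  have hsurj := hg'.surjOn_closedBall_of_nonlinearRightInverse S (half_pos hε).le (subset_refl _)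
  refine hsurj ?_
  rw [mem_closedBall, dist_eq_norm']
  refine h0.trans (le_of_eq ?_)
  push_cast [hc]
  ring

/-- A state is carried through the periods when every period can be solved from an allowed state. -/
theorem exists_seq {T S : Type*} [Nonempty T] (ok : ℕ → S → Prop) (good : T → Prop)
    (step : ℕ → S → T → S → Prop) (j₀ : ℕ) (x₀ : S) (h₀ : ok j₀ x₀)
    (h : ∀ j ≥ j₀, ∀ x, ok j x → ∃ t x', good t ∧ step j x t x' ∧ ok (j + 1) x') :
    ∃ (τ : ℕ → T) (x : ℕ → S), x j₀ = x₀ ∧
      ∀ j ≥ j₀, ok j (x j) ∧ good (τ j) ∧ step j (x j) (τ j) (x (j + 1)) := by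
  classical
  choose! t x' hgood hstep hok using h
  let x : ℕ → S := fun j => Nat.rec x₀ (fun k y => if k < j₀ then x₀ else x' k y) j
  have hx0 : ∀ j ≤ j₀, x j = x₀ := by
    intro j hj
    cases j with
    | zero => rfl
    | succ k => exact if_pos (Nat.lt_of_succ_le hj)
  have hxs : ∀ j ≥ j₀, x (j + 1) = x' j (x j) := fun j hj => if_neg (not_lt.2 hj)
  have hinv : ∀ j ≥ j₀, ok j (x j) := by
    intro j hj
    induction j, hj using Nat.le_induction with
    | base => rw [hx0 j₀ le_rfl]; exact h₀
    | succ k hk ih => rw [hxs k hk]; exact hok k hk _ ih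
  refine ⟨fun j => t j (x j), x, hx0 j₀ le_rfl, fun j hj => ⟨hinv j hj, hgood j hj _ (hinv j hj), ?_⟩⟩
  rw [hxs j hj]
  exact hstep j hj _ (hinv j hj)

/-- A product of `n` factors bounded by `C` is bounded by `C ^ n`. -/
theorem norm_prod_le {A : Type*} [NormedRing A] [NormOneClass A] {C : ℝ} (hC : 0 ≤ C) :
    ∀ {n : ℕ} (u : Fin n → A), (∀ i, ‖u i‖ ≤ C) → ‖(List.ofFn u).prod‖ ≤ C ^ n := by
  intro n
  induction n with
  | zero => intro u _; simp
  | succ n ih =>
    intro u hu
    rw [List.ofFn_succ, List.prod_cons, pow_succ']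
    exact (norm_mul_le _ _).trans
      (mul_le_mul (hu 0) (ih _ fun i => hu i.succ) (norm_nonneg _) hC)

/-- Products of a uniformly bounded word depend on the factors in a Lipschitz way. -/
theorem norm_prod_sub_le {A : Type*} [NormedRing A] [NormOneClass A] {C : ℝ} (hC : 1 ≤ C) :
    ∀ {n : ℕ} (u v : Fin n → A), (∀ i, ‖u i‖ ≤ C) → (∀ i, ‖v i‖ ≤ C) →
      ‖(List.ofFn u).prod - (List.ofFn v).prod‖ ≤ C ^ n * ∑ i, ‖u i - v i‖ := by
  intro n
  induction n with
  | zero => intro u v _ _; simp
  | succ n ih =>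
    intro u v hu hv
    have hC0 : 0 ≤ C := zero_le_one.trans hC
    set a := (List.ofFn fun i : Fin n => u i.succ).prod
    set b := (List.ofFn fun i : Fin n => v i.succ).prod
    rw [List.ofFn_succ, List.ofFn_succ, List.prod_cons, List.prod_cons,
      show u 0 * a - v 0 * b = (u 0 - v 0) * b + u 0 * (a - b) by noncomm_ring, Fin.sum_univ_succ,
      mul_add]
    refine (norm_add_le _ _).trans (add_le_add ?_ ?_)
    · refine (norm_mul_le _ _).trans ?_
      rw [mul_comm (C ^ (n + 1))]
      refine mul_le_mul_of_nonneg_left ?_ (norm_nonneg _)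
      exact (norm_prod_le hC0 _ fun i => hv i.succ).trans (pow_le_pow_right₀ hC (Nat.le_succ n))
    · refine (norm_mul_le _ _).trans ?_
      rw [pow_succ', mul_assoc]
      exact mul_le_mul (hu 0) (ih _ _ (fun i => hu i.succ) fun i => hv i.succ) (norm_nonneg _) hC0

end Vale.Agent.P225.Solve
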