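import Vale.Agent.P225.Analysis.DwellEnd
import Vale.Agent.P225.Analysis.Growth
import Vale.Agent.P225.Analysis.Solve

/-!
# P225: the analysis module from the period limit and the gluing
-/

namespace Vale.Agent.P225

open Filter Topology Real Set Matrix

noncomputable section

variable {d : ℕ}

/-- The sum of the absolute values of the entries. -/
def entrySum (A : Matrix (Fin d) (Fin d) ℝ) : ℝ := ∑ a, ∑ b, |A a b|

lemma entrySum_nonneg (A : Matrix (Fin d) (Fin d) ℝ) : 0 ≤ entrySum A :=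
  Finset.sum_nonneg fun _ _ => Finset.sum_nonneg fun _ _ => abs_nonneg _

lemma abs_conj_entry_le (A E B : Matrix (Fin d) (Fin d) ℝ) {c : ℝ} (hc : 0 ≤ c)
    (hE : ∀ a b, |E a b| ≤ c) (a b : Fin d) :
    |(A * E * B) a b| ≤ entrySum A * entrySum B * c := by
  have hAE : ∀ x, |(A * E) a x| ≤ entrySum A * c := fun x => by
    rw [Matrix.mul_apply]
    refine (Finset.abs_sum_le_sum_abs _ _).trans ?_
    refine (Finset.sum_le_sum fun y _ => (abs_mul _ _).trans_le
      (mul_le_mul_of_nonneg_left (hE y x) (abs_nonneg _))).trans ?_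
    rw [← Finset.sum_mul]
    exact mul_le_mul_of_nonneg_right (Finset.single_le_sum (f := fun i => ∑ y, |A i y|)
      (fun i _ => Finset.sum_nonneg fun y _ => abs_nonneg _) (Finset.mem_univ a)) hc
  rw [Matrix.mul_apply]
  refine (Finset.abs_sum_le_sum_abs _ _).trans ?_
  refine (Finset.sum_le_sum fun x _ => (abs_mul _ _).trans_le
    (mul_le_mul_of_nonneg_right (hAE x) (abs_nonneg _))).trans ?_
  rw [← Finset.mul_sum, mul_right_comm (entrySum A) (entrySum B) c]
  refine mul_le_mul_of_nonneg_left ?_ (mul_nonneg (entrySum_nonneg A) hc)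
  exact Finset.sum_le_sum fun x _ => Finset.single_le_sum (f := fun i => |B x i|)
    (fun i _ => abs_nonneg _) (Finset.mem_univ b)

lemma abs_entry_le_norm {L : ℕ} {dim : Fin L → ℕ} (E : State dim) (i : Fin L)
    (a b : Fin (dim i)) : |E i a b| ≤ ‖E‖ :=
  (norm_le_pi_norm (E i a) b).trans ((norm_le_pi_norm (E i) a).trans (norm_le_pi_norm E i))

theorem analysis_of (hP : PeriodLimitStmt) (hG : GlueStmt) : AnalysisStmt := by
  intro κ L M l dim q R Ri σ sgn τ₀ γ₀ D hκ _hl hq hR hsgn htarget hD hsurj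
  obtain ⟨r, hr, η, hη, δ, hδ, hsolve⟩ := Solve.exists_solve hD hsurj
  set z₀ : (Fin M → ℝ) × (Fin L → ℝ) := (τ₀, γ₀) with hz₀
  set T : ℝ := ‖z₀‖ + r with hTdef
  have hT : 0 ≤ T := by positivity
  -- one constant for all conjugations
  set K : ℝ := 1 + ∑ i, ((dim i : ℝ) + ∑ k, (dim i : ℝ) * (entrySum (Ri k i) * entrySum (R k i)))
    with hK
  have hterm : ∀ i, 0 ≤ (dim i : ℝ) + ∑ k, (dim i : ℝ) * (entrySum (Ri k i) * entrySum (R k i)) :=
    fun i => add_nonneg (Nat.cast_nonneg _) (Finset.sum_nonneg fun k _ =>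
      mul_nonneg (Nat.cast_nonneg _) (mul_nonneg (entrySum_nonneg _) (entrySum_nonneg _)))
  have hK1 : 1 ≤ K := le_add_of_nonneg_right (Finset.sum_nonneg fun i _ => hterm i)
  have hK0 : 0 < K := zero_lt_one.trans_le hK1
  have hKd : ∀ i, (dim i : ℝ) ≤ K ∧
      ∀ k, (dim i : ℝ) * (entrySum (Ri k i) * entrySum (R k i)) ≤ K := fun i => by
    have h1 := Finset.single_le_sum (fun i _ => hterm i) (Finset.mem_univ i)
    have h2 : ∀ k, 0 ≤ (dim i : ℝ) * (entrySum (Ri k i) * entrySum (R k i)) := fun k =>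
      mul_nonneg (Nat.cast_nonneg _) (mul_nonneg (entrySum_nonneg _) (entrySum_nonneg _))
    refine ⟨?_, fun k => ?_⟩
    · linarith [Finset.sum_nonneg fun k (_ : k ∈ (Finset.univ : Finset (Fin M))) => h2 k]
    · linarith [Finset.single_le_sum (fun k _ => h2 k) (Finset.mem_univ k),
        (Nat.cast_nonneg (dim i) : (0 : ℝ) ≤ _)]
  set ε : ℝ := min (min η δ) (min 1 (1 / (2 * K))) with hεdef
  have hε : 0 < ε := lt_min (lt_min hη hδ) (lt_min one_pos (by positivity))
  have hεη : ε ≤ η := (min_le_left _ _).trans (min_le_left _ _)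
  have hεδ : ε ≤ δ := (min_le_left _ _).trans (min_le_right _ _)
  have hε1 : ε ≤ 1 := (min_le_right _ _).trans (min_le_left _ _)
  have hεK : K * ε ≤ 1 / 2 := by
    calc K * ε ≤ K * (1 / (2 * K)) :=
          mul_le_mul_of_nonneg_left ((min_le_right _ _).trans (min_le_right _ _)) hK0.le
      _ = 1 / 2 := by field_simp
  obtain ⟨δE, hδE, hlimit⟩ := hP κ L M l dim q R Ri T hκ hq hR ε hε
  refine ⟨T, ?_⟩
  have hend : ∀ᶠ j₀ : ℕ in atTop, ∀ i, ∀ j, j₀ ≤ j → ∀ E : Matrix (Fin (dim i)) (Fin (dim i)) ℝ,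
      (∀ a b, (dim i : ℝ) * |E a b| ≤ 1 / 2 ∧ |E a b| ≤ 1) →
      ∀ a b, |blockE (rho κ j₀) (dwTheta M j) (l i) (q i) 1 1 E (exStart j M)
        (((j : ℝ) + 1) ^ 8) a b| ≤ δE :=
    eventually_all.2 fun i => eventually_dwell_end hκ M (l i) (q i) (hq i) hδE
  filter_upwards [hlimit, hend, eventually_coefOK hκ M T] with j₀ hlim hnext hc
  obtain ⟨hrho, hM, hcoef⟩ := hc
  set ρ := rho κ j₀ with hρ
  set target : State dim := fun i => monoMat (σ i) (sgn i) with htgt
  have hball : ∀ z ∈ Metric.closedBall z₀ r, ‖z‖ ≤ T := fun z hz => by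
    rw [Metric.mem_closedBall, dist_eq_norm] at hz
    calc ‖z‖ = ‖z₀ + (z - z₀)‖ := by rw [add_sub_cancel]
      _ ≤ ‖z₀‖ + ‖z - z₀‖ := norm_add_le _ _
      _ ≤ T := by rw [hTdef]; linarith
  have hτT : ∀ z : (Fin M → ℝ) × (Fin L → ℝ), ‖z‖ ≤ T → ∀ k, |z.1 k| ≤ T := fun z hz k =>
    (norm_le_pi_norm z.1 k).trans ((norm_fst_le z).trans hz)
  -- one period
  have hstep : ∀ j ≥ j₀, ∀ E : State dim, ‖E‖ ≤ δE → ∃ z E', ‖z‖ ≤ T ∧
      IsStep ρ j l q R Ri target E z E' ∧ ‖E'‖ ≤ δE := by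
    intro j hj E hE
    have hl := hlim j hj E hE
    obtain ⟨z, hz, hzeq⟩ := hsolve (periodMap ρ j l q R Ri E) (fun x hx y hy =>
      (hl x y (hball x hx) (hball y hy)).2.1.trans
        (mul_le_mul_of_nonneg_right hεη (norm_nonneg _)))
      ((hl z₀ z₀ (hball z₀ (Metric.mem_closedBall_self hr.le))
        (hball z₀ (Metric.mem_closedBall_self hr.le))).1.trans hεδ)
    refine ⟨z, nextState ρ j l q R Ri E z.1, hball z hz, ⟨hzeq.trans htarget, rfl⟩, ?_⟩
    have hst := (hl z z (hball z hz) (hball z hz)).2.2.1 M le_rfl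
    refine (pi_norm_le_iff_of_nonneg hδE.le).2 fun i =>
      (pi_norm_le_iff_of_nonneg hδE.le).2 fun a => (pi_norm_le_iff_of_nonneg hδE.le).2 fun b => ?_
    refine hnext i j hj _ (fun a b => ⟨?_, (hst i a b).trans hε1⟩) a b
    exact (mul_le_mul (hKd i).1 (hst i a b) (abs_nonneg _) hK0.le).trans hεK
  obtain ⟨zs, Es, hE0, hall⟩ := Solve.exists_seq (T := (Fin M → ℝ) × (Fin L → ℝ)) (S := State dim)
    (fun _ E => ‖E‖ ≤ δE) (fun z => ‖z‖ ≤ T) (fun j E z E' => IsStep ρ j l q R Ri target E z E')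
    j₀ 0 (by rw [norm_zero]; exact hδE.le) hstep
  set τ : ℕ → Fin M → ℝ := fun j => if j₀ ≤ j then (zs j).1 else fun _ => 0 with hτdef
  have hτ : ∀ j k, |τ j k| ≤ T := fun j k => by
    by_cases h : j₀ ≤ j
    · simp only [hτdef, if_pos h]; exact hτT _ (hall j h).2.1 k
    · simp only [hτdef, if_neg h, abs_zero]; exact hT
  refine ⟨τ, hτ, fun i a => ?_⟩
  obtain ⟨Y, hYs, hY0, hYode, hYstart, hYstep, C, hYin⟩ := hG κ M T (l i) (dim i) (q i)
    (fun k => R k i) (fun k => Ri k i) j₀ τ (fun j => Matrix.of (Es j i)) (Pi.single a 1) hrho hM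
    hτ (hcoef τ hτ) (hq i) (fun k => hR k i) (by rw [hE0]; rfl) (fun j hj => by
      obtain ⟨hEj, hzj, heq, hnx⟩ := hall j hj
      have hst := (hlim j hj (Es j) hEj (zs j) (zs j) hzj hzj).2.2.1
      have eτ : τ j = (zs j).1 := if_pos hj
      rw [eτ]
      refine ⟨by rw [hnx]; rfl, fun k hk a b => (hst k hk i a b).trans hε1, fun k hk a b => ?_,
        fun a b => ?_⟩
      · calc (dim i : ℝ) * |(Ri ⟨k, hk⟩ i *
              (exState ρ j (l i) (q i) (fun k => R k i) (fun k => Ri k i) (zs j).1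
                (Matrix.of (Es j i)) k).1 * R ⟨k, hk⟩ i) a b|
            ≤ (dim i : ℝ) * (entrySum (Ri ⟨k, hk⟩ i) * entrySum (R ⟨k, hk⟩ i) * ε) :=
              mul_le_mul_of_nonneg_left
                (abs_conj_entry_le _ _ _ hε.le (hst k hk.le i) a b) (Nat.cast_nonneg _)
          _ ≤ K * ε := by
              rw [← mul_assoc]; exact mul_le_mul_of_nonneg_right ((hKd i).2 _) hε.le
          _ < 1 := by linarith
      · have := mul_le_mul (hKd i).1 (hst M le_rfl i a b) (abs_nonneg _) hK0.le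
        rw [exEnd]; linarith)
  refine ⟨Y, hYs, hY0, hYode, fun k P hP1 hcyc hmean => ?_⟩
  have hround : CoefOK ρ noTheta := (hcoef τ hτ).round
  refine growth_of_transfer (γ := fun n => roundG ρ (l i) ((j₀ + n : ℕ) ^ 8 : ℝ)
      (exStart (j₀ + n) M) * exp ((zs (j₀ + n)).2 i))
    (G := fun n b => gFun ρ (dwTheta M (j₀ + n)) (l i) (q i b) (exStart (j₀ + n) M)
      ((((j₀ + n : ℕ) : ℝ) + 1) ^ 8))
    (g := fun b => dwellExp (l i) (q i b)) (B := |C|) hYs.continuous (σ i) (hsgn i) a j₀ hP1 hcyc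
    hmean hYstart (fun n => ?_) (fun η' hη' => ?_) ?_
  · obtain ⟨-, -, heq, -⟩ := hall (j₀ + n) (Nat.le_add_right _ _)
    have eτ : τ (j₀ + n) = (zs (j₀ + n)).1 := if_pos (Nat.le_add_right _ _)
    have hX : periodX ρ (j₀ + n) (l i) (q i) (fun k => R k i) (fun k => Ri k i) (τ (j₀ + n))
        (Matrix.of (Es (j₀ + n) i)) =
        exp ((zs (j₀ + n)).2 i) • Matrix.of (monoMat (σ i) (sgn i)) := by
      ext x y
      have h1 := congrFun (congrFun (congrFun heq i) x) y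
      simp only [periodMap, htgt] at h1
      rw [eτ, Matrix.smul_apply, Matrix.of_apply, smul_eq_mul, ← h1, ← mul_assoc, ← exp_add,
        add_neg_cancel, exp_zero, one_mul]
    have e : (((j₀ + (n + 1) : ℕ) : ℝ)) ^ 8 = ((((j₀ + n : ℕ) : ℝ)) + 1) ^ 8 := by push_cast; ring
    rw [e, hYstep (j₀ + n) (Nat.le_add_right _ _), hX, Matrix.mul_smul, smul_smul,
      Matrix.smul_mulVec, Matrix.mulVec_mulVec]
  · have hev : ∀ᶠ j : ℕ in atTop, (∀ b, roundG ρ (l i) ((j : ℝ) ^ 8) (exStart j M) *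
        gFun ρ (dwTheta M j) (l i) (q i b) (exStart j M) (((j : ℝ) + 1) ^ 8) ≤
        exp ((dwellExp (l i) (q i b) + η' / 2) * plen j)) ∧ T * unit' j ≤ η' / 2 * plen j ∧
        1 ≤ unit' j := by
      filter_upwards [eventually_all.2 fun b => period_factor_le hrho hround (hq i b) M (half_pos hη'),
        eventually_unit_small T (half_pos hη')] with j h1 h2 using ⟨h1, h2.2, h2.1⟩
    filter_upwards [(tendsto_atTop_mono (fun n => Nat.le_add_left n j₀) tendsto_id).eventually hev]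
      with n hn b
    obtain ⟨h1, h2, h3⟩ := hn
    have hγ : (zs (j₀ + n)).2 i ≤ T * unit' (j₀ + n) :=
      ((le_abs_self _).trans ((norm_le_pi_norm (zs (j₀ + n)).2 i).trans
        ((norm_snd_le _).trans (hall (j₀ + n) (Nat.le_add_right _ _)).2.1))).trans
        (le_mul_of_one_le_right hT h3)
    have h1b := h1 b
    rw [roundG, gFun] at h1b
    simp only [roundG, gFun]
    rw [abs_of_pos (by positivity)]
    calc _ = exp ((zs (j₀ + n)).2 i) *
          (exp (∫ x in ((j₀ + n : ℕ) : ℝ) ^ 8..exStart (j₀ + n) M, roundW ρ (l i) x) *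
            exp (∫ x in exStart (j₀ + n) M..(((j₀ + n : ℕ) : ℝ) + 1) ^ 8,
              wSol ρ (dwTheta M (j₀ + n)) (l i) (q i b) (exStart (j₀ + n) M) x)) := by ring
      _ ≤ exp (η' / 2 * plen (j₀ + n)) *
          exp ((dwellExp (l i) (q i b) + η' / 2) * plen (j₀ + n)) :=
          mul_le_mul (exp_le_exp.2 (hγ.trans h2)) h1b (by positivity) (exp_pos _).le
      _ = _ := by rw [← exp_add]; ring_nf
  · filter_upwards with n s hs1 hs2
    have e : (((j₀ + (n + 1) : ℕ) : ℝ)) ^ 8 = ((((j₀ + n : ℕ) : ℝ)) + 1) ^ 8 := by push_cast; ring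
    refine (hYin (j₀ + n) (Nat.le_add_right _ _) s hs1 (e ▸ hs2)).trans ?_
    rw [mul_comm]
    refine mul_le_mul_of_nonneg_left (exp_le_exp.2 ?_) (by positivity)
    have h7 : (((j₀ + n : ℕ) : ℝ) + 1) ^ 7 ≤ plen (j₀ + n) := by
      rw [plen]
      have hj : (0 : ℝ) ≤ ((j₀ + n : ℕ) : ℝ) := Nat.cast_nonneg _
      have := pow_le_pow_left₀ hj (le_add_of_nonneg_right zero_le_one) 7
      nlinarith
    exact (mul_le_mul_of_nonneg_right (le_abs_self C) (by positivity)).trans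
      (mul_le_mul_of_nonneg_left h7 (abs_nonneg C))

end

end Vale.Agent.P225
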