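import Vale.Agent.P225.Analysis.Round

/-!
# P225: the scalar quantities of one block and their Lipschitz estimates
-/

namespace Vale.Agent.P225

open Filter Topology Real Set MeasureTheory intervalIntegral

noncomputable section

/-- The integral of `vRel` over a block. -/
def vInt (ρ θ : ℝ → ℝ) (l q : ℕ) (c e : ℝ) : ℝ := ∫ t in c..e, vRel ρ θ l q c t

/-- The derivative of `hFun`. -/
def hDer (ρ θ : ℝ → ℝ) (l q : ℕ) (c t : ℝ) : ℝ :=
  exp (-∫ x in c..t, (drift ρ x + 2 * wSol ρ θ l q c x))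

/-- The ratio of the two fundamental solutions. -/
def hFun (ρ θ : ℝ → ℝ) (l q : ℕ) (c t : ℝ) : ℝ := ∫ u in c..t, hDer ρ θ l q c u

/-- The fundamental solution with the round initial slope. -/
def gFun (ρ θ : ℝ → ℝ) (l q : ℕ) (c t : ℝ) : ℝ := exp (∫ x in c..t, wSol ρ θ l q c x)

variable {ρ θ θ' : ℝ → ℝ} {l q : ℕ} {c e : ℝ}

lemma wSol_mem (h : CoefOK ρ θ) (hq : q ≤ l) {t : ℝ} (ht : c ≤ t) :
    0 ≤ wSol ρ θ l q c t ∧ wSol ρ θ l q c t ≤ wMax l :=
  (h.ricData hq).sol_mem (roundW_mem h.round l c).1 (roundW_mem h.round l c).2 ht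

lemma wSol_deriv (h : CoefOK ρ θ) (hq : q ≤ l) {t : ℝ} (ht : c ≤ t) :
    HasDerivAt (wSol ρ θ l q c)
      (pot ρ θ l q t - drift ρ t * wSol ρ θ l q c t - wSol ρ θ l q c t ^ 2) t :=
  (h.ricData hq).sol_deriv (roundW_mem h.round l c).1 (roundW_mem h.round l c).2 ht

lemma wSol_continuous (h : CoefOK ρ θ) (hq : q ≤ l) (c : ℝ) : Continuous (wSol ρ θ l q c) :=
  (h.ricData hq).sol_continuous _ _

lemma wSol_self (h : CoefOK ρ θ) (hq : q ≤ l) (c : ℝ) :
    wSol ρ θ l q c c = roundW ρ l c :=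
  (h.ricData hq).sol_init _ _

lemma vRel_self (h : CoefOK ρ θ) (hq : q ≤ l) (c : ℝ) : vRel ρ θ l q c c = 0 := by
  rw [vRel, wSol_self h hq, sub_self]

lemma vRel_continuous (h : CoefOK ρ θ) (hf : StartsFlat ρ) (hq : q ≤ l) (c : ℝ) :
    Continuous (vRel ρ θ l q c) :=
  (wSol_continuous h hq c).sub (roundW_continuous h.round hf l)

lemma vRel_deriv (h : CoefOK ρ θ) (hf : StartsFlat ρ) (hq : q ≤ l) {t : ℝ} (ht : c ≤ t) :
    HasDerivAt (vRel ρ θ l q c)
      (pot ρ θ l q t - lam l / ρ t ^ 2 -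
        (drift ρ t + 2 * roundW ρ l t + vRel ρ θ l q c t) * vRel ρ θ l q c t) t :=
  ((wSol_deriv h hq ht).sub (roundW_deriv h.round hf l t)).congr_deriv
    (by simp only [vRel]; ring)

/-- A bound for `vRel` from a start `b` on. -/
lemma vRel_bound (h : CoefOK ρ θ) (hf : StartsFlat ρ) (hq : q ≤ l) {b R : ℝ} (hcb : c ≤ b)
    (hR : 0 ≤ R) (hr : ∀ t ∈ Ioo b e, |pot ρ θ l q t - lam l / ρ t ^ 2| ≤ R) :
    ∀ t ∈ Icc b e, |vRel ρ θ l q c t| ≤
      |vRel ρ θ l q c b| * exp (-((p₀ : ℝ) * (t - b))) + R / p₀ :=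
  linear_abs (a := fun t => drift ρ t + 2 * roundW ρ l t + vRel ρ θ l q c t) (by norm_num [p₀]) hR
    (vRel_continuous h hf hq c).continuousOn
    (fun _ ht => vRel_deriv h hf hq (hcb.trans ht.1.le))
    (fun t ht => by
      have := (wSol_mem h hq (hcb.trans ht.1.le)).1
      have := (roundW_mem h.round l t).1
      simp only [vRel]; linarith [(h.2.2.2 t).2.2.1]) hr

/-- A bound for the difference of two solutions from a start `b` on. -/
lemma vRel_sub_bound (h : CoefOK ρ θ) (h' : CoefOK ρ θ') (hf : StartsFlat ρ) (hq : q ≤ l)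
    {b R : ℝ} (hcb : c ≤ b) (hR : 0 ≤ R)
    (hr : ∀ t ∈ Ioo b e, |pot ρ θ l q t - pot ρ θ' l q t| ≤ R) :
    ∀ t ∈ Icc b e, |vRel ρ θ l q c t - vRel ρ θ' l q c t| ≤
      |vRel ρ θ l q c b - vRel ρ θ' l q c b| * exp (-((p₀ : ℝ) * (t - b))) + R / p₀ :=
  linear_abs (a := fun t => drift ρ t + wSol ρ θ l q c t + wSol ρ θ' l q c t) (by norm_num [p₀]) hR
    ((vRel_continuous h hf hq c).sub (vRel_continuous h' hf hq c)).continuousOn
    (fun _ ht => ((vRel_deriv h hf hq (hcb.trans ht.1.le)).sub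
      (vRel_deriv h' hf hq (hcb.trans ht.1.le))).congr_deriv (by simp only [vRel]; ring))
    (fun t ht => by
      linarith [(wSol_mem h hq (hcb.trans ht.1.le)).1, (wSol_mem h' hq (hcb.trans ht.1.le)).1,
        (h.2.2.2 t).2.2.1]) hr

lemma integral_exp_decay {p : ℝ} (hp : 0 < p) (hce : c ≤ e) :
    ∫ u in c..e, exp (-(p * (u - c))) ≤ 1 / p := by
  have hd : ∀ u ∈ uIcc c e, HasDerivAt (fun u => -(exp (-(p * (u - c))) / p))
      (exp (-(p * (u - c)))) u := fun u _ =>
    (((((hasDerivAt_id u).sub_const c).const_mul p).neg.exp).div_const p).neg.congr_deriv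
      (by simp; field_simp)
  rw [integral_eq_sub_of_hasDerivAt hd
    ((Continuous.intervalIntegrable (by fun_prop) _ _))]
  simp only [sub_self, mul_zero, neg_zero, exp_zero]
  have : 0 ≤ exp (-(p * (e - c))) / p := by positivity
  linarith

lemma hExp_continuous (h : CoefOK ρ θ) (hq : q ≤ l) (c : ℝ) :
    Continuous fun x => drift ρ x + 2 * wSol ρ θ l q c x :=
  h.2.2.1.add (continuous_const.mul (wSol_continuous h hq c))

lemma hDer_continuous (h : CoefOK ρ θ) (hq : q ≤ l) (c : ℝ) : Continuous (hDer ρ θ l q c) :=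
  continuous_exp.comp (continuous_primitive
    (fun _ _ => (hExp_continuous h hq c).intervalIntegrable _ _) c).neg

lemma le_hExp (h : CoefOK ρ θ) (hq : q ≤ l) {t : ℝ} (ht : c ≤ t) :
    (p₀ : ℝ) * (t - c) ≤ ∫ x in c..t, (drift ρ x + 2 * wSol ρ θ l q c x) := by
  have := intervalIntegral.integral_mono_on (μ := volume) ht
    (continuous_const.intervalIntegrable _ _) ((hExp_continuous h hq c).intervalIntegrable _ _)
    (f := fun _ => (p₀ : ℝ))
    (fun x hx => by linarith [(h.2.2.2 x).2.2.1, (wSol_mem h hq hx.1).1])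
  rw [intervalIntegral.integral_const, smul_eq_mul] at this
  linarith

lemma hDer_le (h : CoefOK ρ θ) (hq : q ≤ l) {t : ℝ} (ht : c ≤ t) :
    0 ≤ hDer ρ θ l q c t ∧ hDer ρ θ l q c t ≤ exp (-((p₀ : ℝ) * (t - c))) :=
  ⟨(exp_pos _).le, exp_le_exp.2 (neg_le_neg (le_hExp h hq ht))⟩

lemma hFun_mem (h : CoefOK ρ θ) (hq : q ≤ l) (hce : c ≤ e) :
    0 ≤ hFun ρ θ l q c e ∧ hFun ρ θ l q c e ≤ 1 / p₀ := by
  constructor
  · exact intervalIntegral.integral_nonneg hce fun u hu => (hDer_le h hq hu.1).1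
  · refine le_trans ?_ (integral_exp_decay (by norm_num [p₀]) hce)
    exact intervalIntegral.integral_mono_on hce ((hDer_continuous h hq c).intervalIntegrable _ _)
      (Continuous.intervalIntegrable (by fun_prop) _ _) fun u hu => (hDer_le h hq hu.1).2

lemma exp_neg_lip {a b m : ℝ} (ha : m ≤ a) (hb : m ≤ b) :
    |exp (-a) - exp (-b)| ≤ exp (-m) * |a - b| := by
  have := Convex.norm_image_sub_le_of_norm_hasDerivWithin_le (f := fun x => exp (-x))
    (f' := fun x => -exp (-x)) (s := Ici m) (C := exp (-m))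
    (fun x _ => by simpa using ((hasDerivAt_id x).neg.exp).hasDerivWithinAt)
    (fun x hx => by
      rw [norm_neg, norm_eq_abs, abs_of_pos (exp_pos _)]
      exact exp_le_exp.2 (neg_le_neg hx)) (convex_Ici m) hb ha
  simpa [norm_eq_abs] using this

lemma hDer_sub_le (h : CoefOK ρ θ) (h' : CoefOK ρ θ') (hf : StartsFlat ρ) (hq : q ≤ l) {D t : ℝ}
    (ht : c ≤ t) (hD : ∀ x ∈ Icc c t, |vRel ρ θ l q c x - vRel ρ θ' l q c x| ≤ D) :
    |hDer ρ θ l q c t - hDer ρ θ' l q c t| ≤
      exp (-((p₀ : ℝ) * (t - c))) * (2 * D * (t - c)) := by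
  refine (exp_neg_lip (le_hExp h hq ht) (le_hExp h' hq ht)).trans
    (mul_le_mul_of_nonneg_left ?_ (exp_pos _).le)
  rw [← intervalIntegral.integral_sub ((hExp_continuous h hq c).intervalIntegrable _ _)
    ((hExp_continuous h' hq c).intervalIntegrable _ _)]
  have := intervalIntegral.norm_integral_le_of_norm_le_const (a := c) (b := t) (C := 2 * D)
    (f := fun x => drift ρ x + 2 * wSol ρ θ l q c x - (drift ρ x + 2 * wSol ρ θ' l q c x))
    (fun x hx => by
      rw [uIoc_of_le ht] at hx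
      have hx' := hD x ⟨hx.1.le, hx.2⟩
      simp only [vRel, sub_sub_sub_cancel_right] at hx'
      rw [norm_eq_abs, add_sub_add_left_eq_sub, ← mul_sub, abs_mul,
        abs_of_pos (show (0 : ℝ) < 2 by norm_num)]
      linarith)
  rwa [norm_eq_abs, abs_of_nonneg (sub_nonneg.2 ht)] at this

lemma mul_exp_decay_le {p x : ℝ} (hp : 0 < p) :
    x * exp (-(p * x)) ≤ 2 / p * exp (-(p / 2 * x)) := by
  have h := add_one_le_exp (p / 2 * x)
  have e : exp (-(p * x)) = exp (-(p / 2 * x)) * exp (-(p / 2 * x)) := by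
    rw [← exp_add]; ring_nf
  have h2 : x * exp (-(p / 2 * x)) ≤ 2 / p := by
    rw [exp_neg, mul_inv_le_iff₀ (exp_pos _), div_mul_eq_mul_div, le_div_iff₀ hp]
    linarith
  rw [e, ← mul_assoc]
  exact mul_le_mul_of_nonneg_right h2 (exp_pos _).le

lemma hFun_sub_le (h : CoefOK ρ θ) (h' : CoefOK ρ θ') (hf : StartsFlat ρ) (hq : q ≤ l) {D : ℝ}
    (hce : c ≤ e) (hD0 : 0 ≤ D)
    (hD : ∀ x ∈ Icc c e, |vRel ρ θ l q c x - vRel ρ θ' l q c x| ≤ D) :
    |hFun ρ θ l q c e - hFun ρ θ' l q c e| ≤ D := by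
  rw [hFun, hFun, ← intervalIntegral.integral_sub ((hDer_continuous h hq c).intervalIntegrable _ _)
    ((hDer_continuous h' hq c).intervalIntegrable _ _), ← norm_eq_abs]
  refine (intervalIntegral.norm_integral_le_integral_norm hce).trans ?_
  have hc : Continuous fun u : ℝ => 2 * D * (2 / (p₀ : ℝ)) * exp (-((p₀ : ℝ) / 2 * (u - c))) := by
    fun_prop
  refine (intervalIntegral.integral_mono_on hce
    (((hDer_continuous h hq c).sub (hDer_continuous h' hq c)).norm.intervalIntegrable _ _)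
    (hc.intervalIntegrable _ _) fun u hu => ?_).trans ?_
  · refine (hDer_sub_le h h' hf hq hu.1 (fun x hx => hD x ⟨hx.1, hx.2.trans hu.2⟩)).trans ?_
    have := mul_le_mul_of_nonneg_left (mul_exp_decay_le (x := u - c)
      (show (0 : ℝ) < p₀ by norm_num [p₀])) (mul_nonneg zero_le_two hD0)
    linarith
  · rw [intervalIntegral.integral_const_mul]
    have := mul_le_mul_of_nonneg_left (integral_exp_decay (c := c) (e := e)
      (show (0 : ℝ) < (p₀ : ℝ) / 2 by norm_num [p₀]) hce)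
      (show 0 ≤ 2 * D * (2 / (p₀ : ℝ)) by positivity)
    have e0 : 2 * D * (2 / (p₀ : ℝ)) * (1 / ((p₀ : ℝ) / 2)) ≤ D := by norm_num [p₀]; linarith
    linarith

/-- The integrated linear equation. -/
lemma integral_identity {v r u μ w₀ : ℝ → ℝ} {α p : ℝ} (hce : c ≤ e) (hv : Continuous v)
    (hr : Continuous r) (hu : Continuous u) (hμ : Continuous μ) (hw : Continuous w₀)
    (hd : ∀ t ∈ Icc c e, HasDerivAt v (r t - (μ t + 2 * w₀ t + u t) * v t) t) :
    (2 * α + 2 * p) * ∫ t in c..e, v t =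
      (∫ t in c..e, r t) - (v e - v c) -
        ∫ t in c..e, (u t + 2 * (w₀ t - α) + (μ t - 2 * p)) * v t := by
  have hf : Continuous fun t => (μ t + 2 * w₀ t + u t) * v t := by fun_prop
  have h := integral_eq_sub_of_hasDerivAt (a := c) (b := e)
    (fun t ht => hd t (by rwa [uIcc_of_le hce] at ht)) ((hr.sub hf).intervalIntegrable _ _)
  rw [intervalIntegral.integral_sub (hr.intervalIntegrable _ _) (hf.intervalIntegrable _ _)] at h
  have hg : Continuous fun t => (u t + 2 * (w₀ t - α) + (μ t - 2 * p)) * v t := by fun_prop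
  have h2 : ∫ t in c..e, (μ t + 2 * w₀ t + u t) * v t =
      (2 * α + 2 * p) * (∫ t in c..e, v t) +
        ∫ t in c..e, (u t + 2 * (w₀ t - α) + (μ t - 2 * p)) * v t := by
    have hv2 : Continuous fun t => (2 * α + 2 * p) * v t := by fun_prop
    rw [← intervalIntegral.integral_const_mul, ← intervalIntegral.integral_add
      (f := fun t => (2 * α + 2 * p) * v t)
      (g := fun t => (u t + 2 * (w₀ t - α) + (μ t - 2 * p)) * v t)
      (hv2.intervalIntegrable _ _) (hg.intervalIntegrable _ _)]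
    exact intervalIntegral.integral_congr fun t _ => by ring
  linarith

end

end Vale.Agent.P225
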