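import Mathlib

/-!
# P225: exact transfer on a block with a fixed conjugation

If every `w a` solves `w' + w² + μ w = K a` on a block and `E` is a matrix, then
`diag (G) (1 + diag (h) E)` solves `y'' + μ y' = diag (K) y` with initial value `1` and initial
derivative `diag (w c) + E`, where `G a = exp (∫ w a)` and `h a = ∫ exp (-∫ (μ + 2 w a))`.
-/

namespace Vale.Agent.P225.Block

open Real MeasureTheory intervalIntegral Set

noncomputable section

variable {d : ℕ}

/-- The growth factor `exp (∫ w)`. -/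
def gFac (w : ℝ → ℝ) (c t : ℝ) : ℝ := exp (∫ r in c..t, w r)

/-- The derivative of `hFac`. -/
def hDer (μ w : ℝ → ℝ) (c t : ℝ) : ℝ := exp (-∫ r in c..t, (μ r + 2 * w r))

/-- The integrated second solution. -/
def hFac (μ w : ℝ → ℝ) (c t : ℝ) : ℝ := ∫ r in c..t, hDer μ w c r

variable {μ w : ℝ → ℝ}

lemma gFac_self (w : ℝ → ℝ) (c : ℝ) : gFac w c c = 1 := by simp [gFac]

lemma hFac_self (μ w : ℝ → ℝ) (c : ℝ) : hFac μ w c c = 0 := by simp [hFac]

lemma hDer_self (μ w : ℝ → ℝ) (c : ℝ) : hDer μ w c c = 1 := by simp [hDer]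

lemma gFac_pos (w : ℝ → ℝ) (c t : ℝ) : 0 < gFac w c t := exp_pos _

lemma hDer_pos (μ w : ℝ → ℝ) (c t : ℝ) : 0 < hDer μ w c t := exp_pos _

lemma hasDerivAt_gFac (hw : Continuous w) (c t : ℝ) :
    HasDerivAt (gFac w c) (w t * gFac w c t) t := by
  have h := (integral_hasDerivAt_right (hw.intervalIntegrable c t)
    hw.aestronglyMeasurable.stronglyMeasurableAtFilter hw.continuousAt).exp
  rw [mul_comm]
  exact h

lemma hasDerivAt_hDer (hμ : Continuous μ) (hw : Continuous w) (c t : ℝ) :
    HasDerivAt (hDer μ w c) (-(μ t + 2 * w t) * hDer μ w c t) t := by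
  have hc : Continuous fun r => μ r + 2 * w r := hμ.add (continuous_const.mul hw)
  have h := ((integral_hasDerivAt_right (hc.intervalIntegrable c t)
    hc.aestronglyMeasurable.stronglyMeasurableAtFilter hc.continuousAt).neg).exp
  rw [mul_comm]
  exact h

lemma continuous_hDer (hμ : Continuous μ) (hw : Continuous w) (c : ℝ) :
    Continuous (hDer μ w c) :=
  continuous_iff_continuousAt.2 fun t => (hasDerivAt_hDer hμ hw c t).continuousAt

lemma hasDerivAt_hFac (hμ : Continuous μ) (hw : Continuous w) (c t : ℝ) :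
    HasDerivAt (hFac μ w c) (hDer μ w c t) t := by
  have h := continuous_hDer hμ hw c
  exact integral_hasDerivAt_right (h.intervalIntegrable c t)
    h.aestronglyMeasurable.stronglyMeasurableAtFilter h.continuousAt

/-- Decay of `hDer` when `μ + 2 w` is at least `p`. -/
lemma hDer_le (hμ : Continuous μ) (hw : Continuous w) {p c t : ℝ} (ht : c ≤ t)
    (h : ∀ r ∈ Icc c t, p ≤ μ r + 2 * w r) : hDer μ w c t ≤ exp (-p * (t - c)) := by
  refine exp_le_exp.2 ?_
  have h1 : ∫ _ in c..t, p ≤ ∫ r in c..t, (μ r + 2 * w r) :=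
    integral_mono_on ht intervalIntegrable_const
      ((hμ.add (continuous_const.mul hw)).intervalIntegrable c t) h
  rw [intervalIntegral.integral_const, smul_eq_mul] at h1
  linarith

lemma hFac_nonneg {c t : ℝ} (ht : c ≤ t) : 0 ≤ hFac μ w c t :=
  integral_nonneg ht fun r _ => (hDer_pos μ w c r).le

lemma hFac_le (hμ : Continuous μ) (hw : Continuous w) {p c t : ℝ} (hp : 0 < p) (ht : c ≤ t)
    (h : ∀ r ∈ Icc c t, p ≤ μ r + 2 * w r) : hFac μ w c t ≤ 1 / p := by
  have hd : ∀ r ∈ uIcc c t, HasDerivAt (fun r => -(exp (-p * (r - c)) / p)) (exp (-p * (r - c))) r :=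
    fun r _ => by
      have := (((((hasDerivAt_id r).sub_const c).const_mul (-p)).exp).div_const p).neg
      refine this.congr_deriv ?_
      simp [mul_div_assoc, hp.ne']
      field_simp
  have hc : Continuous fun r => exp (-p * (r - c)) := by fun_prop
  refine (integral_mono_on ht ((continuous_hDer hμ hw c).intervalIntegrable c t)
    (hc.intervalIntegrable c t)
    (fun r hr => hDer_le hμ hw hr.1 fun x hx => h x ⟨hx.1, hx.2.trans hr.2⟩)).trans ?_
  rw [integral_eq_sub_of_hasDerivAt hd (hc.intervalIntegrable c t)]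
  have : 0 ≤ exp (-p * (t - c)) / p := by positivity
  simp only [sub_self, mul_zero, exp_zero]
  linarith

/-- The transfer in the eigenbasis. -/
def blk (μ : ℝ → ℝ) (w : Fin d → ℝ → ℝ) (E : Matrix (Fin d) (Fin d) ℝ) (c t : ℝ) :
    Matrix (Fin d) (Fin d) ℝ :=
  Matrix.diagonal (fun a => gFac (w a) c t) *
    (1 + Matrix.diagonal (fun a => hFac μ (w a) c t) * E)

/-- Its derivative. -/
def blkD (μ : ℝ → ℝ) (w : Fin d → ℝ → ℝ) (E : Matrix (Fin d) (Fin d) ℝ) (c t : ℝ) :
    Matrix (Fin d) (Fin d) ℝ :=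
  Matrix.diagonal (fun a => w a t) * blk μ w E c t +
    Matrix.diagonal (fun a => gFac (w a) c t * hDer μ (w a) c t) * E

variable {ν : ℝ → ℝ} {v : Fin d → ℝ → ℝ} {E : Matrix (Fin d) (Fin d) ℝ}

lemma blk_apply (E : Matrix (Fin d) (Fin d) ℝ) (c t : ℝ) (a b : Fin d) :
    blk ν v E c t a b = gFac (v a) c t * ((1 : Matrix (Fin d) (Fin d) ℝ) a b + hFac ν (v a) c t * E a b) := by
  simp [blk, Matrix.diagonal_mul]

lemma blkD_apply (E : Matrix (Fin d) (Fin d) ℝ) (c t : ℝ) (a b : Fin d) :
    blkD ν v E c t a b = v a t * blk ν v E c t a b + gFac (v a) c t * hDer ν (v a) c t * E a b := by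
  simp [blkD, Matrix.diagonal_mul]

lemma blk_self (E : Matrix (Fin d) (Fin d) ℝ) (c : ℝ) : blk ν v E c c = 1 := by
  ext a b; simp [blk_apply, gFac_self, hFac_self]

lemma blkD_self (E : Matrix (Fin d) (Fin d) ℝ) (c : ℝ) :
    blkD ν v E c c = Matrix.diagonal (fun a => v a c) + E := by
  ext a b; simp [blkD, blk_self, gFac_self, hDer_self]

lemma hasDerivAt_blk (hν : Continuous ν) (hv : ∀ a, Continuous (v a))
    (E : Matrix (Fin d) (Fin d) ℝ) (c t : ℝ) (a b : Fin d) :
    HasDerivAt (fun s => blk ν v E c s a b) (blkD ν v E c t a b) t := by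
  simp only [blk_apply]
  refine ((hasDerivAt_gFac (hv a) c t).mul
    (((hasDerivAt_hFac hν (hv a) c t).mul_const (E a b)).const_add _)).congr_deriv ?_
  rw [blkD_apply, blk_apply]
  ring

/-- The second-order equation. -/
lemma hasDerivAt_blkD (hν : Continuous ν) (hv : ∀ a, Continuous (v a))
    (E : Matrix (Fin d) (Fin d) ℝ) (c t : ℝ) (K : Fin d → ℝ) (a b : Fin d)
    (hd : HasDerivAt (v a) (K a - ν t * v a t - v a t ^ 2) t) :
    HasDerivAt (fun s => blkD ν v E c s a b)
      (K a * blk ν v E c t a b - ν t * blkD ν v E c t a b) t := by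
  simp only [blkD_apply]
  refine ((hd.mul (hasDerivAt_blk hν hv E c t a b)).add
    (((hasDerivAt_gFac (hv a) c t).mul (hasDerivAt_hDer hν (hv a) c t)).mul_const (E a b))
    ).congr_deriv ?_
  simp only [blkD_apply]
  ring

/-- The state at time `t` in terms of a right inverse of `1 + diag h * E`. -/
lemma blkD_eq (E B : Matrix (Fin d) (Fin d) ℝ) (c t : ℝ)
    (hB : B * (1 + Matrix.diagonal (fun a => hFac ν (v a) c t) * E) = 1) :
    blkD ν v E c t = (Matrix.diagonal (fun a => v a t) +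
      Matrix.diagonal (fun a => gFac (v a) c t * hDer ν (v a) c t) * E * B *
        Matrix.diagonal (fun a => (gFac (v a) c t)⁻¹)) * blk ν v E c t := by
  rw [add_mul, blkD, blk]
  congr 1
  have hG : Matrix.diagonal (fun a => (gFac (v a) c t)⁻¹) * Matrix.diagonal (fun a => gFac (v a) c t)
      = (1 : Matrix (Fin d) (Fin d) ℝ) := by
    rw [Matrix.diagonal_mul_diagonal, ← Matrix.diagonal_one]
    congr 1; funext a
    exact inv_mul_cancel₀ (gFac_pos (v a) c t).ne'
  rw [mul_assoc _ (Matrix.diagonal _) (Matrix.diagonal _ * _),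
    ← mul_assoc (Matrix.diagonal fun a => (gFac (v a) c t)⁻¹), hG, one_mul, mul_assoc, hB, mul_one]

end

end Vale.Agent.P225.Block
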