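import Vale.Agent.P225.Analysis.Flow

/-!
# P225: the scalar Riccati equation `w' + w² + μ w = K`
-/

namespace Vale.Agent.P225

open Set Filter Topology Real

noncomputable section

/-- Coefficients with `p ≤ μ ≤ 2p`, `0 ≤ K ≤ W²`. -/
structure RicData (p W : ℝ) (μ K : ℝ → ℝ) : Prop where
  hp : 1 ≤ p
  hW : 0 ≤ W
  cμ : Continuous μ
  cK : Continuous K
  μ_ge : ∀ t, p ≤ μ t
  μ_le : ∀ t, μ t ≤ 2 * p
  K_nonneg : ∀ t, 0 ≤ K t
  K_le : ∀ t, K t ≤ W ^ 2

/-- The clipped field. -/
def ricField (W : ℝ) (μ K : ℝ → ℝ) (t w : ℝ) : ℝ :=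
  K t - μ t * max (-1) (min W w) - (max (-1) (min W w)) ^ 2

/-- The solution with value `w₀` at `c`. -/
def ricSol (W : ℝ) (μ K : ℝ → ℝ) (c w₀ : ℝ) : ℝ → ℝ :=
  Classical.epsilon fun y => y c = w₀ ∧ ∀ x, HasDerivAt y (ricField W μ K x (y x)) x

namespace RicData

variable {p W : ℝ} {μ K : ℝ → ℝ} (h : RicData p W μ K)
include h

lemma sol_exists (c w₀ : ℝ) :
    ∃ y : ℝ → ℝ, y c = w₀ ∧ ∀ x, HasDerivAt y (ricField W μ K x (y x)) x := by
  have hp := h.hp
  have hW := h.hW
  refine exists_flow (V := fun t w => ricField W μ K t w) (K := (2 * p + 2 * (W + 1)).toNNReal)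
    (L := (W ^ 2 + 2 * p * (W + 1) + (W + 1) ^ 2).toNNReal) (fun t => ?_)
    (fun y => (h.cK.sub (h.cμ.mul continuous_const)).sub continuous_const) (fun t y => ?_) c w₀
  · refine LipschitzWith.of_dist_le' fun a b => ?_
    simp only [dist_eq, ricField]
    set a' := max (-1) (min W a)
    set b' := max (-1) (min W b)
    have hab : |a' - b'| ≤ |a - b| :=
      (abs_max_sub_max_le_max _ _ _ _).trans (max_le (by simp)
        ((abs_min_sub_min_le_max _ _ _ _).trans (max_le (by simp) le_rfl)))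
    have ha : |a'| ≤ W + 1 :=
      abs_le.2 ⟨by linarith [le_max_left (-1 : ℝ) (min W a)],
        max_le (by linarith) ((min_le_left _ _).trans (by linarith))⟩
    have hb : |b'| ≤ W + 1 :=
      abs_le.2 ⟨by linarith [le_max_left (-1 : ℝ) (min W b)],
        max_le (by linarith) ((min_le_left _ _).trans (by linarith))⟩
    have e : K t - μ t * a' - a' ^ 2 - (K t - μ t * b' - b' ^ 2) =
        -((μ t + a' + b') * (a' - b')) := by ring
    rw [e, abs_neg, abs_mul]
    refine mul_le_mul ?_ hab (abs_nonneg _) (by positivity)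
    have := abs_add_three (μ t) a' b'
    rw [abs_of_nonneg (show 0 ≤ μ t by linarith [h.μ_ge t])] at this
    linarith [h.μ_le t]
  · rw [norm_eq_abs, Real.coe_toNNReal _ (by positivity)]
    simp only [ricField]
    set a' := max (-1) (min W y)
    have ha : |a'| ≤ W + 1 :=
      abs_le.2 ⟨by linarith [le_max_left (-1 : ℝ) (min W y)],
        max_le (by linarith) ((min_le_left _ _).trans (by linarith))⟩
    have h1 : |μ t * a'| ≤ 2 * p * (W + 1) := by
      rw [abs_mul, abs_of_nonneg (show 0 ≤ μ t by linarith [h.μ_ge t])]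
      exact mul_le_mul (h.μ_le t) ha (abs_nonneg _) (by linarith)
    have h2 : a' ^ 2 ≤ (W + 1) ^ 2 := sq_le_sq' (abs_le.1 ha).1 (abs_le.1 ha).2
    rw [abs_le]
    constructor <;> nlinarith [h.K_nonneg t, h.K_le t, (abs_le.1 h1).1, (abs_le.1 h1).2, sq_nonneg a']

lemma sol_init (c w₀ : ℝ) : ricSol W μ K c w₀ c = w₀ :=
  (Classical.epsilon_spec (h.sol_exists c w₀)).1

lemma sol_field (c w₀ t : ℝ) :
    HasDerivAt (ricSol W μ K c w₀) (ricField W μ K t (ricSol W μ K c w₀ t)) t :=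
  (Classical.epsilon_spec (h.sol_exists c w₀)).2 t

lemma sol_continuous (c w₀ : ℝ) : Continuous (ricSol W μ K c w₀) :=
  continuous_iff_continuousAt.2 fun t => (h.sol_field c w₀ t).continuousAt

lemma sol_mem {c w₀ : ℝ} (h0 : 0 ≤ w₀) (h1 : w₀ ≤ W) {t : ℝ} (ht : c ≤ t) :
    0 ≤ ricSol W μ K c w₀ t ∧ ricSol W μ K c w₀ t ≤ W := by
  have hp := h.hp
  have hW := h.hW
  set w := ricSol W μ K c w₀
  constructor
  · refine nonneg_of_barrier (c := c) (e := t) (h.sol_continuous c w₀).continuousOn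
      (fun x _ => h.sol_field c w₀ x) (by rwa [h.sol_init]) (fun x _ hx => ?_) t ⟨ht, le_rfl⟩
    have e : max (-1) (min W (w x)) = max (-1) (w x) := by rw [min_eq_right (by linarith)]
    rw [ricField, e]
    have h2 : max (-1) (w x) ≤ 0 := max_le (by norm_num) hx.le
    nlinarith [h.μ_ge x, h.K_nonneg x, le_max_left (-1 : ℝ) (w x)]
  · have := nonneg_of_barrier (f := fun x => W - w x) (c := c) (e := t)
      (continuous_const.sub (h.sol_continuous c w₀)).continuousOn
      (fun x _ => (h.sol_field c w₀ x).const_sub W) (by simp only [w, h.sol_init]; linarith)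
      (fun x _ hx => ?_) t ⟨ht, le_rfl⟩
    · linarith
    · have e : max (-1) (min W (w x)) = W := by
        rw [min_eq_left (by linarith), max_eq_right (by linarith)]
      rw [ricField, e]
      nlinarith [h.K_le x, h.μ_ge x]

lemma sol_deriv {c w₀ : ℝ} (h0 : 0 ≤ w₀) (h1 : w₀ ≤ W) {t : ℝ} (ht : c ≤ t) :
    HasDerivAt (ricSol W μ K c w₀)
      (K t - μ t * ricSol W μ K c w₀ t - ricSol W μ K c w₀ t ^ 2) t := by
  obtain ⟨a, b⟩ := h.sol_mem h0 h1 ht
  refine (h.sol_field c w₀ t).congr_deriv ?_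
  rw [ricField, min_eq_right b, max_eq_right (by linarith)]

end RicData

/-- `f' ≤ R - a f`, `a ≥ p > 0` gives exponential decay to `R/p`. -/
lemma linear_upper {f f' a : ℝ → ℝ} {p R c e : ℝ} (hp : 0 < p) (hR : 0 ≤ R)
    (hf : ContinuousOn f (Icc c e)) (hd : ∀ t ∈ Ioo c e, HasDerivAt f (f' t) t)
    (ha : ∀ t ∈ Ioo c e, p ≤ a t) (hle : ∀ t ∈ Ioo c e, f' t ≤ R - a t * f t) :
    ∀ t ∈ Icc c e, f t ≤ max (f c) 0 * exp (-(p * (t - c))) + R / p := by
  intro t ht
  set F := max (f c) 0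
  have he : ∀ x, HasDerivAt (fun x => F * exp (-(p * (x - c))) + R / p)
      (F * (exp (-(p * (x - c))) * -p)) x := fun x => by
    exact (((((hasDerivAt_id x).sub_const c).const_mul p).neg.exp).const_mul F).add_const (R / p)
      |>.congr_deriv (by simp)
  have := nonneg_of_barrier (f := fun x => F * exp (-(p * (x - c))) + R / p - f x)
    (f' := fun x => F * (exp (-(p * (x - c))) * -p) - f' x) (c := c) (e := e)
    (ContinuousOn.sub (continuous_iff_continuousAt.2 fun x => (he x).continuousAt).continuousOn hf)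
    (fun x hx => (he x).sub (hd x hx)) ?_ (fun x hx hneg => ?_) t ht
  · linarith
  · simp only [sub_self, mul_zero, neg_zero, exp_zero, mul_one]
    linarith [le_max_left (f c) 0, div_nonneg hR hp.le]
  · have hR' : p * (R / p) = R := by field_simp
    have hF : 0 ≤ F * exp (-(p * (x - c))) := mul_nonneg (le_max_right _ _) (exp_pos _).le
    have hRp : 0 ≤ R / p := div_nonneg hR hp.le
    have h1 : p * f x ≤ a x * f x := mul_le_mul_of_nonneg_right (ha x hx) (by linarith)
    have h2 : p * (F * exp (-(p * (x - c))) + R / p) ≤ p * f x :=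
      mul_le_mul_of_nonneg_left (by linarith) hp.le
    nlinarith [hle x hx]

/-- `f' = r - a f` with `a ≥ p > 0`, `|r| ≤ R`. -/
lemma linear_abs {f r a : ℝ → ℝ} {p R c e : ℝ} (hp : 0 < p) (hR : 0 ≤ R)
    (hf : ContinuousOn f (Icc c e)) (hd : ∀ t ∈ Ioo c e, HasDerivAt f (r t - a t * f t) t)
    (ha : ∀ t ∈ Ioo c e, p ≤ a t) (hr : ∀ t ∈ Ioo c e, |r t| ≤ R) :
    ∀ t ∈ Icc c e, |f t| ≤ |f c| * exp (-(p * (t - c))) + R / p := by
  intro t ht
  have h1 := linear_upper hp hR hf hd ha (fun x hx => by linarith [(abs_le.1 (hr x hx)).2]) t ht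
  have h2 := linear_upper (f := fun x => -f x) (f' := fun x => -(r x - a x * f x)) hp hR hf.neg
    (fun x hx => (hd x hx).neg) ha
    (fun x hx => by nlinarith [(abs_le.1 (hr x hx)).1]) t ht
  have e0 := (exp_pos (-(p * (t - c)))).le
  rw [abs_le]
  constructor
  · nlinarith [mul_le_mul_of_nonneg_right (max_le (neg_le_abs (f c)) (abs_nonneg (f c))) e0]
  · nlinarith [mul_le_mul_of_nonneg_right (max_le (le_abs_self (f c)) (abs_nonneg (f c))) e0]

end

end Vale.Agent.P225
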