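import Vale.Agent.P225.Profile.Rho
import Vale.Agent.P225.Profile.Theta
import Vale.Agent.P225.Analysis.Riccati

/-!
# P225: bounds on the coefficients of the radial equations
-/

namespace Vale.Agent.P225

open Filter Topology Real Set

noncomputable section

lemma half_le_rhoInf_sq : 99 / 100 ≤ rhoInf ^ 2 := by
  rw [rhoInf_sq]
  have h1 : 1 ≤ exp (2 * thetaStar) := one_le_exp (by linarith [thetaStar_pos])
  have h2 : 99 / 100 ≤ r2Inf := by norm_num [r2Inf]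
  nlinarith

lemma rhoInf_ge : 99 / 100 ≤ rhoInf := by nlinarith [half_le_rhoInf_sq, rhoInf_pos, rhoInf_lt_one]

lemma exp_small {c a : ℝ} (hc : |c| ≤ 60) (ha : |a| ≤ 1 / 100) : exp (c * a) ≤ 3 := by
  have h : c * a ≤ 1 := (le_abs_self _).trans (by rw [abs_mul]; nlinarith [abs_nonneg c, abs_nonneg a])
  exact (exp_le_exp.2 h).trans exp_one_lt_d9.le |>.trans (by norm_num)

lemma exp_lip {c a b : ℝ} (hc : |c| ≤ 60) (ha : |a| ≤ 1 / 100) (hb : |b| ≤ 1 / 100) :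
    |exp (c * a) - exp (c * b)| ≤ 180 * |a - b| := by
  have := Convex.norm_image_sub_le_of_norm_hasDerivWithin_le (f := fun x => exp (c * x))
    (f' := fun x => exp (c * x) * c) (s := Icc (-(1 / 100)) (1 / 100)) (C := 180)
    (fun x _ => by simpa using (((hasDerivAt_id x).const_mul c).exp).hasDerivWithinAt)
    (fun x hx => ?_) (convex_Icc _ _) (abs_le.1 hb) (abs_le.1 ha)
  · simpa [norm_eq_abs] using this
  · rw [norm_mul, norm_eq_abs, norm_eq_abs, abs_of_pos (exp_pos _)]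
    nlinarith [exp_small hc (abs_le.2 hx), exp_pos (c * x), abs_nonneg c]

lemma exp_rem {c a b R : ℝ} (hc : |c| ≤ 60) (hR : R ≤ 1 / 100) (ha : |a| ≤ R) (hb : |b| ≤ R) :
    |exp (c * a) - exp (c * b) - c * (a - b)| ≤ 10800 * R * |a - b| := by
  have := Convex.norm_image_sub_le_of_norm_hasDerivWithin_le (f := fun x => exp (c * x) - c * x)
    (f' := fun x => exp (c * x) * c - c) (s := Icc (-R) R) (C := 10800 * R)
    (fun x _ => by
      exact (((((hasDerivAt_id x).const_mul c).exp).sub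
        ((hasDerivAt_id x).const_mul c)).congr_deriv (by simp)).hasDerivWithinAt)
    (fun x hx => ?_) (convex_Icc _ _) (abs_le.1 hb) (abs_le.1 ha)
  · simpa [norm_eq_abs, mul_sub, sub_sub_sub_comm] using this
  · have hx' : |x| ≤ R := abs_le.2 hx
    have h1 := exp_lip (a := x) (b := 0) hc (hx'.trans hR) (by simp)
    rw [mul_zero, exp_zero, sub_zero] at h1
    rw [norm_eq_abs, show exp (c * x) * c - c = (exp (c * x) - 1) * c by ring, abs_mul]
    nlinarith [abs_nonneg (exp (c * x) - 1), abs_nonneg c]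

/-- The numerator of the potential. -/
def potNum (l q : ℕ) (θ : ℝ) : ℝ :=
  (lam l - (q : ℝ) ^ 2) * exp (2 * θ) + (q : ℝ) ^ 2 * exp (-56 * θ)

/-- The slope of `potNum` at `0`. -/
def potSlope (l q : ℕ) : ℝ := 2 * lam l - 58 * (q : ℝ) ^ 2

lemma pot_eq (ρ θ : ℝ → ℝ) (l q : ℕ) (s : ℝ) :
    pot ρ θ l q s = potNum l q (θ s) / ρ s ^ 2 := by
  have e : exp (-56 * θ s) = exp (2 * θ s) * exp (-(2 * (2 * (p₀ : ℝ) + 1)) * θ s) := by
    rw [← exp_add]; congr 1; norm_num [p₀]; ring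
  rw [pot, potNum, e]; ring

lemma potNum_zero (l q : ℕ) : potNum l q 0 = lam l := by simp [potNum]

lemma lam_nonneg (l : ℕ) : 0 ≤ lam l := by rw [lam]; positivity

lemma sq_le_lam {l q : ℕ} (hq : q ≤ l) : (q : ℝ) ^ 2 ≤ lam l := by
  have h1 : (q : ℝ) ≤ l := by exact_mod_cast hq
  have : (0 : ℝ) ≤ (l : ℝ) * (2 * p₀) := by positivity
  rw [lam]; nlinarith

variable {l q : ℕ}

lemma potNum_nonneg (hq : q ≤ l) (θ : ℝ) : 0 ≤ potNum l q θ :=
  add_nonneg (mul_nonneg (sub_nonneg.2 (sq_le_lam hq)) (exp_pos _).le)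
    (mul_nonneg (sq_nonneg _) (exp_pos _).le)

lemma potNum_le (hq : q ≤ l) {θ : ℝ} (h : |θ| ≤ 1 / 100) : potNum l q θ ≤ 3 * lam l := by
  have h1 := exp_small (c := 2) (by norm_num) h
  have h2 := exp_small (c := -56) (by norm_num) h
  unfold potNum
  nlinarith [sq_le_lam hq, sq_nonneg (q : ℝ)]

lemma potNum_lip (hq : q ≤ l) {a b : ℝ} (ha : |a| ≤ 1 / 100) (hb : |b| ≤ 1 / 100) :
    |potNum l q a - potNum l q b| ≤ 180 * lam l * |a - b| := by
  have h1 := exp_lip (c := 2) (by norm_num) ha hb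
  have h2 := exp_lip (c := -56) (by norm_num) ha hb
  have e : potNum l q a - potNum l q b = (lam l - (q : ℝ) ^ 2) * (exp (2 * a) - exp (2 * b)) +
      (q : ℝ) ^ 2 * (exp (-56 * a) - exp (-56 * b)) := by unfold potNum; ring
  rw [e]
  refine (abs_add_le _ _).trans ?_
  rw [abs_mul, abs_mul, abs_of_nonneg (sub_nonneg.2 (sq_le_lam hq)),
    abs_of_nonneg (sq_nonneg (q : ℝ))]
  nlinarith [mul_le_mul_of_nonneg_left h1 (sub_nonneg.2 (sq_le_lam hq)),
    mul_le_mul_of_nonneg_left h2 (sq_nonneg (q : ℝ))]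

lemma potNum_rem (hq : q ≤ l) {a b R : ℝ} (hR : R ≤ 1 / 100) (ha : |a| ≤ R) (hb : |b| ≤ R) :
    |potNum l q a - potNum l q b - potSlope l q * (a - b)| ≤
      10800 * lam l * R * |a - b| := by
  have h1 := exp_rem (c := 2) (by norm_num) hR ha hb
  have h2 := exp_rem (c := -56) (by norm_num) hR ha hb
  have e : potNum l q a - potNum l q b - potSlope l q * (a - b) =
      (lam l - (q : ℝ) ^ 2) * (exp (2 * a) - exp (2 * b) - 2 * (a - b)) +
      (q : ℝ) ^ 2 * (exp (-56 * a) - exp (-56 * b) - -56 * (a - b)) := by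
    unfold potNum potSlope; ring
  rw [e]
  refine (abs_add_le _ _).trans ?_
  rw [abs_mul, abs_mul, abs_of_nonneg (sub_nonneg.2 (sq_le_lam hq)),
    abs_of_nonneg (sq_nonneg (q : ℝ))]
  nlinarith [mul_le_mul_of_nonneg_left h1 (sub_nonneg.2 (sq_le_lam hq)),
    mul_le_mul_of_nonneg_left h2 (sq_nonneg (q : ℝ))]

/-- The bound `W` of the solutions of degree `l`. -/
def wMax (l : ℕ) : ℝ := 5 * ((l : ℝ) + 28)

/-- The conditions on profiles used in the analysis. -/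
def CoefOK (ρ θ : ℝ → ℝ) : Prop :=
  Continuous ρ ∧ Continuous θ ∧ Continuous (drift ρ) ∧
    ∀ s, rhoInf ≤ ρ s ∧ |θ s| ≤ 1 / 100 ∧ (p₀ : ℝ) ≤ drift ρ s ∧ drift ρ s ≤ 2 * p₀

lemma CoefOK.ricData {ρ θ : ℝ → ℝ} (h : CoefOK ρ θ) (hq : q ≤ l) :
    RicData (p₀ : ℝ) (wMax l) (drift ρ) (pot ρ θ l q) := by
  have hpos : ∀ s, 0 < ρ s := fun s => rhoInf_pos.trans_le (h.2.2.2 s).1
  refine ⟨by norm_num [p₀], by rw [wMax]; positivity, h.2.2.1, ?_,
    fun s => (h.2.2.2 s).2.2.1, fun s => (h.2.2.2 s).2.2.2, fun s => ?_, fun s => ?_⟩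
  · have hc : Continuous fun s => potNum l q (θ s) / ρ s ^ 2 := by
      have := h.1
      have := h.2.1
      unfold potNum
      exact Continuous.div (by fun_prop) (by fun_prop) fun s => (pow_pos (hpos s) 2).ne'
    simpa [funext (pot_eq ρ θ l q)] using hc
  · rw [pot_eq]; exact div_nonneg (potNum_nonneg hq _) (sq_nonneg _)
  · rw [pot_eq, div_le_iff₀ (pow_pos (hpos s) 2)]
    have h1 := potNum_le hq (h.2.2.2 s).2.1
    have h2 : 99 / 100 ≤ ρ s ^ 2 :=
      half_le_rhoInf_sq.trans (pow_le_pow_left₀ rhoInf_pos.le (h.2.2.2 s).1 2)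
    have h3 : lam l ≤ ((l : ℝ) + 28) ^ 2 := by
      rw [lam]; norm_num [p₀]; nlinarith [Nat.cast_nonneg (α := ℝ) l]
    have h4 : 0 ≤ wMax l ^ 2 := sq_nonneg _
    unfold wMax at *; nlinarith [lam_nonneg l]

/-- At the plateau the potential is at most `dwellPot`. -/
lemma pot_le_dwellPot {ρ θ : ℝ → ℝ} (hq : q ≤ l) {s : ℝ} (hρ : rhoInf ≤ ρ s)
    (hθ : θ s = thetaStar) : pot ρ θ l q s ≤ dwellPot l q := by
  have h0 : 0 ≤ lam l + (50 / 51 - 1) * (q : ℝ) ^ 2 := by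
    nlinarith [sq_le_lam hq, sq_nonneg (q : ℝ)]
  have hexp : exp (-(2 * (2 * (p₀ : ℝ) + 1)) * thetaStar) = 50 / 51 := by
    rw [show -(2 * (2 * (p₀ : ℝ) + 1)) * thetaStar = -(58 * thetaStar) by norm_num [p₀],
      exp_neg, exp_two_m_thetaStar]; norm_num
  have h1 : r2Inf * exp (2 * thetaStar) ≤ ρ s ^ 2 :=
    rhoInf_sq ▸ pow_le_pow_left₀ rhoInf_pos.le hρ 2
  rw [pot, hθ, hexp, dwellPot]
  rw [div_le_div_iff₀ (pow_pos (rhoInf_pos.trans_le hρ) 2) r2Inf_pos]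
  nlinarith [mul_le_mul_of_nonneg_left h1 h0]

end

end Vale.Agent.P225
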