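import Vale.Agent.P225.Analysis.Period

/-!
# P225: the growth over a dwell

Over the dwell of period `j` the Riccati solution is eventually at most `dwellExp + o(1)`, so the
fundamental solution grows by at most `exp ((dwellExp l q + o(1)) * plen j)`; the round factor of
the excursions is `exp (o(plen j))`.
-/

namespace Vale.Agent.P225

open Filter Topology Real Set MeasureTheory intervalIntegral

noncomputable section

variable {κ : ℝ} {j₀ l q M : ℕ}

/-- On the tail of a fixed profile the drift is close to its limit. -/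
lemma RhoOK.drift_ge (hr : RhoOK κ j₀) {s : ℝ} (hs : 1 ≤ s) :
    2 * (p₀ : ℝ) - 30 * (κ + 2) / s ≤ drift (rho κ j₀) s := by
  have hs0 : 0 < s := by linarith
  have hd := hr.abs_deriv_le hs0
  have hρ : 99 / 100 ≤ rho κ j₀ s := rhoInf_ge.trans (hr.rhoInf_le s)
  have h1 : κ / (s * √s) ≤ κ / s :=
    div_le_div_of_nonneg_left hr.1.le hs0
      (le_mul_of_one_le_right hs0.le (by rw [one_le_sqrt]; exact hs))
  have h2 : exp (-s) ≤ 1 / s := by
    rw [exp_neg, inv_eq_one_div]
    exact one_div_le_one_div_of_le hs0 (by linarith [add_one_le_exp s])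
  have h3 : |deriv (rho κ j₀) s| ≤ (κ + 2) / s := by
    rw [add_div]
    have : 2 * exp (-s) ≤ 2 / s := by rw [div_eq_mul_one_div]; linarith
    linarith
  have hκs : 0 ≤ (κ + 2) / s := div_nonneg (by linarith [hr.1]) hs0.le
  have h4 : -(30 * ((κ + 2) / s)) ≤ 29 * deriv (rho κ j₀) s / rho κ j₀ s := by
    rw [le_div_iff₀ (hr.rho_pos s)]
    nlinarith [(abs_le.1 h3).1, mul_le_mul_of_nonneg_left hρ hκs]
  rw [RhoOK.drift_eq, show (2 : ℝ) * p₀ = 28 by norm_num [p₀], mul_div_assoc]
  linarith

/-- The dwell profile is an admissible one. -/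
lemma CoefOK.dwell {ρ : ℝ → ℝ} (h : CoefOK ρ noTheta) (M j : ℕ) : CoefOK ρ (dwTheta M j) := by
  obtain ⟨h1, -, h3, h4⟩ := h
  refine ⟨h1, ?_, h3, fun s => ⟨(h4 s).1, ?_, (h4 s).2.2⟩⟩
  · have hs : Continuous smoothTransition := smoothTransition.contDiff.continuous (n := 0)
    exact continuous_const.mul ((hs.comp (by fun_prop)).mul (hs.comp (by fun_prop)))
  · rw [dwTheta, abs_mul, abs_of_pos thetaStar_pos, abs_of_nonneg (plateau_mem _).1]
    exact (mul_le_of_le_one_right thetaStar_pos.le (plateau_mem _).2).trans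
      (thetaStar_le.trans (by norm_num))

lemma dwellPot_nonneg (hq : q ≤ l) : 0 ≤ dwellPot l q := by
  refine div_nonneg ?_ r2Inf_pos.le
  nlinarith [sq_le_lam hq, sq_nonneg (q : ℝ)]

lemma dwellExp_nonneg (hq : q ≤ l) : 0 ≤ dwellExp l q := by
  have h : (p₀ : ℝ) ≤ √((p₀ : ℝ) ^ 2 + dwellPot l q) :=
    le_sqrt_of_sq_le (le_add_of_nonneg_right (dwellPot_nonneg hq))
  rw [dwellExp]; linarith

lemma dwellExp_eq (hq : q ≤ l) :
    dwellExp l q ^ 2 + 2 * p₀ * dwellExp l q = dwellPot l q := by
  have := sq_sqrt (show 0 ≤ (p₀ : ℝ) ^ 2 + dwellPot l q from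
    add_nonneg (sq_nonneg _) (dwellPot_nonneg hq))
  rw [dwellExp]; nlinarith

lemma wMax_nonneg (l : ℕ) : 0 ≤ wMax l := (Nat.cast_nonneg l).trans (l_le_wMax l)

/-- Where the potential is at most `dwellPot` and the drift almost `2p`, the solution settles to at
most about `dwellExp`. -/
lemma wSol_plateau_le {ρ θ : ℝ → ℝ} {c a b η : ℝ} (h : CoefOK ρ θ) (hq : q ≤ l) (hca : c ≤ a)
    (hη : 0 ≤ η) (hpot : ∀ t ∈ Ioo a b, pot ρ θ l q t ≤ dwellPot l q)
    (hμ : ∀ t ∈ Ioo a b, 2 * (p₀ : ℝ) - η ≤ drift ρ t) :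
    ∀ t ∈ Icc a b, wSol ρ θ l q c t ≤
      dwellExp l q + η * dwellExp l q / p₀ + wMax l * exp (-((p₀ : ℝ) * (t - a))) := by
  intro t ht
  have hα := dwellExp_nonneg hq
  have key := linear_upper (f := fun t => wSol ρ θ l q c t - dwellExp l q)
    (f' := fun t => pot ρ θ l q t - drift ρ t * wSol ρ θ l q c t - wSol ρ θ l q c t ^ 2)
    (a := fun t => drift ρ t + wSol ρ θ l q c t + dwellExp l q) (p := (p₀ : ℝ))
    (R := η * dwellExp l q) (c := a) (e := b) (by norm_num [p₀]) (mul_nonneg hη hα)
    ((wSol_continuous h hq c).sub continuous_const).continuousOn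
    (fun x hx => (wSol_deriv h hq (hca.trans hx.1.le)).sub_const _)
    (fun x hx => by
      linarith [(h.2.2.2 x).2.2.1, (wSol_mem h hq (hca.trans hx.1.le)).1])
    (fun x hx => by
      have h1 := mul_le_mul_of_nonneg_right (hμ x hx) hα
      have h2 := hpot x hx
      rw [← dwellExp_eq hq] at h2
      nlinarith)
    t ht
  have h3 : max (wSol ρ θ l q c a - dwellExp l q) 0 ≤ wMax l :=
    max_le (by linarith [(wSol_mem h hq hca).2]) (wMax_nonneg l)
  have h4 := mul_le_mul_of_nonneg_right h3 (exp_pos (-((p₀ : ℝ) * (t - a)))).le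
  linarith

/-- A period is long against the length unit of the transitions. -/
lemma eventually_unit_small (B : ℝ) {η : ℝ} (hη : 0 < η) :
    ∀ᶠ j : ℕ in atTop, 1 ≤ unit' j ∧ B * unit' j ≤ η * plen j := by
  obtain ⟨m, hm⟩ := exists_nat_ge (|B| / (8 * η))
  filter_upwards [eventually_ge_atTop m, eventually_ge_atTop 1] with j hj h1
  have h1' : (1 : ℝ) ≤ j := by exact_mod_cast h1
  have h2 : |B| ≤ (j : ℝ) * (8 * η) :=
    (div_le_iff₀ (by positivity)).1 (hm.trans (by exact_mod_cast hj))
  refine ⟨by rw [unit']; exact one_le_pow₀ h1', ?_⟩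
  calc B * unit' j ≤ (j : ℝ) * (8 * η) * unit' j :=
        mul_le_mul_of_nonneg_right ((le_abs_self B).trans h2) (unit_nonneg j)
    _ = η * (8 * (j : ℝ) ^ 7) := by rw [unit']; ring
    _ ≤ η * plen j := mul_le_mul_of_nonneg_left (plen_ge j) hη.le

/-- The growth over the dwell of period `j`. -/
theorem dwell_gFun_le (hr : RhoOK κ j₀) (h : CoefOK (rho κ j₀) noTheta) (hq : q ≤ l) (M : ℕ)
    {η : ℝ} (hη : 0 < η) :
    ∀ᶠ j : ℕ in atTop,
      gFun (rho κ j₀) (dwTheta M j) l q (exStart j M) (((j : ℝ) + 1) ^ 8) ≤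
        exp ((dwellExp l q + η) * plen j) := by
  have hp : (1 : ℝ) ≤ p₀ := by norm_num [p₀]
  have hα := dwellExp_nonneg hq
  have hW := wMax_nonneg l
  set η' := η / 2 / (dwellExp l q + 1) with hη'
  have hη'0 : 0 < η' := by rw [hη']; positivity
  have hη'α : η' * dwellExp l q / p₀ ≤ η / 2 := by
    have hA : η' * (dwellExp l q + 1) = η / 2 := by rw [hη']; field_simp
    rw [div_le_iff₀ (by linarith)]
    nlinarith
  obtain ⟨m, hm⟩ := exists_nat_ge (30 * (κ + 2) / η')
  filter_upwards [eventually_unit_small (5 * wMax l) (half_pos hη),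
    eventually_ge_atTop (3 * M + 4), eventually_ge_atTop m] with j ⟨hN1, hW5⟩ hjM hjm
  set c := exStart j M with hc
  set e := ((j : ℝ) + 1) ^ 8 with he
  set N := unit' j with hNdef
  have hN : 0 < N := by linarith
  have hj1 : (1 : ℝ) ≤ j := by exact_mod_cast (show 1 ≤ j by omega)
  have hfit : (3 * (M : ℝ) + 4) * N ≤ plen j := fits hjM
  have hce : c = (j : ℝ) ^ 8 + 3 * (M : ℝ) * N := rfl
  have hlen : plen j = e - (j : ℝ) ^ 8 := rfl
  set a := c + 2 * N with ha
  set b := e - 2 * N with hb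
  have hab : a ≤ b := by rw [ha, hb]; nlinarith
  have hca : c ≤ a := by linarith
  have hbe : b ≤ e := by linarith
  have hok := h.dwell M j
  have hwc := wSol_continuous hok hq c
  have hbd := wSol_plateau_le (c := c) (a := a) (b := b) hok hq hca hη'0.le
    (fun t ht => pot_le_dwellPot hq (hr.rhoInf_le t) (by
      rw [dwTheta, plateau_one hN (by nlinarith [ht.1]) (by nlinarith [ht.2]), mul_one]))
    (fun t ht => by
      have htj : (j : ℝ) ≤ t := by
        have : (j : ℝ) ≤ (j : ℝ) ^ 8 := le_self_pow₀ hj1 (by norm_num)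
        have : 0 ≤ 3 * (M : ℝ) * N := by positivity
        linarith [ht.1]
      have h1 : 30 * (κ + 2) / t ≤ η' := by
        rw [div_le_iff₀ (by linarith)]
        have h2 := (div_le_iff₀ hη'0).1 hm
        have : (m : ℝ) ≤ t := le_trans (by exact_mod_cast hjm) htj
        nlinarith
      linarith [hr.drift_ge (show 1 ≤ t by linarith)])
  have hI : ∀ x y, IntervalIntegrable (wSol (rho κ j₀) (dwTheta M j) l q c) volume x y :=
    fun x y => hwc.intervalIntegrable x y
  have hout : ∀ x y, c ≤ x → x ≤ y →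
      ∫ t in x..y, wSol (rho κ j₀) (dwTheta M j) l q c t ≤ (y - x) * wMax l := fun x y hx hxy => by
    refine (intervalIntegral.integral_mono_on hxy (hI x y) _root_.intervalIntegrable_const
      fun t ht => (wSol_mem hok hq (hx.trans ht.1)).2).trans ?_
    rw [intervalIntegral.integral_const, smul_eq_mul]
  have hmid : ∫ t in a..b, wSol (rho κ j₀) (dwTheta M j) l q c t ≤
      (dwellExp l q + η / 2) * (b - a) + wMax l := by
    have hc1 : Continuous fun t : ℝ => wMax l * exp (-((p₀ : ℝ) * (t - a))) := by fun_prop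
    have hc2 : Continuous fun t : ℝ =>
        dwellExp l q + η / 2 + wMax l * exp (-((p₀ : ℝ) * (t - a))) := by fun_prop
    refine (intervalIntegral.integral_mono_on hab (hI a b) (hc2.intervalIntegrable _ _)
      fun t ht => (hbd t ht).trans (by linarith)).trans ?_
    rw [intervalIntegral.integral_add _root_.intervalIntegrable_const (hc1.intervalIntegrable _ _),
      intervalIntegral.integral_const, smul_eq_mul, intervalIntegral.integral_const_mul, mul_comm]
    refine add_le_add le_rfl (mul_le_of_le_one_right hW ?_)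
    exact (integral_exp_decay (by linarith) hab).trans
      ((div_le_one (by linarith)).2 hp)
  rw [gFun, ← intervalIntegral.integral_add_adjacent_intervals (hI c a) (hI a e),
    ← intervalIntegral.integral_add_adjacent_intervals (hI a b) (hI b e)]
  refine exp_le_exp.2 ?_
  have h1 := hout c a le_rfl hca
  have h2 := hout b e (hca.trans hab) hbe
  have h3 : (dwellExp l q + η / 2) * (b - a) ≤ (dwellExp l q + η / 2) * plen j :=
    mul_le_mul_of_nonneg_left (by nlinarith) (by linarith)
  have h4 : wMax l ≤ wMax l * N := le_mul_of_one_le_right hW hN1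
  rw [ha] at h1
  rw [hb] at h2
  linarith

/-- The round factor of the excursions is negligible. -/
theorem roundG_excursions_le {ρ : ℝ → ℝ} (h : CoefOK ρ noTheta) (hf : StartsFlat ρ) (l M : ℕ)
    {η : ℝ} (hη : 0 < η) :
    ∀ᶠ j : ℕ in atTop, roundG ρ l ((j : ℝ) ^ 8) (exStart j M) ≤ exp (η * plen j) := by
  filter_upwards [eventually_unit_small (3 * (M : ℝ) * wMax l) hη] with j ⟨hN1, hj⟩
  have hle : (j : ℝ) ^ 8 ≤ exStart j M := by
    have := unit_nonneg j
    rw [exStart]; exact le_add_of_nonneg_right (by positivity)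
  rw [roundG]
  refine exp_le_exp.2 ((intervalIntegral.integral_mono_on hle
    ((roundW_continuous h hf l).intervalIntegrable _ _) _root_.intervalIntegrable_const
    fun t _ => (roundW_mem h l t).2).trans ?_)
  rw [intervalIntegral.integral_const, smul_eq_mul, exStart]
  linarith

/-- The product of the two factors, as needed by the growth lemma. -/
theorem period_factor_le (hr : RhoOK κ j₀) (h : CoefOK (rho κ j₀) noTheta) (hq : q ≤ l) (M : ℕ)
    {η : ℝ} (hη : 0 < η) :
    ∀ᶠ j : ℕ in atTop,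
      roundG (rho κ j₀) l ((j : ℝ) ^ 8) (exStart j M) *
          gFun (rho κ j₀) (dwTheta M j) l q (exStart j M) (((j : ℝ) + 1) ^ 8) ≤
        exp ((dwellExp l q + η) * plen j) := by
  filter_upwards [roundG_excursions_le h hr.startsFlat l M (half_pos hη),
    dwell_gFun_le hr h hq M (half_pos hη)] with j h1 h2
  refine (mul_le_mul h1 h2 (exp_pos _).le (exp_pos _).le).trans (le_of_eq ?_)
  rw [← exp_add]; ring_nf

end

end Vale.Agent.P225
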