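import Vale.Agent.P225.Analysis.Near
import Vale.Agent.P225.Analysis.Dwell

/-!
# P225: the state after a dwell is small
-/

namespace Vale.Agent.P225

open Filter Topology Real Set MeasureTheory intervalIntegral Matrix

noncomputable section

variable {d : ℕ}

lemma isUnit_one_add_of_small {A : Matrix (Fin d) (Fin d) ℝ} (h : ∀ a b, (d : ℝ) * |A a b| < 1) :
    IsUnit (1 + A) := by
  rw [isUnit_iff_isUnit_det, isUnit_iff_ne_zero]
  refine det_ne_zero_of_sum_row_lt_diag fun a => ?_
  have hd : (0 : ℝ) < d := by exact_mod_cast a.pos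
  have h1 : ∀ b, |A a b| < 1 / (d : ℝ) := fun b => by
    rw [lt_div_iff₀ hd, mul_comm]; exact h a b
  have hs : ∑ b, |A a b| < 1 := by
    calc ∑ b, |A a b| < ∑ _b : Fin d, 1 / (d : ℝ) :=
          Finset.sum_lt_sum_of_nonempty ⟨a, Finset.mem_univ a⟩ fun b _ => h1 b
      _ = 1 := by rw [Finset.sum_const, Finset.card_univ, Fintype.card_fin, nsmul_eq_mul]; field_simp
  rw [← Finset.add_sum_erase _ _ (Finset.mem_univ a)] at hs
  have e : ∀ b ∈ Finset.univ.erase a, ‖(1 + A) a b‖ = |A a b| := fun b hb => by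
    rw [Matrix.add_apply, one_apply_ne (Finset.ne_of_mem_erase hb).symm, zero_add, norm_eq_abs]
  rw [Finset.sum_congr rfl e, Matrix.add_apply, one_apply_eq, norm_eq_abs]
  calc ∑ b ∈ Finset.univ.erase a, |A a b| < 1 - |A a a| := by linarith
    _ ≤ |1 + A a a| := by linarith [le_abs_self (1 + A a a), neg_abs_le (A a a)]

/-- The entries of `E (1 + H E)⁻¹` are at most twice those of `E`. -/
lemma entry_solve_le {E : Matrix (Fin d) (Fin d) ℝ} {h : Fin d → ℝ} {c : ℝ}
    (hE : ∀ a b, |E a b| ≤ c) (hh : ∀ a, |h a| ≤ 1) (hc : (d : ℝ) * c ≤ 1 / 2) (a b : Fin d) :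
    |(E * (1 + diagonal h * E)⁻¹) a b| ≤ 2 * c := by
  have hA : ∀ a b, |(diagonal h * E) a b| ≤ c := fun a b => by
    rw [diagonal_mul, abs_mul]
    exact (mul_le_of_le_one_left (abs_nonneg _) (hh a)).trans (hE a b)
  have hu : IsUnit (1 + diagonal h * E) := isUnit_one_add_of_small fun a b =>
    (mul_le_mul_of_nonneg_left (hA a b) (Nat.cast_nonneg d)).trans_lt (by linarith)
  set X := E * (1 + diagonal h * E)⁻¹ with hX
  have hmul : X * (1 + diagonal h * E) = E := by
    rw [hX, Matrix.mul_assoc,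
      Matrix.nonsing_inv_mul _ ((isUnit_iff_isUnit_det _).1 hu), Matrix.mul_one]
  obtain ⟨⟨a₀, b₀⟩, -, hmax⟩ := Finset.exists_max_image (Finset.univ : Finset (Fin d × Fin d))
    (fun z => |X z.1 z.2|) ⟨(a, b), Finset.mem_univ _⟩
  have e : X a₀ b₀ = E a₀ b₀ - ∑ k, X a₀ k * (diagonal h * E) k b₀ := by
    have := congrFun (congrFun hmul a₀) b₀
    rw [Matrix.mul_add, Matrix.mul_one, Matrix.add_apply, Matrix.mul_apply] at this
    linarith
  have hc0 : 0 ≤ c := (abs_nonneg _).trans (hE a b)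
  have hb : |X a₀ b₀| ≤ c + (d : ℝ) * c * |X a₀ b₀| := by
    conv_lhs => rw [e]
    refine (abs_sub _ _).trans (add_le_add (hE a₀ b₀) ?_)
    refine (Finset.abs_sum_le_sum_abs _ _).trans ?_
    refine (Finset.sum_le_sum fun k _ => ?_).trans
      (le_of_eq (b := (d : ℝ) * c * |X a₀ b₀|) (a := ∑ _k : Fin d, c * |X a₀ b₀|) ?_)
    · rw [abs_mul, mul_comm c]
      exact mul_le_mul (hmax (a₀, k) (Finset.mem_univ _)) (hA k b₀) (abs_nonneg _) (abs_nonneg _)
    · rw [Finset.sum_const, Finset.card_univ, Fintype.card_fin, nsmul_eq_mul]; ring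
  have := mul_le_mul_of_nonneg_right hc (abs_nonneg (X a₀ b₀))
  linarith [hmax (a, b) (Finset.mem_univ _)]

lemma exStart_M_le {M j : ℕ} (hj : 3 * M + 4 ≤ j) :
    exStart j M + 4 * unit' j ≤ ((j : ℝ) + 1) ^ 8 := by
  have := fits hj
  rw [plen] at this
  rw [exStart]; linarith

/-- After a dwell the state is exponentially small, whatever small state it started from. -/
lemma eventually_dwell_end {κ : ℝ} (hκ : 0 < κ) (M l : ℕ) (q : Fin d → ℕ) (hq : ∀ a, q a ≤ l)
    {ε : ℝ} (hε : 0 < ε) :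
    ∀ᶠ j₀ : ℕ in atTop, ∀ j, j₀ ≤ j → ∀ E : Matrix (Fin d) (Fin d) ℝ,
      (∀ a b, (d : ℝ) * |E a b| ≤ 1 / 2 ∧ |E a b| ≤ 1) →
      ∀ a b, |blockE (rho κ j₀) (dwTheta M j) l q 1 1 E (exStart j M) (((j : ℝ) + 1) ^ 8) a b| ≤ ε := by
  have hlim : Tendsto (fun j : ℕ => (2 * wMax l + 2) * exp (-((p₀ : ℝ) * (j : ℝ) ^ 6))) atTop (𝓝 0) := by
    simpa using (tendsto_exp_neg_atTop_nhds_zero.comp
      (((tendsto_pow_atTop (by norm_num : (6 : ℕ) ≠ 0)).comp
        tendsto_natCast_atTop_atTop).const_mul_atTop (by norm_num [p₀] : (0 : ℝ) < p₀))).const_mul _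
  filter_upwards [eventually_coefOK hκ M 0, hlim.eventually (eventually_lt_nhds hε)] with j₀ hc hs
    j hj E hE a b
  obtain ⟨hr, hM, hcoef⟩ := hc
  set ρ := rho κ j₀
  have hflat : StartsFlat ρ := hr.startsFlat
  have hround : CoefOK ρ noTheta := (hcoef (fun _ _ => 0) (fun _ _ => by simp)).round
  have hθ : CoefOK ρ (dwTheta M j) := hround.dwell M j
  set c := exStart j M
  set e := ((j : ℝ) + 1) ^ 8
  have hN : 0 < unit' j := unit_pos (by omega)
  have hce4 : c + 4 * unit' j ≤ e := exStart_M_le (by omega)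
  have hce : c ≤ e := by linarith
  have hW : 0 ≤ wMax l := (Nat.cast_nonneg l).trans (l_le_wMax l)
  have hexp : exp (-((p₀ : ℝ) * unit' j)) ≤ exp (-((p₀ : ℝ) * (j₀ : ℝ) ^ 6)) :=
    exp_le_exp.2 (neg_le_neg (mul_le_mul_of_nonneg_left (by rw [unit']; gcongr) (by positivity)))
  have hv : ∀ a, |vRel ρ (dwTheta M j) l (q a) c e| ≤ wMax l * exp (-((p₀ : ℝ) * unit' j)) := by
    intro a
    have hcb : c ≤ e - unit' j := by linarith
    have h1 := vRel_bound hθ hflat (hq a) (c := c) (e := e) hcb le_rfl (fun t ht => by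
      rw [pot_eq, show dwTheta M j t = 0 by
        rw [dwTheta, plateau_zero_right hN (by rw [plen]; linarith [ht.1]), mul_zero],
        potNum_zero, sub_self, abs_zero]) e ⟨by linarith, le_rfl⟩
    rw [zero_div, add_zero, sub_sub_cancel] at h1
    refine h1.trans (mul_le_mul_of_nonneg_right ?_ (exp_pos _).le)
    rw [vRel, abs_le]
    constructor <;> linarith [(wSol_mem hθ (hq a) (t := e - unit' j) hcb).1,
      (wSol_mem hθ (hq a) (t := e - unit' j) hcb).2, (roundW_mem hround l (e - unit' j)).1,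
      (roundW_mem hround l (e - unit' j)).2]
  have hfac : ∀ a b, hDer ρ (dwTheta M j) l (q a) c e * exp (vInt ρ (dwTheta M j) l (q a) c e) *
      exp (-vInt ρ (dwTheta M j) l (q b) c e) ≤ exp (-((p₀ : ℝ) * unit' j)) := by
    intro a b
    rw [hDer, ← exp_add, ← exp_add, exp_le_exp]
    have ca := wSol_continuous hθ (hq a) c
    have cb := wSol_continuous hθ (hq b) c
    have cr := roundW_continuous hround hflat l
    have e1 : vInt ρ (dwTheta M j) l (q a) c e - vInt ρ (dwTheta M j) l (q b) c e =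
        ∫ t in c..e, (wSol ρ (dwTheta M j) l (q a) c t - wSol ρ (dwTheta M j) l (q b) c t) := by
      rw [vInt, vInt, ← intervalIntegral.integral_sub
        ((vRel_continuous hθ hflat (hq a) c).intervalIntegrable _ _)
        ((vRel_continuous hθ hflat (hq b) c).intervalIntegrable _ _)]
      exact intervalIntegral.integral_congr fun t _ => by simp only [vRel]; ring
    have hi : Continuous fun t => drift ρ t + wSol ρ (dwTheta M j) l (q a) c t +
        wSol ρ (dwTheta M j) l (q b) c t := (hθ.2.2.1.add ca).add cb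
    have e2 : (∫ t in c..e, (drift ρ t + 2 * wSol ρ (dwTheta M j) l (q a) c t)) -
        (vInt ρ (dwTheta M j) l (q a) c e - vInt ρ (dwTheta M j) l (q b) c e) =
        ∫ t in c..e, (drift ρ t + wSol ρ (dwTheta M j) l (q a) c t +
          wSol ρ (dwTheta M j) l (q b) c t) := by
      have hab : Continuous fun t => wSol ρ (dwTheta M j) l (q a) c t -
          wSol ρ (dwTheta M j) l (q b) c t := ca.sub cb
      rw [e1, ← intervalIntegral.integral_sub
        (f := fun t => drift ρ t + 2 * wSol ρ (dwTheta M j) l (q a) c t)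
        (g := fun t => wSol ρ (dwTheta M j) l (q a) c t - wSol ρ (dwTheta M j) l (q b) c t)
        ((hExp_continuous hθ (hq a) c).intervalIntegrable _ _) (hab.intervalIntegrable _ _)]
      exact intervalIntegral.integral_congr fun t _ => by ring
    have e3 := intervalIntegral.integral_mono_on (μ := volume) hce
      (continuous_const.intervalIntegrable _ _) (hi.intervalIntegrable _ _)
      (f := fun _ => (p₀ : ℝ))
      (fun t ht => by linarith [(hθ.2.2.2 t).2.2.1, (wSol_mem hθ (hq a) ht.1).1,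
        (wSol_mem hθ (hq b) ht.1).1])
    rw [intervalIntegral.integral_const, smul_eq_mul] at e3
    have e4 : (p₀ : ℝ) * unit' j ≤ (e - c) * p₀ := by
      rw [mul_comm (e - c)]; exact mul_le_mul_of_nonneg_left (by linarith) (by positivity)
    linarith
  have hd0 : (0 : ℝ) < d := by exact_mod_cast a.pos
  set c₀ : ℝ := min 1 (1 / (2 * d))
  have hEc : ∀ a b, |E a b| ≤ c₀ := fun a b => by
    refine le_min (hE a b).2 ?_
    rw [le_div_iff₀ (by positivity)]; linarith [(hE a b).1]
  have hc₀ : (d : ℝ) * c₀ ≤ 1 / 2 := by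
    have := mul_le_mul_of_nonneg_left (min_le_right 1 (1 / (2 * (d : ℝ)))) hd0.le
    calc (d : ℝ) * c₀ ≤ d * (1 / (2 * d)) := this
      _ = 1 / 2 := by field_simp
  set X := E * (1 + diagonal (fun a => hFun ρ (dwTheta M j) l (q a) c e) * E)⁻¹ with hX
  have hXb : |X a b| ≤ 2 := (entry_solve_le hEc (fun a => by
    obtain ⟨h0, h1⟩ := hFun_mem hθ (hq a) hce
    rw [abs_of_nonneg h0]; exact h1.trans (by norm_num [p₀])) hc₀ a b).trans
      (by linarith [min_le_left 1 (1 / (2 * (d : ℝ)))])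
  have hexpr : blockE ρ (dwTheta M j) l q 1 1 E c e a b =
      diagonal (fun a => vRel ρ (dwTheta M j) l (q a) c e) a b +
        hDer ρ (dwTheta M j) l (q a) c e * exp (vInt ρ (dwTheta M j) l (q a) c e) * X a b *
          exp (-vInt ρ (dwTheta M j) l (q b) c e) := by
    simp only [blockE, Matrix.one_mul, Matrix.mul_one, Matrix.add_apply, mul_diagonal, hX]
    rw [Matrix.mul_assoc (diagonal _) E, diagonal_mul]
  rw [hexpr]
  refine (abs_add_le _ _).trans ?_
  have t1 : |diagonal (fun a => vRel ρ (dwTheta M j) l (q a) c e) a b| ≤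
      wMax l * exp (-((p₀ : ℝ) * unit' j)) := by
    rcases eq_or_ne a b with rfl | hab
    · rw [diagonal_apply_eq]; exact hv a
    · rw [diagonal_apply_ne _ hab, abs_zero]; positivity
  have t2 : |hDer ρ (dwTheta M j) l (q a) c e * exp (vInt ρ (dwTheta M j) l (q a) c e) * X a b *
      exp (-vInt ρ (dwTheta M j) l (q b) c e)| ≤ 2 * exp (-((p₀ : ℝ) * unit' j)) := by
    have hp : 0 ≤ hDer ρ (dwTheta M j) l (q a) c e := (hDer_le hθ (hq a) hce).1
    rw [abs_mul, abs_mul, abs_mul, abs_of_nonneg hp, abs_of_pos (exp_pos _), abs_of_pos (exp_pos _)]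
    calc _ = (hDer ρ (dwTheta M j) l (q a) c e * exp (vInt ρ (dwTheta M j) l (q a) c e) *
          exp (-vInt ρ (dwTheta M j) l (q b) c e)) * |X a b| := by ring
      _ ≤ exp (-((p₀ : ℝ) * unit' j)) * 2 :=
          mul_le_mul (hfac a b) hXb (abs_nonneg _) (exp_pos _).le
      _ = _ := by ring
  have := mul_le_mul_of_nonneg_left hexp (show (0 : ℝ) ≤ wMax l + 2 by linarith)
  have h0 : 0 ≤ wMax l * exp (-((p₀ : ℝ) * (j₀ : ℝ) ^ 6)) := by positivity
  linarith

end

end Vale.Agent.P225
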