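import Vale.Agent.P225.Analysis.Block

/-!
# P225: the scalars of one excursion as functions of its parameter
-/

namespace Vale.Agent.P225

open Filter Topology Real Set MeasureTheory intervalIntegral

noncomputable section

/-- The profile of one excursion of parameter `x`, in units `N`, starting at `c`. -/
def exTheta (N c x t : ℝ) : ℝ := x / N * bump ((t - c - N) / N)

/-- The hypotheses on the surroundings of an excursion. -/
structure ExOK (ρ : ℝ → ℝ) (l : ℕ) (T Cb N c η : ℝ) : Prop where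
  hN : 1 ≤ N
  hη : 0 ≤ η
  hη1 : η ≤ 1
  hCb : ∀ x, bump x ≤ Cb
  hT : 0 ≤ T
  hsmall : T * Cb / N ≤ 1 / 100
  flat : StartsFlat ρ
  coef : CoefOK ρ noTheta
  near : ∀ t, c ≤ t → |ρ t - rhoInf| ≤ η ∧ |drift ρ t - 2 * p₀| ≤ η ∧
    |roundW ρ l t - alphaInf l| ≤ η

variable {ρ : ℝ → ℝ} {l q : ℕ} {T Cb N c η x y : ℝ}

lemma abs_exTheta_le (h : ExOK ρ l T Cb N c η) (hx : |x| ≤ T) (t : ℝ) :
    |exTheta N c x t| ≤ T * Cb / N := by
  have hN : 0 < N := zero_lt_one.trans_le h.hN
  rw [exTheta, abs_mul, abs_div, abs_of_pos hN, abs_of_nonneg (bump_nonneg _), div_mul_eq_mul_div]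
  gcongr
  · exact bump_nonneg _
  · exact h.hT
  · exact h.hCb _

lemma ExOK.coefOK (h : ExOK ρ l T Cb N c η) (hx : |x| ≤ T) : CoefOK ρ (exTheta N c x) := by
  obtain ⟨h1, -, h3, h4⟩ := h.coef
  refine ⟨h1, ?_, h3, fun s => ⟨(h4 s).1, (abs_exTheta_le h hx s).trans h.hsmall, (h4 s).2.2⟩⟩
  exact continuous_const.mul (contDiff_bump.continuous.comp (by fun_prop))

lemma exTheta_zero {t : ℝ} (hN : 0 < N) (h : t ≤ c + N ∨ c + 2 * N ≤ t) :
    exTheta N c x t = 0 := by
  rcases h with h | h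
  · rw [exTheta, bump_zero_left (div_nonpos_of_nonpos_of_nonneg (by linarith) hN.le), mul_zero]
  · rw [exTheta, bump_zero_right (by rw [le_div_iff₀ hN]; linarith), mul_zero]

lemma exTheta_at_zero (N c t : ℝ) : exTheta N c 0 t = 0 := by simp [exTheta]

/-- The size constant of the potential of degree `l`. -/
def exA (l : ℕ) (Cb : ℝ) : ℝ := 200 * lam l * Cb

lemma exA_nonneg (h : ExOK ρ l T Cb N c η) : 0 ≤ exA l Cb := by
  have := lam_nonneg l
  have : 0 ≤ Cb := (bump_nonneg 0).trans (h.hCb 0)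
  rw [exA]; positivity

lemma exPot_sub_le (h : ExOK ρ l T Cb N c η) (hq : q ≤ l) (hx : |x| ≤ T) (hy : |y| ≤ T) (t : ℝ) :
    |pot ρ (exTheta N c x) l q t - pot ρ (exTheta N c y) l q t| ≤ exA l Cb * |x - y| / N := by
  have hN : 0 < N := zero_lt_one.trans_le h.hN
  have hρ : 99 / 100 ≤ ρ t ^ 2 :=
    half_le_rhoInf_sq.trans (pow_le_pow_left₀ rhoInf_pos.le (h.coef.2.2.2 t).1 2)
  rw [pot_eq, pot_eq, ← sub_div, abs_div, abs_of_pos (show 0 < ρ t ^ 2 by linarith),
    div_le_iff₀ (by linarith)]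
  refine (potNum_lip hq ((abs_exTheta_le h hx t).trans h.hsmall)
    ((abs_exTheta_le h hy t).trans h.hsmall)).trans ?_
  have e : |exTheta N c x t - exTheta N c y t| ≤ |x - y| * Cb / N := by
    rw [show exTheta N c x t - exTheta N c y t = (x - y) / N * bump ((t - c - N) / N) by
      unfold exTheta; ring, abs_mul, abs_div, abs_of_pos hN, abs_of_nonneg (bump_nonneg _),
      div_mul_eq_mul_div]
    gcongr
    exact h.hCb _
  have hl := lam_nonneg l
  have hCb0 : 0 ≤ Cb := (bump_nonneg 0).trans (h.hCb 0)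
  have e2 := mul_le_mul_of_nonneg_left e (show 0 ≤ 180 * lam l by positivity)
  have e3 : 0 ≤ lam l * (|x - y| * Cb / N) := by positivity
  have e4 : exA l Cb * |x - y| / N = 200 * (lam l * (|x - y| * Cb / N)) := by rw [exA]; ring
  rw [e4]
  nlinarith [mul_le_mul_of_nonneg_left hρ (show 0 ≤ 200 * (lam l * (|x - y| * Cb / N)) by positivity)]

lemma exV_sub_le (h : ExOK ρ l T Cb N c η) (hq : q ≤ l) (hx : |x| ≤ T) (hy : |y| ≤ T) :
    (∀ t ∈ Icc c (c + 3 * N), |vRel ρ (exTheta N c x) l q c t - vRel ρ (exTheta N c y) l q c t| ≤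
      exA l Cb * |x - y| / N / p₀) ∧
    |vRel ρ (exTheta N c x) l q c (c + 3 * N) - vRel ρ (exTheta N c y) l q c (c + 3 * N)| ≤
      exA l Cb * |x - y| / N / p₀ * exp (-((p₀ : ℝ) * N)) := by
  have hN : 0 < N := zero_lt_one.trans_le h.hN
  have hA := exA_nonneg h
  have h1 := vRel_sub_bound (h.coefOK hx) (h.coefOK hy) h.flat hq le_rfl (b := c) (e := c + 3 * N)
    (R := exA l Cb * |x - y| / N) (by positivity) (fun t _ => exPot_sub_le h hq hx hy t)
  simp only [vRel_self (h.coefOK hx) hq, vRel_self (h.coefOK hy) hq, sub_self, abs_zero, zero_mul,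
    zero_add] at h1
  refine ⟨h1, ?_⟩
  have h2 := vRel_sub_bound (h.coefOK hx) (h.coefOK hy) h.flat hq (c := c) (b := c + 2 * N)
    (e := c + 3 * N) (R := 0) (by linarith) le_rfl (fun t ht => by
      rw [pot_eq, pot_eq, exTheta_zero hN (Or.inr ht.1.le), exTheta_zero hN (Or.inr ht.1.le),
        sub_self, abs_zero]) (c + 3 * N) ⟨by linarith, le_rfl⟩
  rw [zero_div, add_zero, show c + 3 * N - (c + 2 * N) = N by ring] at h2
  exact h2.trans (mul_le_mul_of_nonneg_right (h1 (c + 2 * N) ⟨by linarith, by linarith⟩)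
    (exp_pos _).le)

lemma exV_zero (h : ExOK ρ l T Cb N c η) (hq : q ≤ l) :
    ∀ t ∈ Icc c (c + 3 * N), vRel ρ (exTheta N c 0) l q c t = 0 := by
  intro t ht
  have hc := h.coefOK (show |(0 : ℝ)| ≤ T by simpa using h.hT)
  have := vRel_bound hc h.flat hq (c := c) (b := c) (e := c + 3 * N) (R := 0) le_rfl le_rfl
    (fun u _ => by rw [pot_eq, exTheta_at_zero, potNum_zero, sub_self, abs_zero]) t ht
  simpa [vRel_self hc hq] using this

lemma exV_le (h : ExOK ρ l T Cb N c η) (hq : q ≤ l) (hx : |x| ≤ T) :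
    (∀ t ∈ Icc c (c + 3 * N), |vRel ρ (exTheta N c x) l q c t| ≤ exA l Cb * T / N / p₀) ∧
    |vRel ρ (exTheta N c x) l q c (c + 3 * N)| ≤
      exA l Cb * T / N / p₀ * exp (-((p₀ : ℝ) * N)) := by
  have hA := exA_nonneg h
  have hN : 0 < N := zero_lt_one.trans_le h.hN
  have h0 : |(0 : ℝ)| ≤ T := by simpa using h.hT
  obtain ⟨a, b⟩ := exV_sub_le h hq hx h0
  have hxT : exA l Cb * |x - 0| / N / p₀ ≤ exA l Cb * T / N / p₀ := by rw [sub_zero]; gcongr
  refine ⟨fun t ht => ?_, ?_⟩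
  · have := a t ht
    rw [exV_zero h hq t ht, sub_zero] at this
    exact this.trans hxT
  · rw [exV_zero h hq (c + 3 * N) ⟨by linarith, le_rfl⟩, sub_zero] at b
    exact b.trans (mul_le_mul_of_nonneg_right hxT (exp_pos _).le)

lemma integral_bump_shift (hN : 0 < N) (c : ℝ) :
    ∫ t in c..(c + 3 * N), bump ((t - c - N) / N) / N = 1 := by
  have hb : Continuous fun t => bump ((t - c - N) / N) / N :=
    (contDiff_bump.continuous.comp (by fun_prop)).div_const _
  have z : ∀ a b : ℝ, (∀ t ∈ uIcc a b, bump ((t - c - N) / N) / N = 0) →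
      ∫ t in a..b, bump ((t - c - N) / N) / N = 0 := fun a b hz => by
    rw [intervalIntegral.integral_congr hz]; simp
  rw [← intervalIntegral.integral_add_adjacent_intervals (hb.intervalIntegrable c (c + N))
    (hb.intervalIntegrable (c + N) (c + 3 * N)),
    ← intervalIntegral.integral_add_adjacent_intervals (hb.intervalIntegrable (c + N) (c + 2 * N))
    (hb.intervalIntegrable (c + 2 * N) (c + 3 * N)), z c (c + N), z (c + 2 * N) (c + 3 * N)]
  · have e : ∀ t, bump ((t - c - N) / N) = bump (t / N - (c + N) / N) := fun t => by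
      rw [sub_sub, sub_div]
    simp only [e, intervalIntegral.integral_div,
      intervalIntegral.integral_comp_div_sub _ hN.ne', smul_eq_mul]
    rw [show (c + 2 * N) / N - (c + N) / N = 1 by field_simp; ring, sub_self, integral_bump]
    field_simp
    ring
  · intro t ht
    rw [uIcc_of_le (by linarith)] at ht
    rw [bump_zero_right (by rw [le_div_iff₀ hN]; linarith [ht.1]), zero_div]
  · intro t ht
    rw [uIcc_of_le (by linarith)] at ht
    rw [bump_zero_left (div_nonpos_of_nonpos_of_nonneg (by linarith [ht.2]) hN.le), zero_div]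

/-- The constant in the estimate of `vInt`. -/
def exC (l : ℕ) (T Cb : ℝ) : ℝ :=
  (1 + T) * (1 + Cb) ^ 2 * 100000 * (1 + lam l) ^ 2

lemma inv_sq_sub_le {r δ : ℝ} (h0 : rhoInf ≤ r) (h1 : |r - rhoInf| ≤ δ) (h2 : δ ≤ 1) :
    |1 / r ^ 2 - 1 / rhoInf ^ 2| ≤ 5 * δ := by
  have hi := rhoInf_pos
  have hlt := rhoInf_lt_one
  have hr : 0 < r := hi.trans_le h0
  have hδ : 0 ≤ δ := (abs_nonneg _).trans h1
  have hisq := half_le_rhoInf_sq
  have hrsq : 99 / 100 ≤ r ^ 2 := hisq.trans (pow_le_pow_left₀ hi.le h0 2)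
  have h3 : (9 / 10 : ℝ) ≤ r ^ 2 * rhoInf ^ 2 :=
    (by norm_num : (9 / 10 : ℝ) ≤ 99 / 100 * (99 / 100)).trans
      (mul_le_mul hrsq hisq (by norm_num) (sq_nonneg r))
  have h4 : r + rhoInf ≤ 3 := by linarith [(abs_le.1 h1).2]
  rw [div_sub_div _ _ (pow_pos hr 2).ne' (pow_pos hi 2).ne', abs_div,
    abs_of_pos (show 0 < r ^ 2 * rhoInf ^ 2 by positivity),
    div_le_iff₀ (by positivity : 0 < r ^ 2 * rhoInf ^ 2),
    show 1 * rhoInf ^ 2 - r ^ 2 * 1 = -((r - rhoInf) * (r + rhoInf)) by ring, abs_neg, abs_mul,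
    abs_of_pos (show 0 < r + rhoInf by linarith)]
  have e1 : |r - rhoInf| * (r + rhoInf) ≤ δ * 3 := mul_le_mul h1 h4 (by linarith) hδ
  have e2 : δ * (9 / 10) ≤ δ * (r ^ 2 * rhoInf ^ 2) := mul_le_mul_of_nonneg_left h3 hδ
  linarith

lemma abs_potSlope_le (hq : q ≤ l) : |potSlope l q| ≤ 60 * lam l := by
  rw [potSlope, abs_le]
  constructor <;> linarith [sq_le_lam hq, sq_nonneg (q : ℝ), lam_nonneg l]

lemma exPot_point (h : ExOK ρ l T Cb N c η) (hq : q ≤ l) (hx : |x| ≤ T) (hy : |y| ≤ T) {t : ℝ}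
    (ht : c ≤ t) :
    |pot ρ (exTheta N c x) l q t - pot ρ (exTheta N c y) l q t -
      potSlope l q * (x - y) / rhoInf ^ 2 * (bump ((t - c - N) / N) / N)| ≤
      (12000 * lam l * (T * Cb / N) + 300 * lam l * η) * (Cb * (|x - y| / N)) := by
  have hN : 0 < N := zero_lt_one.trans_le h.hN
  have hl := lam_nonneg l
  set u := bump ((t - c - N) / N) with hu
  have hu0 : 0 ≤ u := bump_nonneg _
  have huC : u ≤ Cb := h.hCb _
  have hCb0 : 0 ≤ Cb := hu0.trans huC
  have hrem := potNum_rem hq h.hsmall (abs_exTheta_le h hx t) (abs_exTheta_le h hy t)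
  rw [show exTheta N c x t - exTheta N c y t = (x - y) * u / N by unfold exTheta; ring] at hrem
  have habs : |(x - y) * u / N| = |x - y| * u / N := by
    rw [abs_div, abs_mul, abs_of_nonneg hu0, abs_of_pos hN]
  rw [habs] at hrem
  have hρ0 : rhoInf ≤ ρ t := (h.coef.2.2.2 t).1
  have hρsq : 99 / 100 ≤ ρ t ^ 2 :=
    half_le_rhoInf_sq.trans (pow_le_pow_left₀ rhoInf_pos.le hρ0 2)
  have hinv := inv_sq_sub_le hρ0 (h.near t ht).1 h.hη1
  set D := potNum l q (exTheta N c x t) - potNum l q (exTheta N c y t)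
  have e : pot ρ (exTheta N c x) l q t - pot ρ (exTheta N c y) l q t -
      potSlope l q * (x - y) / rhoInf ^ 2 * (u / N) =
      (D - potSlope l q * ((x - y) * u / N)) / ρ t ^ 2 +
        potSlope l q * ((x - y) * u / N) * (1 / ρ t ^ 2 - 1 / rhoInf ^ 2) := by
    rw [pot_eq, pot_eq]; ring
  rw [e]
  have hz : 0 ≤ |x - y| * u / N := by positivity
  have hu' : |x - y| * u / N ≤ Cb * (|x - y| / N) := by
    rw [mul_comm |x - y| u, mul_div_assoc]; exact mul_le_mul_of_nonneg_right huC (by positivity)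
  have hT := h.hT
  have t1 : |(D - potSlope l q * ((x - y) * u / N)) / ρ t ^ 2| ≤
      12000 * lam l * (T * Cb / N) * (|x - y| * u / N) := by
    rw [abs_div, abs_of_pos (show 0 < ρ t ^ 2 by linarith), div_le_iff₀ (by linarith)]
    refine hrem.trans ?_
    have h0 : 0 ≤ 12000 * lam l * (T * Cb / N) * (|x - y| * u / N) := by positivity
    linarith [mul_le_mul_of_nonneg_left hρsq h0]
  have t2 : |potSlope l q * ((x - y) * u / N) * (1 / ρ t ^ 2 - 1 / rhoInf ^ 2)| ≤
      60 * lam l * (|x - y| * u / N) * (5 * η) := by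
    rw [abs_mul, abs_mul, habs]
    exact mul_le_mul (mul_le_mul_of_nonneg_right (abs_potSlope_le hq) hz) hinv (abs_nonneg _)
      (by positivity)
  refine (abs_add_le _ _).trans ((add_le_add t1 t2).trans ?_)
  have hη := h.hη
  have hpos : 0 ≤ 12000 * lam l * (T * Cb / N) + 300 * lam l * η := by positivity
  linarith [mul_le_mul_of_nonneg_left hu' hpos]

lemma exC_bounds (l : ℕ) (hT : 0 ≤ T) (hCb : 0 ≤ Cb) :
    lam l * Cb ≤ (1 + T) * (1 + Cb) ^ 2 * (1 + lam l) ^ 2 ∧
      lam l * Cb ^ 2 * T ≤ (1 + T) * (1 + Cb) ^ 2 * (1 + lam l) ^ 2 ∧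
      (lam l * Cb) ^ 2 * T ≤ (1 + T) * (1 + Cb) ^ 2 * (1 + lam l) ^ 2 := by
  have hl := lam_nonneg l
  have a1 : lam l ≤ (1 + lam l) ^ 2 := by nlinarith
  have a2 : lam l ^ 2 ≤ (1 + lam l) ^ 2 := by nlinarith
  have b1 : Cb ≤ (1 + Cb) ^ 2 := by nlinarith
  have b2 : Cb ^ 2 ≤ (1 + Cb) ^ 2 := by nlinarith
  refine ⟨?_, ?_, ?_⟩
  · calc lam l * Cb ≤ (1 + lam l) ^ 2 * (1 + Cb) ^ 2 * 1 := by
          rw [mul_one]; exact mul_le_mul a1 b1 hCb (sq_nonneg _)
      _ ≤ (1 + lam l) ^ 2 * (1 + Cb) ^ 2 * (1 + T) :=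
          mul_le_mul_of_nonneg_left (by linarith) (by positivity)
      _ = _ := by ring
  · calc lam l * Cb ^ 2 * T ≤ (1 + lam l) ^ 2 * (1 + Cb) ^ 2 * (1 + T) :=
          mul_le_mul (mul_le_mul a1 b2 (sq_nonneg _) (sq_nonneg _)) (by linarith) hT (by positivity)
      _ = _ := by ring
  · calc (lam l * Cb) ^ 2 * T = lam l ^ 2 * Cb ^ 2 * T := by ring
      _ ≤ (1 + lam l) ^ 2 * (1 + Cb) ^ 2 * (1 + T) :=
          mul_le_mul (mul_le_mul a2 b2 (sq_nonneg _) (sq_nonneg _)) (by linarith) hT (by positivity)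
      _ = _ := by ring

lemma exPot_integral (h : ExOK ρ l T Cb N c η) (hq : q ≤ l) (hx : |x| ≤ T) (hy : |y| ≤ T) :
    |(∫ t in c..(c + 3 * N), (pot ρ (exTheta N c x) l q t - pot ρ (exTheta N c y) l q t)) -
        potSlope l q * (x - y) / rhoInf ^ 2| ≤
      exC l T Cb * (η + 1 / N) * |x - y| := by
  have hN : 0 < N := zero_lt_one.trans_le h.hN
  have hce : c ≤ c + 3 * N := by linarith
  have hCb0 : 0 ≤ Cb := (bump_nonneg 0).trans (h.hCb 0)
  have hT := h.hT
  have hη := h.hη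
  have hl := lam_nonneg l
  set L := potSlope l q * (x - y) / rhoInf ^ 2 with hL
  have hb : Continuous fun t => L * (bump ((t - c - N) / N) / N) :=
    continuous_const.mul ((contDiff_bump.continuous.comp (by fun_prop)).div_const _)
  have hp : Continuous fun t => pot ρ (exTheta N c x) l q t - pot ρ (exTheta N c y) l q t :=
    ((h.coefOK hx).ricData hq).cK.sub ((h.coefOK hy).ricData hq).cK
  have eL : L = ∫ t in c..(c + 3 * N), L * (bump ((t - c - N) / N) / N) := by
    rw [intervalIntegral.integral_const_mul, integral_bump_shift hN, mul_one]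
  rw [eL, ← intervalIntegral.integral_sub (hp.intervalIntegrable _ _) (hb.intervalIntegrable _ _),
    ← norm_eq_abs]
  refine (intervalIntegral.norm_integral_le_of_norm_le_const
    (C := (12000 * lam l * (T * Cb / N) + 300 * lam l * η) * (Cb * (|x - y| / N)))
    fun t ht => ?_).trans ?_
  · rw [uIoc_of_le hce] at ht
    exact exPot_point h hq hx hy ht.1.le
  rw [add_sub_cancel_left, abs_of_pos (by linarith : 0 < 3 * N)]
  have e : (12000 * lam l * (T * Cb / N) + 300 * lam l * η) * (Cb * (|x - y| / N)) * (3 * N) =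
      36000 * (lam l * Cb ^ 2 * T) * (|x - y| * (1 / N)) + 900 * (lam l * Cb) * (η * |x - y|) := by
    field_simp; ring
  obtain ⟨z1, z2, -⟩ := exC_bounds l hT hCb0
  rw [e, exC]
  have d1 : 0 ≤ |x - y| * (1 / N) := by positivity
  have d2 : 0 ≤ η * |x - y| := by positivity
  have hZ : 0 ≤ (1 + T) * (1 + Cb) ^ 2 * (1 + lam l) ^ 2 := by positivity
  have i1 := mul_le_mul_of_nonneg_right z2 d1
  have i2 := mul_le_mul_of_nonneg_right z1 d2
  linarith [mul_nonneg hZ d1, mul_nonneg hZ d2]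

/-- The integral of `vRel` over an excursion is close to linear, in Lipschitz norm. -/
lemma exInt_sub_le (h : ExOK ρ l T Cb N c η) (hq : q ≤ l) (hx : |x| ≤ T) (hy : |y| ≤ T) :
    |vInt ρ (exTheta N c x) l q c (c + 3 * N) - vInt ρ (exTheta N c y) l q c (c + 3 * N) -
        genY l q * (x - y)| ≤ exC l T Cb * (η + 1 / N) * |x - y| := by
  have hN : 0 < N := zero_lt_one.trans_le h.hN
  have hce : c ≤ c + 3 * N := by linarith
  have hA := exA_nonneg h
  have hp : (p₀ : ℝ) = 14 := by norm_num [p₀]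
  have hCx := h.coefOK hx
  have hCy := h.coefOK hy
  have cx := vRel_continuous hCx h.flat hq c
  have cy := vRel_continuous hCy h.flat hq c
  set v := vRel ρ (exTheta N c x) l q c
  set v' := vRel ρ (exTheta N c y) l q c
  have key := integral_identity (v := fun t => v t - v' t)
    (r := fun t => pot ρ (exTheta N c x) l q t - pot ρ (exTheta N c y) l q t)
    (u := fun t => v t + v' t) (μ := drift ρ) (w₀ := roundW ρ l) (α := alphaInf l) (p := (p₀ : ℝ))
    hce (cx.sub cy) ((hCx.ricData hq).cK.sub (hCy.ricData hq).cK) (cx.add cy) h.coef.2.2.1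
    (roundW_continuous h.coef h.flat l)
    (fun t ht => ((vRel_deriv hCx h.flat hq ht.1).sub (vRel_deriv hCy h.flat hq ht.1)).congr_deriv
      (by simp only [v, v']; ring))
  simp only [v, v', vRel_self hCx hq, vRel_self hCy hq, sub_self, sub_zero] at key
  rw [intervalIntegral.integral_sub (cx.intervalIntegrable _ _) (cy.intervalIntegrable _ _)] at key
  change (2 * alphaInf l + 2 * (p₀ : ℝ)) *
    (vInt ρ (exTheta N c x) l q c (c + 3 * N) - vInt ρ (exTheta N c y) l q c (c + 3 * N)) = _ at key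
  set I := vInt ρ (exTheta N c x) l q c (c + 3 * N) - vInt ρ (exTheta N c y) l q c (c + 3 * N)
  set D := exA l Cb * |x - y| / N / p₀ with hD
  obtain ⟨hv, hve⟩ := exV_sub_le h hq hx hy
  set S := √((p₀ : ℝ) ^ 2 + lam l / rhoInf ^ 2) with hS
  have hS14 : 14 ≤ S := by
    have := alphaInf_nonneg l; rw [alphaInf, ← hS] at this; linarith
  have eα : 2 * alphaInf l + 2 * (p₀ : ℝ) = 2 * S := by rw [alphaInf, ← hS]; ring
  have ey : 2 * S * (genY l q * (x - y)) = potSlope l q * (x - y) / rhoInf ^ 2 := by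
    have : S ≠ 0 := by linarith
    have := rhoInf_pos.ne'
    rw [genY, potSlope, ← hS, hp]; field_simp; ring
  have b2 : |(∫ t in c..(c + 3 * N),
      (v t + v' t + 2 * (roundW ρ l t - alphaInf l) + (drift ρ t - 2 * (p₀ : ℝ))) * (v t - v' t))| ≤
      (2 * (exA l Cb * T / N / p₀) + 3 * η) * D * (3 * N) := by
    have bnd : ∀ t ∈ uIoc c (c + 3 * N),
        ‖(v t + v' t + 2 * (roundW ρ l t - alphaInf l) + (drift ρ t - 2 * (p₀ : ℝ))) * (v t - v' t)‖ ≤
          (2 * (exA l Cb * T / N / p₀) + 3 * η) * D := fun t ht => by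
      rw [uIoc_of_le hce] at ht
      have ht' : t ∈ Icc c (c + 3 * N) := ⟨ht.1.le, ht.2⟩
      obtain ⟨-, h2, h3⟩ := h.near t ht'.1
      have a := abs_le.1 ((exV_le h hq hx).1 t ht')
      have b := abs_le.1 ((exV_le h hq hy).1 t ht')
      rw [norm_eq_abs, abs_mul]
      refine mul_le_mul ?_ (hv t ht') (abs_nonneg _)
        (add_nonneg (by have := h.hT; positivity) (by linarith [h.hη]))
      rw [abs_le]
      constructor <;> simp only [v, v'] <;>
        linarith [(abs_le.1 h2).1, (abs_le.1 h2).2, (abs_le.1 h3).1, (abs_le.1 h3).2]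
    simpa [norm_eq_abs, abs_of_pos hN] using intervalIntegral.norm_integral_le_of_norm_le_const bnd
  have b1 := exPot_integral h hq hx hy
  have b3 : |v (c + 3 * N) - v' (c + 3 * N)| ≤ D :=
    hv (c + 3 * N) ⟨by linarith, le_rfl⟩
  have habs : 2 * S * |I - genY l q * (x - y)| ≤ exC l T Cb * (η + 1 / N) * |x - y| + D +
      (2 * (exA l Cb * T / N / p₀) + 3 * η) * D * (3 * N) := by
    rw [← abs_of_pos (show 0 < 2 * S by linarith), ← abs_mul, mul_sub, ey, ← eα, key]
    refine le_trans (le_of_eq (congrArg abs ?_)) ((abs_sub _ _).trans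
      (add_le_add ((abs_sub _ _).trans (add_le_add b1 b3)) b2))
    simp only [v, v']; ring
  have hω : 0 ≤ η + 1 / N := add_nonneg h.hη (by positivity)
  have hd : 0 ≤ |x - y| := abs_nonneg _
  have hsmall : D + (2 * (exA l Cb * T / N / p₀) + 3 * η) * D * (3 * N) ≤
      26 * exC l T Cb * (η + 1 / N) * |x - y| := by
    obtain ⟨z1, -, z3⟩ := exC_bounds l h.hT ((bump_nonneg 0).trans (h.hCb 0))
    have e : D + (2 * (exA l Cb * T / N / p₀) + 3 * η) * D * (3 * N) =
        (lam l * Cb) * (200 / 14) * (|x - y| * (1 / N)) +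
        (lam l * Cb) ^ 2 * T * (6 * 40000 / 196) * (|x - y| * (1 / N)) +
        (lam l * Cb) * (9 * 200 / 14) * (η * |x - y|) := by
      rw [hD, exA, hp]; field_simp; ring
    rw [e, exC]
    have d1 : 0 ≤ |x - y| * (1 / N) := by positivity
    have d2 : 0 ≤ η * |x - y| := mul_nonneg h.hη hd
    have hT := h.hT
    have hZ : 0 ≤ (1 + T) * (1 + Cb) ^ 2 * (1 + lam l) ^ 2 := by positivity
    have i1 := mul_le_mul_of_nonneg_right z1 d1
    have i2 := mul_le_mul_of_nonneg_right z1 d2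
    have i3 := mul_le_mul_of_nonneg_right z3 d1
    linarith [mul_nonneg hZ d1, mul_nonneg hZ d2]
  have h28 : 28 * |I - genY l q * (x - y)| ≤ 2 * S * |I - genY l q * (x - y)| :=
    mul_le_mul_of_nonneg_right (by linarith) (abs_nonneg _)
  have hC0 : 0 ≤ exC l T Cb := by have := h.hT; rw [exC]; positivity
  linarith [mul_nonneg (mul_nonneg hC0 hω) hd]

lemma exInt_zero (h : ExOK ρ l T Cb N c η) (hq : q ≤ l) :
    vInt ρ (exTheta N c 0) l q c (c + 3 * N) = 0 := by
  have hN : 0 < N := zero_lt_one.trans_le h.hN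
  rw [vInt, intervalIntegral.integral_congr (g := fun _ => (0 : ℝ))]
  · simp
  · intro t ht
    rw [uIcc_of_le (by linarith)] at ht
    exact exV_zero h hq t ht

lemma exH_sub_le (h : ExOK ρ l T Cb N c η) (hq : q ≤ l) (hx : |x| ≤ T) (hy : |y| ≤ T) :
    |hFun ρ (exTheta N c x) l q c (c + 3 * N) - hFun ρ (exTheta N c y) l q c (c + 3 * N)| ≤
      exA l Cb * |x - y| / N / p₀ := by
  have hN : 0 < N := zero_lt_one.trans_le h.hN
  have hA := exA_nonneg h
  exact hFun_sub_le (h.coefOK hx) (h.coefOK hy) h.flat hq (by linarith) (by positivity)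
    (exV_sub_le h hq hx hy).1

lemma exDer_sub_le (h : ExOK ρ l T Cb N c η) (hq : q ≤ l) (hx : |x| ≤ T) (hy : |y| ≤ T) :
    |hDer ρ (exTheta N c x) l q c (c + 3 * N) - hDer ρ (exTheta N c y) l q c (c + 3 * N)| ≤
      exp (-((p₀ : ℝ) * N)) * (exA l Cb * |x - y|) := by
  have hN : 0 < N := zero_lt_one.trans_le h.hN
  have hA := exA_nonneg h
  refine (hDer_sub_le (h.coefOK hx) (h.coefOK hy) h.flat hq (by linarith)
    (exV_sub_le h hq hx hy).1).trans (mul_le_mul (exp_le_exp.2 ?_) ?_ (by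
      have : (0 : ℝ) ≤ c + 3 * N - c := by linarith
      positivity) (exp_pos _).le)
  · norm_num [p₀]; linarith
  · rw [add_sub_cancel_left]
    have e : 2 * (exA l Cb * |x - y| / N / (p₀ : ℝ)) * (3 * N) = exA l Cb * |x - y| * (6 / 14) := by
      norm_num [p₀]; field_simp; ring
    rw [e]; exact mul_le_of_le_one_right (by positivity) (by norm_num)

end

end Vale.Agent.P225
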