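import Mathlib

/-!
# P225: global solutions of bounded Lipschitz fields, and barriers
-/

namespace Vale.Agent.P225

open Set Filter Topology

noncomputable section

lemma exists_flow {E : Type*} [NormedAddCommGroup E] [NormedSpace ℝ E] [CompleteSpace E]
    {V : ℝ → E → E} {K L : NNReal} (hK : ∀ t, LipschitzWith K (V t))
    (hc : ∀ y, Continuous fun t => V t y) (hL : ∀ t y, ‖V t y‖ ≤ L)
    (s : ℝ) (y0 : E) : ∃ y : ℝ → E, y s = y0 ∧ ∀ x, HasDerivAt y (V x (y x)) x := by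
  have loc : ∀ T : NNReal, ∃ α : ℝ → E, α s = y0 ∧
      ∀ x ∈ Icc (s - T) (s + T), HasDerivWithinAt α (V x (α x)) (Icc (s - T) (s + T)) x := by
    intro T
    have hs : s ∈ Icc (s - (T : ℝ)) (s + T) := by
      constructor <;> linarith [T.coe_nonneg]
    have hpl : IsPicardLindelof V (tmin := s - T) (tmax := s + T) ⟨s, hs⟩ y0
        (L * T) 0 L K := by
      refine ⟨fun t _ => (hK t).lipschitzOnWith, fun y _ => (hc y).continuousOn,
        fun t _ x _ => hL t x, ?_⟩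
      simp
    exact hpl.exists_eq_forall_mem_Icc_hasDerivWithinAt₀
  choose α hα0 hα using loc
  have hd : ∀ (T : NNReal) x, x ∈ Ioo (s - (T : ℝ)) (s + T) →
      HasDerivAt (α T) (V x (α T x)) x := fun T x hx =>
    (hα T x (Ioo_subset_Icc_self hx)).hasDerivAt (Icc_mem_nhds hx.1 hx.2)
  have agree : ∀ (T U : NNReal) x, (T : ℝ) ≤ U → x ∈ Ioo (s - (T : ℝ)) (s + T) →
      α T x = α U x := by
    intro T U x hTU hx
    exact ODE_solution_unique_of_mem_Ioo (v := V) (s := fun _ => univ)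
      (t₀ := s) (fun t _ => (hK t).lipschitzOnWith)
      ⟨by linarith [hx.1, hx.2], by linarith [hx.1, hx.2]⟩
      (fun z hz => ⟨hd T z hz, trivial⟩)
      (fun z hz => ⟨hd U z ⟨by linarith [hz.1], by linarith [hz.2]⟩, trivial⟩)
      (by rw [hα0, hα0]) hx
  let T : ℝ → NNReal := fun x => (|x - s| + 1).toNNReal
  have hT : ∀ x, (T x : ℝ) = |x - s| + 1 := fun x => Real.coe_toNNReal _ (by positivity)
  have hmem : ∀ x, x ∈ Ioo (s - (T x : ℝ)) (s + T x) := by
    intro x; rw [hT]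
    constructor <;> linarith [le_abs_self (x - s), neg_abs_le (x - s)]
  refine ⟨fun x => α (T x) x, hα0 _, fun x => ?_⟩
  have e : (fun z => α (T z) z) =ᶠ[𝓝 x] α (T x) := by
    filter_upwards [Ioo_mem_nhds (hmem x).1 (hmem x).2] with z hz
    rcases le_total (T z : ℝ) (T x) with h | h
    · exact agree _ _ z h (hmem z)
    · exact (agree _ _ z h hz).symm
  exact (hd _ x (hmem x)).congr_of_eventuallyEq e

/-- A function that increases wherever it is negative stays nonnegative. -/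
lemma nonneg_of_barrier {f f' : ℝ → ℝ} {c e : ℝ} (hf : ContinuousOn f (Icc c e))
    (hd : ∀ t ∈ Ioo c e, HasDerivAt f (f' t) t) (hc : 0 ≤ f c)
    (hb : ∀ t ∈ Ioo c e, f t < 0 → 0 ≤ f' t) : ∀ t ∈ Icc c e, 0 ≤ f t := by
  intro t ht
  by_contra hneg
  push Not at hneg
  set A : Set ℝ := {x | x ∈ Icc c t ∧ 0 ≤ f x} with hA
  have hA0 : A.Nonempty := ⟨c, ⟨le_rfl, ht.1⟩, hc⟩
  have hAc : IsClosed A :=
    (hf.mono (Icc_subset_Icc_right ht.2)).preimage_isClosed_of_isClosed isClosed_Icc isClosed_Ici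
  have hAb : BddAbove A := ⟨t, fun x hx => hx.1.2⟩
  obtain ⟨⟨ha1, ha2⟩, ha0⟩ := hAc.csSup_mem hA0 hAb
  have hlt : sSup A < t := ha2.lt_of_ne fun h => (h ▸ ha0).not_gt hneg
  have hneg' : ∀ x ∈ Ioo (sSup A) t, f x < 0 := fun x hx => not_le.1 fun h =>
    (le_csSup hAb ⟨⟨ha1.trans hx.1.le, hx.2.le⟩, h⟩).not_gt hx.1
  have hm : MonotoneOn f (Icc (sSup A) t) := by
    refine monotoneOn_of_hasDerivWithinAt_nonneg (f' := f') (convex_Icc _ _)
      (hf.mono (Icc_subset_Icc ha1 ht.2)) (fun x hx => ?_) fun x hx => ?_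
    all_goals rw [interior_Icc] at hx
    · exact (hd x ⟨ha1.trans_lt hx.1, hx.2.trans_le ht.2⟩).hasDerivWithinAt
    · exact hb x ⟨ha1.trans_lt hx.1, hx.2.trans_le ht.2⟩ (hneg' x hx)
  have := hm ⟨le_rfl, hlt.le⟩ ⟨hlt.le, le_rfl⟩ hlt.le
  linarith

end

end Vale.Agent.P225
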