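import Vale.Agent.P225.Analysis.GlueBlock

/-!
# P225: from the steps to the smooth solution
-/

namespace Vale.Agent.P225

open Set Filter Topology Real Matrix intervalIntegral MeasureTheory
open scoped ContDiff

noncomputable section

variable {d M : ℕ}

lemma pot_congr (ρ : ℝ → ℝ) {θ θ' : ℝ → ℝ} (l q : ℕ) {s : ℝ} (h : θ s = θ' s) :
    pot ρ θ l q s = pot ρ θ' l q s := by
  rw [pot, pot, h]

lemma exStart_zero (j : ℕ) : exStart j 0 = (j : ℝ) ^ 8 := by simp [exStart]

lemma exStart_succ (j k : ℕ) : exStart j k + 3 * unit' j = exStart j (k + 1) := by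
  simp [exStart]; ring

lemma exStart_mem {j : ℕ} (hj : 3 * M + 4 ≤ j) {k : ℕ} (hk : k ≤ M) :
    (j : ℝ) ^ 8 ≤ exStart j k ∧ exStart j k + unit' j ≤ ((j : ℝ) + 1) ^ 8 := by
  have hN := unit_nonneg j
  have hfit := fits (M := M) hj
  rw [plen] at hfit
  have hk' : (k : ℝ) ≤ M := by exact_mod_cast hk
  have hk0 : (0 : ℝ) ≤ k := by positivity
  have := mul_le_mul_of_nonneg_right hk' hN
  constructor <;> simp only [exStart] <;> nlinarith

variable {κ : ℝ} {j₀ : ℕ} {τ : ℕ → Fin M → ℝ}

lemma theta_on_excursion (hM : 3 * M + 4 ≤ j₀) {j : ℕ} (hj : j₀ ≤ j) (k : Fin M) {t : ℝ}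
    (ht : t ∈ Icc (exStart j k) (exStart j ((k : ℕ) + 1))) :
    theta M j₀ τ t = exTheta (unit' j) (exStart j k) (τ j k) t := by
  obtain ⟨h1, h2⟩ := exStart_mem (M := M) (j := j) (by omega) (k := (k : ℕ)) k.2.le
  obtain ⟨-, h4⟩ := exStart_mem (M := M) (j := j) (by omega) (k := (k : ℕ) + 1) k.2
  have hN : 0 < unit' j := unit_pos (by omega)
  rw [theta_in_closed_period hM hj (h1.trans ht.1) (ht.2.trans (by linarith)),
    thetaPiece_segment hN _ k, exTheta]
  · congr 2
    simp only [exStart]; ring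
  · have := ht.1; simp only [exStart] at this; linarith
  · have := ht.2; simp only [exStart] at this; push_cast at this; linarith

lemma coefOK_exTheta (hM : 3 * M + 4 ≤ j₀) (hC : CoefOK (rho κ j₀) (theta M j₀ τ)) {j : ℕ}
    (hj : j₀ ≤ j) (k : Fin M) :
    CoefOK (rho κ j₀) (exTheta (unit' j) (exStart j k) (τ j k)) := by
  obtain ⟨a, -, b, c⟩ := hC
  have hN : 0 < unit' j := unit_pos (by omega)
  refine ⟨a, continuous_const.mul (contDiff_bump.continuous.comp (by fun_prop)), b,
    fun s => ⟨(c s).1, ?_, (c s).2.2⟩⟩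
  by_cases hs : s ∈ Icc (exStart j k) (exStart j ((k : ℕ) + 1))
  · rw [← theta_on_excursion hM hj k hs]; exact (c s).2.1
  · rw [exTheta_zero hN, abs_zero]
    · norm_num
    · rw [← exStart_succ] at hs
      simp only [mem_Icc, not_and_or, not_le] at hs
      rcases hs with h | h
      · left; linarith
      · right; linarith

lemma theta_on_dwell (hM : 3 * M + 4 ≤ j₀) {j : ℕ} (hj : j₀ ≤ j) {t : ℝ}
    (ht : t ∈ Icc (exStart j M) (((j : ℝ) + 1) ^ 8)) :
    theta M j₀ τ t = dwTheta M j t := by
  obtain ⟨h1, -⟩ := exStart_mem (M := M) (j := j) (by omega) (k := M) le_rfl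
  have hN : 0 < unit' j := unit_pos (by omega)
  rw [theta_in_closed_period hM hj (h1.trans ht.1) ht.2, thetaPiece_dwell hN _ ?_, dwTheta]
  have := ht.1; simp only [exStart] at this; linarith

lemma coefOK_dwTheta (hM : 3 * M + 4 ≤ j₀) (hC : CoefOK (rho κ j₀) (theta M j₀ τ)) {j : ℕ}
    (hj : j₀ ≤ j) : CoefOK (rho κ j₀) (dwTheta M j) := by
  obtain ⟨a, -, b, c⟩ := hC
  refine ⟨a, ?_, b, fun s => ⟨(c s).1, ?_, (c s).2.2⟩⟩
  · have h : Continuous (plateau M j) :=
      (Real.smoothTransition.continuous.comp (by fun_prop)).mul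
        (Real.smoothTransition.continuous.comp (by fun_prop))
    exact continuous_const.mul (h.comp (by fun_prop))
  · rw [dwTheta, abs_mul, abs_of_pos thetaStar_pos, abs_of_nonneg (plateau_mem _).1]
    have := mul_le_of_le_one_right thetaStar_pos.le (plateau_mem (M := M) (j := j) (s - (j : ℝ) ^ 8)).2
    linarith [thetaStar_le]

variable {l : ℕ} {q : Fin d → ℕ}

lemma abs_sum_vec (y : Fin d → ℝ) : ‖y‖ ≤ ∑ a, |y a| :=
  (pi_norm_le_iff_of_nonneg (by positivity)).2 fun a =>
    Finset.single_le_sum (f := fun a => |y a|) (fun _ _ => abs_nonneg _) (Finset.mem_univ a)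

/-- Exponential growth at most with the supremum of the field. -/
lemma phase_growth {P : ℝ → Matrix (Fin d) (Fin d) ℝ} {μ : ℝ → ℝ} {z : ℝ → Phase d} {K c e : ℝ}
    (hz : ∀ s, HasDerivAt z (sysField P μ s (z s)) s) (hK : ∀ t, sysBound P μ t ≤ K) (hce : c ≤ e) :
    ‖z e‖ ≤ ‖z c‖ * exp (K * (e - c)) := by
  have := norm_le_gronwallBound_of_norm_deriv_right_le (f := z) (δ := ‖z c‖) (K := K) (ε := 0)
    (a := c) (b := e) (continuous_iff_continuousAt.2 fun t => (hz t).continuousAt).continuousOn
    (fun t _ => (hz t).hasDerivWithinAt) le_rfl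
    (fun t _ => by
      rw [add_zero]
      exact (norm_sysField_le _ _).trans (mul_le_mul_of_nonneg_right (hK t) (norm_nonneg _)))
    e ⟨hce, le_rfl⟩
  rwa [gronwallBound_ε0] at this

theorem glue_ok : GlueStmt := by
  intro κ M T l d q R Ri j₀ τ E v hρ hM _ hC hq hR hE0 hstep
  have hf : StartsFlat (rho κ j₀) := hρ.startsFlat
  have hRR : ∀ k, R k * Ri k = 1 := fun k => (hR k).1
  have hθs := contDiff_theta hM τ
  have hj8 : (0 : ℝ) ≤ (j₀ : ℝ) ^ 8 := by positivity
  have hsw : ∀ s, (∀ᶠ t in 𝓝 s, segment M j₀ t = segment M j₀ s) ∨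
      (∀ᶠ t in 𝓝 s, theta M j₀ τ t = 0) := by
    intro s
    rcases theta_eventually hM τ s with h | ⟨j, hj, h1, h2, -⟩
    · exact Or.inr h
    · by_cases hD : (j : ℝ) ^ 8 + 3 * (M : ℝ) * unit' j < s
      · left
        rw [segment_in_dwell hM hj hD.le h2]
        filter_upwards [eventually_gt_nhds hD, eventually_lt_nhds h2] with t a b using
          segment_in_dwell hM hj a.le b
      · have hN : 0 < unit' j := unit_pos (by omega)
        set u := (s - (j : ℝ) ^ 8) / (3 * unit' j) with hu
        have hu0 : 0 < u := div_pos (by linarith) (by positivity)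
        have huM : u ≤ M := by rw [hu, div_le_iff₀ (by positivity)]; linarith
        have es : (j : ℝ) ^ 8 + 3 * u * unit' j = s := by rw [hu]; field_simp; ring
        by_cases hint : (⌊u⌋₊ : ℝ) < u
        · left
          have hkM : ⌊u⌋₊ < M := by exact_mod_cast hint.trans_le huM
          have h3 := Nat.lt_floor_add_one u
          have a1 : (j : ℝ) ^ 8 + 3 * (⌊u⌋₊ : ℝ) * unit' j < s := by
            rw [← es]; nlinarith
          have a2 : s < (j : ℝ) ^ 8 + 3 * ((⌊u⌋₊ : ℝ) + 1) * unit' j := by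
            rw [← es]; nlinarith
          rw [segment_in_excursion hM hj ⟨⌊u⌋₊, hkM⟩ a1.le a2]
          filter_upwards [eventually_gt_nhds a1, eventually_lt_nhds a2] with t a b using
            segment_in_excursion hM hj ⟨⌊u⌋₊, hkM⟩ a.le b
        · right
          obtain ⟨i, hi⟩ : ∃ i, ⌊u⌋₊ = i + 1 := by
            refine ⟨⌊u⌋₊ - 1, (Nat.succ_pred_eq_of_pos (Nat.pos_of_ne_zero fun h0 => ?_)).symm⟩
            rw [h0] at hint; simp only [Nat.cast_zero] at hint; exact hint hu0
          have hu' : u = (i : ℝ) + 1 := by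
            have := Nat.floor_le hu0.le
            rw [hi] at this hint; push_cast at this hint; linarith [not_lt.1 hint]
          have hiM : i + 1 ≤ M := by
            have : ((i + 1 : ℕ) : ℝ) ≤ M := by push_cast; linarith
            exact_mod_cast this
          have es' : s = exStart j (i + 1) := by
            rw [← es, hu']; simp [exStart]
          filter_upwards [eventually_gt_nhds (show s - unit' j < s by linarith),
            eventually_lt_nhds (show s < s + unit' j by linarith)] with t ta tb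
          rcases lt_or_ge t s with hts | hts
          · rw [theta_on_excursion hM hj ⟨i, hiM⟩ ⟨by
              show exStart j i ≤ t
              have := exStart_succ j i; linarith, by show t ≤ exStart j (i + 1); linarith⟩,
              exTheta_zero hN (Or.inr ?_)]
            show exStart j i + 2 * unit' j ≤ t
            have := exStart_succ j i; linarith
          · rcases hiM.lt_or_eq with hlt | heq
            · rw [theta_on_excursion hM hj ⟨i + 1, hlt⟩ ⟨by
                show exStart j (i + 1) ≤ t; linarith, by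
                show t ≤ exStart j (i + 1 + 1)
                have := exStart_succ j (i + 1); linarith⟩, exTheta_zero hN (Or.inl ?_)]
              show t ≤ exStart j (i + 1) + unit' j
              linarith
            · have hsM : s = exStart j M := by rw [es', heq]
              have := (exStart_mem (M := M) (j := j) (by omega) (k := M) le_rfl).2
              rw [theta_on_dwell hM hj ⟨by linarith, by linarith⟩, dwTheta,
                plateau_zero_left hN, mul_zero]
              rw [hsM, exStart] at tb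
              linarith
  obtain ⟨z, hz, hYs, hz0, hode⟩ := radial_exists hρ.contDiff hθs
    (fun s hs => ⟨hρ.rho_nonpos hs, theta_of_lt (hs.trans_lt (by
      have : (1 : ℝ) ≤ j₀ := by exact_mod_cast (show 1 ≤ j₀ by omega)
      positivity))⟩) hρ.rho_pos (segment M j₀) hsw l q R Ri hRR v
  set ρ := rho κ j₀ with hρdef
  set θ := theta M j₀ τ with hθdef
  set P := potMat ρ θ (segment M j₀) l q R Ri with hPdef
  have hPc : ∀ a b, Continuous fun t => P t a b := fun a b =>
    (contDiff_potMat hρ.contDiff hθs hρ.rho_pos _ hsw l q R Ri hRR a b).continuous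
  have hwc := roundW_continuous hC.round hf l
  -- before the first period
  have hpre : z ((j₀ : ℝ) ^ 8)
      = phaseOf ρ l ((j₀ : ℝ) ^ 8) (E j₀) (roundG ρ l 0 ((j₀ : ℝ) ^ 8) • v) := by
    set Z : ℝ → Phase d := fun t => (roundG ρ l 0 t • v, (roundW ρ l t * roundG ρ l 0 t) • v) with hZ
    have hG : ∀ t, HasDerivAt (roundG ρ l 0) (roundW ρ l t * roundG ρ l 0 t) t := fun t => by
      rw [mul_comm]
      exact (integral_hasDerivAt_right (hwc.intervalIntegrable _ _)
        hwc.aestronglyMeasurable.stronglyMeasurableAtFilter hwc.continuousAt).exp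
    have hZd : ∀ t, HasDerivAt Z ((roundW ρ l t * roundG ρ l 0 t) • v,
        ((lam l / ρ t ^ 2 - drift ρ t * roundW ρ l t) * roundG ρ l 0 t) • v) t := fun t =>
      ((hG t).smul_const v).prodMk ((((roundW_deriv hC.round hf l t).mul (hG t)).congr_deriv
        (by ring)).smul_const v)
    have h := sys_unique hPc hC.2.2.1
      (continuous_iff_continuousAt.2 fun t => (hz t).continuousAt).continuousOn
      (fun t _ => (hz t).hasDerivWithinAt) (g := Z) (c := 0) (e := (j₀ : ℝ) ^ 8)
      (fun t _ => (hZd t).continuousAt.continuousWithinAt)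
      (fun t ht => (hZd t).hasDerivWithinAt.congr_deriv (by
        simp only [sysField, Z, hPdef]
        rw [potMat_round _ l q R Ri hRR (theta_of_lt ht.2)]
        simp only [Matrix.smul_mulVec, Matrix.one_mulVec, smul_smul, ← sub_smul]
        congr 2
        ring))
      (by
        rw [hz0 0 le_rfl]
        simp [Z, roundG_self, show roundW ρ l 0 = (l : ℝ) from if_pos le_rfl])
      ⟨hj8, le_rfl⟩
    rw [h, hE0]
    simp [Z, phaseOf, Matrix.smul_mulVec, Matrix.mulVec_smul, smul_smul, mul_comm]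
  -- one period
  have hper : ∀ j, j₀ ≤ j → ∀ y, z ((j : ℝ) ^ 8) = phaseOf ρ l ((j : ℝ) ^ 8) (E j) y →
      z (((j : ℝ) + 1) ^ 8) = phaseOf ρ l (((j : ℝ) + 1) ^ 8) (E (j + 1))
        ((roundG ρ l ((j : ℝ) ^ 8) (exStart j M) •
          (Matrix.diagonal
              (fun a => gFun ρ (dwTheta M j) l (q a) (exStart j M) (((j : ℝ) + 1) ^ 8)) *
            periodX ρ j l q R Ri (τ j) (E j))) *ᵥ y) := by
    intro j hj y hy
    obtain ⟨hnext, -, hk1, hk2⟩ := hstep j hj
    have hN : 0 < unit' j := unit_pos (by omega)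
    set S := exState ρ j l q R Ri (τ j) (E j) with hS
    have hex : ∀ k, k ≤ M → z (exStart j k) = phaseOf ρ l (exStart j k) (S k).1
        ((roundG ρ l ((j : ℝ) ^ 8) (exStart j k) • (S k).2) *ᵥ y) := by
      intro k
      induction k with
      | zero =>
        intro _
        rw [exStart_zero, roundG_self, hy, hS]
        simp [exState]
      | succ k ih =>
        intro hk
        have hk' : k < M := hk
        have hb := block_step hPc hz (coefOK_exTheta hM hC hj ⟨k, hk'⟩) hf hq (hR ⟨k, hk'⟩).1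
          (hR ⟨k, hk'⟩).2 (E := (S k).1) (c := exStart j k) (e := exStart j (k + 1))
          (by rw [← exStart_succ]; linarith)
          (fun t ht => by
            have e := theta_on_excursion hM hj ⟨k, hk'⟩ (τ := τ) (t := t) (Ico_subset_Icc_self ht)
            have h1 := ht.1
            have h2 := ht.2
            simp only [exStart] at h1 h2
            push_cast at h2
            simp only [hPdef, potMat, segment_in_excursion hM hj ⟨k, hk'⟩ h1 h2]
            congr 2
            congr 1
            funext a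
            exact pot_congr ρ l (q a) e)
          (hk1 k hk') (ih hk'.le)
        rw [hb, blockT_eq (coefOK_exTheta hM hC hj ⟨k, hk'⟩) hf hq, Matrix.mulVec_mulVec,
          Matrix.smul_mul, Matrix.mul_smul, smul_smul]
        simp only [hS, exState, dif_pos hk', exStart_succ]
        rw [mul_comm (roundG ρ l (exStart j k) _),
          roundG_mul hC hf l ((j : ℝ) ^ 8) (exStart j k) (exStart j (k + 1))]
    have hD := coefOK_dwTheta hM hC hj
    have hle : exStart j M ≤ ((j : ℝ) + 1) ^ 8 := by
      have := (exStart_mem (M := M) (j := j) (by omega) (k := M) le_rfl).2; linarith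
    have hb := block_step hPc hz hD hf hq (one_mul (1 : Matrix (Fin d) (Fin d) ℝ)) (one_mul 1)
      (E := (S M).1) hle
      (fun t ht => by
        have e := theta_on_dwell hM hj (τ := τ) (t := t) (Ico_subset_Icc_self ht)
        simp only [hPdef, potMat, segment_in_dwell hM hj (show (j : ℝ) ^ 8 + 3 * (M : ℝ) * unit' j ≤ t
          from ht.1) ht.2, one_mul, mul_one]
        congr 1
        funext a
        exact pot_congr ρ l (q a) e)
      (fun a b => by simpa [hS, exEnd] using hk2 a b) (hex M le_rfl)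
    rw [hb, hnext, nextE, Matrix.mulVec_mulVec, Matrix.mul_smul]
    simp only [hS, exEnd, periodX, blockT, one_mul, mul_one, mul_assoc]
  have hall : ∀ j, j₀ ≤ j → ∃ y, z ((j : ℝ) ^ 8) = phaseOf ρ l ((j : ℝ) ^ 8) (E j) y := by
    intro j hj
    induction j, hj using Nat.le_induction with
    | base => exact ⟨_, hpre⟩
    | succ j hj ih =>
      obtain ⟨y, hy⟩ := ih
      push_cast
      exact ⟨_, hper j hj y hy⟩
  refine ⟨fun s => (z s).1, hYs, fun s hs => by simp only [hz0 s hs], hode,
    by simp only [hpre, phaseOf], fun j hj => ?_, ?_⟩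
  · obtain ⟨y, hy⟩ := hall j hj
    simp only [hper j hj y hy, phaseOf, hy]
  -- the bound inside the periods
  set Q := ∑ a : Fin d, ∑ b : Fin d, ((∑ k : Fin M, ∑ i, |R k a i| * |Ri k i b|) + 1)
  have hQ0 : 0 ≤ Q := by positivity
  set K : ℝ := 1 + 2 * (p₀ : ℝ) + Q * wMax l ^ 2
  have hK : ∀ t, sysBound P (drift ρ) t ≤ K := by
    intro t
    have hp : ∀ a, |pot ρ θ l (q a) t| ≤ wMax l ^ 2 := fun a => by
      rw [abs_of_nonneg ((hC.ricData (hq a)).K_nonneg t)]
      exact (hC.ricData (hq a)).K_le t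
    have hw0 : 0 ≤ wMax l ^ 2 := sq_nonneg _
    have hentry : ∀ a b, |P t a b| ≤
        ((∑ k : Fin M, ∑ i, |R k a i| * |Ri k i b|) + 1) * wMax l ^ 2 := by
      intro a b
      have h0 : 0 ≤ ∑ k : Fin M, ∑ i, |R k a i| * |Ri k i b| := by positivity
      simp only [hPdef, potMat]
      cases segment M j₀ t with
      | none =>
        by_cases hab : a = b
        · subst hab
          simp only [Matrix.diagonal_apply_eq]
          nlinarith [hp a]
        · simp only [Matrix.diagonal_apply_ne _ hab, abs_zero]; positivity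
      | some k =>
        simp only [Matrix.mul_apply (N := Ri k), Matrix.mul_diagonal]
        refine (Finset.abs_sum_le_sum_abs _ _).trans ?_
        calc ∑ i, |R k a i * pot ρ θ l (q i) t * Ri k i b|
            ≤ ∑ i, |R k a i| * |Ri k i b| * wMax l ^ 2 := Finset.sum_le_sum fun i _ => by
              rw [abs_mul, abs_mul, mul_right_comm]
              exact mul_le_mul_of_nonneg_left (hp i) (by positivity)
          _ ≤ _ := by
              rw [← Finset.sum_mul]
              refine mul_le_mul_of_nonneg_right (le_trans ?_ (le_add_of_nonneg_right zero_le_one)) hw0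
              exact Finset.single_le_sum (f := fun k : Fin M => ∑ i, |R k a i| * |Ri k i b|)
                (fun _ _ => by positivity) (Finset.mem_univ k)
    have hsum : ∑ a, ∑ b, |P t a b| ≤ Q * wMax l ^ 2 := by
      simp only [Q, Finset.sum_mul]
      exact Finset.sum_le_sum fun a _ => Finset.sum_le_sum fun b _ => hentry a b
    obtain ⟨h1, h2⟩ := (hC.2.2.2 t).2.2
    rw [sysBound, abs_of_nonneg (le_trans (Nat.cast_nonneg _) h1)]
    linarith
  have hK0 : 0 ≤ K := by
    have := sq_nonneg (wMax l); positivity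
  have hw : 0 ≤ wMax l := by rw [wMax]; positivity
  set A : ℝ := (d : ℝ) * (1 + wMax l + (d : ℝ) ^ 2)
  have hA : 0 ≤ A := by positivity
  refine ⟨256 * K + A, fun j hj s h1 h2 => ?_⟩
  obtain ⟨y, hy⟩ := hall j hj
  have hEb : ∀ a b, |E j a b| ≤ 1 := fun a b => by
    have := (hstep j hj).2.1 0 (Nat.zero_le M) a b
    simpa [exState] using this
  have hz1 : ‖z ((j : ℝ) ^ 8)‖ ≤ (1 + wMax l + (d : ℝ) ^ 2) * ‖y‖ := by
    rw [hy, phaseOf, Prod.norm_mk]
    refine max_le ?_ ?_
    · nlinarith [norm_nonneg y, sq_nonneg (d : ℝ)]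
    · rw [Matrix.add_mulVec, Matrix.smul_mulVec, Matrix.one_mulVec]
      refine (norm_add_le _ _).trans ?_
      rw [norm_smul, norm_eq_abs, abs_of_nonneg (roundW_mem hC.round l _).1]
      have hw1 := mul_le_mul_of_nonneg_right (roundW_mem hC.round l ((j : ℝ) ^ 8)).2 (norm_nonneg y)
      have hs : ∑ a, ∑ b, |E j a b| ≤ (d : ℝ) ^ 2 :=
        (Finset.sum_le_sum fun a _ => Finset.sum_le_sum fun b _ => hEb a b).trans_eq (by simp [sq])
      have h3 := (norm_mulVec_le (E j) y).trans (mul_le_mul_of_nonneg_right hs (norm_nonneg y))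
      nlinarith [norm_nonneg y]
  have hg := phase_growth hz hK h1 (c := (j : ℝ) ^ 8) (e := s)
  have hlen : s - (j : ℝ) ^ 8 ≤ 256 * ((j : ℝ) + 1) ^ 7 := by
    have h := plen_le (j := j) (by omega)
    rw [plen] at h
    have : (j : ℝ) ^ 7 ≤ ((j : ℝ) + 1) ^ 7 := pow_le_pow_left₀ (by positivity) (by linarith) 7
    linarith
  have hpow : (1 : ℝ) ≤ ((j : ℝ) + 1) ^ 7 := one_le_pow₀ (by linarith [Nat.cast_nonneg (α := ℝ) j])
  have hy1 : y = (z ((j : ℝ) ^ 8)).1 := by rw [hy]; rfl
  calc ∑ a, |(z s).1 a| ≤ ∑ _a : Fin d, ‖z s‖ := Finset.sum_le_sum fun a _ =>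
        (norm_le_pi_norm (z s).1 a).trans (norm_fst_le _)
    _ = (d : ℝ) * ‖z s‖ := by simp
    _ ≤ (d : ℝ) * ((1 + wMax l + (d : ℝ) ^ 2) * ‖y‖ * exp (K * (256 * ((j : ℝ) + 1) ^ 7))) := by
        refine mul_le_mul_of_nonneg_left (hg.trans (mul_le_mul hz1 (exp_le_exp.2
          (mul_le_mul_of_nonneg_left hlen hK0)) (exp_pos _).le (by positivity))) (by positivity)
    _ ≤ exp (A * ((j : ℝ) + 1) ^ 7) * exp (K * (256 * ((j : ℝ) + 1) ^ 7)) * ‖y‖ := by
        have : A ≤ exp (A * ((j : ℝ) + 1) ^ 7) := by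
          nlinarith [add_one_le_exp (A * ((j : ℝ) + 1) ^ 7), mul_le_mul_of_nonneg_left hpow hA]
        calc (d : ℝ) * ((1 + wMax l + (d : ℝ) ^ 2) * ‖y‖ * exp (K * (256 * ((j : ℝ) + 1) ^ 7)))
            = A * exp (K * (256 * ((j : ℝ) + 1) ^ 7)) * ‖y‖ := by ring
          _ ≤ _ := by gcongr
    _ ≤ exp ((256 * K + A) * ((j : ℝ) + 1) ^ 7) * ∑ a, |(z ((j : ℝ) ^ 8)).1 a| := by
        rw [← exp_add, ← hy1]
        refine mul_le_mul (le_of_eq (by ring_nf)) (abs_sum_vec y) (norm_nonneg _) (exp_pos _).le

end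

end Vale.Agent.P225
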