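import Vale.Agent.P225.Interfaces
import Vale.Agent.P225.Analysis.Flow

/-!
# P225: the radial linear system: existence, uniqueness, smoothness
-/

namespace Vale.Agent.P225

open Set Filter Topology Real Matrix
open scoped ContDiff

noncomputable section

variable {d : ℕ}

/-- Phase space of a second-order system. -/
abbrev Phase (d : ℕ) := (Fin d → ℝ) × (Fin d → ℝ)

/-- The field of `Y'' + μ Y' = P Y`. -/
def sysField (P : ℝ → Matrix (Fin d) (Fin d) ℝ) (μ : ℝ → ℝ) (t : ℝ) (z : Phase d) : Phase d :=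
  (z.2, P t *ᵥ z.1 - μ t • z.2)

/-- A Lipschitz constant of the field at one time. -/
def sysBound (P : ℝ → Matrix (Fin d) (Fin d) ℝ) (μ : ℝ → ℝ) (t : ℝ) : ℝ :=
  1 + |μ t| + ∑ a, ∑ b, |P t a b|

variable {P : ℝ → Matrix (Fin d) (Fin d) ℝ} {μ : ℝ → ℝ}

lemma sysBound_nonneg (t : ℝ) : 0 ≤ sysBound P μ t := by unfold sysBound; positivity

lemma continuous_sysBound (hP : ∀ a b, Continuous fun t => P t a b) (hμ : Continuous μ) :
    Continuous (sysBound P μ) :=
  (continuous_const.add hμ.abs).add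
    (continuous_finsetSum _ fun a _ => continuous_finsetSum _ fun b _ => (hP a b).abs)

lemma norm_mulVec_le (A : Matrix (Fin d) (Fin d) ℝ) (v : Fin d → ℝ) :
    ‖A *ᵥ v‖ ≤ (∑ a, ∑ b, |A a b|) * ‖v‖ := by
  refine (pi_norm_le_iff_of_nonneg (by positivity)).2 fun a => ?_
  have h : |∑ b, A a b * v b| ≤ (∑ b, |A a b|) * ‖v‖ := by
    refine (Finset.abs_sum_le_sum_abs _ _).trans ?_
    rw [Finset.sum_mul]
    refine Finset.sum_le_sum fun b _ => ?_
    rw [abs_mul]
    exact mul_le_mul_of_nonneg_left (norm_le_pi_norm v b) (abs_nonneg _)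
  refine le_trans h (mul_le_mul_of_nonneg_right ?_ (norm_nonneg _))
  exact Finset.single_le_sum (f := fun a => ∑ b, |A a b|)
    (fun a _ => Finset.sum_nonneg fun b _ => abs_nonneg _) (Finset.mem_univ a)

lemma norm_sysField_le (t : ℝ) (z : Phase d) : ‖sysField P μ t z‖ ≤ sysBound P μ t * ‖z‖ := by
  have h1 : ‖z.1‖ ≤ ‖z‖ := norm_fst_le z
  have h2 : ‖z.2‖ ≤ ‖z‖ := norm_snd_le z
  have hs : (0 : ℝ) ≤ ∑ a, ∑ b, |P t a b| := by positivity
  have hm := abs_nonneg (μ t)
  rw [sysField, Prod.norm_mk, sysBound]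
  refine max_le ?_ ?_
  · nlinarith [norm_nonneg z, h2, mul_nonneg (add_nonneg hm hs) (norm_nonneg z)]
  · refine (norm_sub_le _ _).trans ?_
    rw [norm_smul, norm_eq_abs]
    have h3 := (norm_mulVec_le (P t) z.1).trans (mul_le_mul_of_nonneg_left h1 hs)
    have h4 := mul_le_mul_of_nonneg_left h2 hm
    nlinarith [norm_nonneg z]

lemma sysField_sub (t : ℝ) (a b : Phase d) :
    sysField P μ t a - sysField P μ t b = sysField P μ t (a - b) := by
  simp only [sysField, Prod.mk_sub_mk, Prod.fst_sub, Prod.snd_sub, Matrix.mulVec_sub, smul_sub]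
  congr 1
  abel

lemma lipschitz_sysField (t : ℝ) :
    LipschitzWith (sysBound P μ t).toNNReal (sysField P μ t) := by
  refine LipschitzWith.of_dist_le' fun a b => ?_
  rw [dist_eq_norm, dist_eq_norm, sysField_sub]
  exact norm_sysField_le t _

lemma bound_on (hP : ∀ a b, Continuous fun t => P t a b) (hμ : Continuous μ) (c e : ℝ) :
    ∃ K, 0 ≤ K ∧ ∀ t ∈ Icc c e, sysBound P μ t ≤ K := by
  obtain ⟨K, hK⟩ := (isCompact_Icc (a := c) (b := e)).exists_bound_of_continuousOn
    (continuous_sysBound hP hμ).continuousOn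
  exact ⟨max K 0, le_max_right _ _, fun t ht =>
    ((le_abs_self _).trans (hK t ht)).trans (le_max_left _ _)⟩

/-- Solutions are determined by their data at the left end. -/
lemma sys_unique (hP : ∀ a b, Continuous fun t => P t a b) (hμ : Continuous μ) {c e : ℝ}
    {f g : ℝ → Phase d} (hf : ContinuousOn f (Icc c e))
    (hf' : ∀ t ∈ Ico c e, HasDerivWithinAt f (sysField P μ t (f t)) (Ici t) t)
    (hg : ContinuousOn g (Icc c e))
    (hg' : ∀ t ∈ Ico c e, HasDerivWithinAt g (sysField P μ t (g t)) (Ici t) t)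
    (h0 : f c = g c) : EqOn f g (Icc c e) := by
  obtain ⟨K, -, hK⟩ := bound_on hP hμ c e
  exact ODE_solution_unique_of_mem_Icc_right (v := sysField P μ) (s := fun _ => univ)
    (K := K.toNNReal)
    (fun t ht => ((lipschitz_sysField t).weaken
      (Real.toNNReal_le_toNNReal (hK t (Ico_subset_Icc_self ht)))).lipschitzOnWith)
    hf hf' (fun _ _ => trivial) hg hg' (fun _ _ => trivial) h0

/-- Cut-off in the supremum norm. -/
def cutR (R : ℝ) (z : Phase d) : Phase d :=
  (fun a => max (-R) (min R (z.1 a)), fun a => max (-R) (min R (z.2 a)))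

lemma clip_lip (R x y : ℝ) : |max (-R) (min R x) - max (-R) (min R y)| ≤ |x - y| :=
  (abs_max_sub_max_le_max _ _ _ _).trans (max_le (by simp)
    ((abs_min_sub_min_le_max _ _ _ _).trans (max_le (by simp) le_rfl)))

lemma clip_abs {R : ℝ} (hR : 0 ≤ R) (x : ℝ) : |max (-R) (min R x)| ≤ min R |x| := by
  refine le_min (abs_le.2 ⟨le_max_left _ _, max_le (by linarith) (min_le_left _ _)⟩) ?_
  have := clip_lip R x 0
  simpa [min_eq_right hR, max_eq_right (show -R ≤ 0 by linarith)] using this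

lemma lipschitz_cutR (R : ℝ) : LipschitzWith 1 (cutR (d := d) R) := by
  refine LipschitzWith.of_dist_le_mul fun a b => ?_
  simp only [NNReal.coe_one, one_mul, dist_eq_norm, cutR, Prod.mk_sub_mk, Prod.norm_def,
    Prod.fst_sub, Prod.snd_sub]
  refine max_le_max ?_ ?_ <;>
    exact (pi_norm_le_iff_of_nonneg (norm_nonneg _)).2 fun i =>
      (clip_lip R _ _).trans (norm_le_pi_norm (_ - _ : Fin d → ℝ) i)

lemma norm_cutR {R : ℝ} (hR : 0 ≤ R) (z : Phase d) :
    ‖cutR R z‖ ≤ R ∧ ‖cutR R z‖ ≤ ‖z‖ := by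
  simp only [cutR, Prod.norm_def]
  refine ⟨max_le ?_ ?_, max_le_max ?_ ?_⟩
  · exact (pi_norm_le_iff_of_nonneg hR).2 fun i => (clip_abs hR _).trans (min_le_left _ _)
  · exact (pi_norm_le_iff_of_nonneg hR).2 fun i => (clip_abs hR _).trans (min_le_left _ _)
  · exact (pi_norm_le_iff_of_nonneg (norm_nonneg _)).2 fun i =>
      (clip_abs hR _).trans ((min_le_right _ _).trans (norm_le_pi_norm z.1 i))
  · exact (pi_norm_le_iff_of_nonneg (norm_nonneg _)).2 fun i =>
      (clip_abs hR _).trans ((min_le_right _ _).trans (norm_le_pi_norm z.2 i))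

lemma cutR_eq {R : ℝ} {z : Phase d} (h : ‖z‖ ≤ R) : cutR R z = z := by
  have hh : ∀ x : ℝ, |x| ≤ R → max (-R) (min R x) = x := fun x hx => by
    rw [min_eq_right (abs_le.1 hx).2, max_eq_right (abs_le.1 hx).1]
  refine Prod.ext (funext fun a => hh _ ?_) (funext fun a => hh _ ?_)
  · exact ((norm_le_pi_norm z.1 a).trans (norm_fst_le z)).trans h
  · exact ((norm_le_pi_norm z.2 a).trans (norm_snd_le z)).trans h

/-- Existence on a compact forward interval. -/
lemma sys_exists_Icc (hP : ∀ a b, Continuous fun t => P t a b) (hμ : Continuous μ) (c e : ℝ)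
    (hce : c ≤ e) (z0 : Phase d) :
    ∃ y : ℝ → Phase d, y c = z0 ∧ Continuous y ∧
      ∀ t ∈ Ioo c e, HasDerivAt y (sysField P μ t (y t)) t ∧
        HasDerivWithinAt y (sysField P μ c (y c)) (Ici c) c := by
  obtain ⟨K, hK0, hK⟩ := bound_on hP hμ c e
  set R := ‖z0‖ * exp (K * (e - c)) with hR
  have hR0 : 0 ≤ R := by positivity
  set τ : ℝ → ℝ := fun t => max c (min e t) with hτ
  have hτm : ∀ t, τ t ∈ Icc c e := fun t =>
    ⟨le_max_left _ _, max_le hce (min_le_left _ _)⟩
  have hτe : ∀ t ∈ Icc c e, τ t = t := fun t ht => by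
    simp only [τ, min_eq_right ht.2, max_eq_right ht.1]
  obtain ⟨y, hy0, hy⟩ := exists_flow (V := fun t z => sysField P μ (τ t) (cutR R z))
    (K := K.toNNReal) (L := (K * R).toNNReal)
    (fun t => by
      have h := ((lipschitz_sysField (P := P) (μ := μ) (τ t)).weaken
        (Real.toNNReal_le_toNNReal (hK _ (hτm t)))).comp (lipschitz_cutR (d := d) R)
      rw [mul_one] at h
      exact h)
    (fun z => by
      have h1 : ∀ a b, Continuous fun t => P (τ t) a b := fun a b =>
        (hP a b).comp (by fun_prop)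
      have h2 : Continuous fun t => μ (τ t) := hμ.comp (by fun_prop)
      refine Continuous.prodMk continuous_const (continuous_pi fun a => ?_)
      simp only [Pi.sub_apply, Pi.smul_apply, Matrix.mulVec, dotProduct, smul_eq_mul]
      fun_prop)
    (fun t z => by
      rw [Real.coe_toNNReal _ (mul_nonneg hK0 hR0)]
      exact (norm_sysField_le _ _).trans
        (mul_le_mul (hK _ (hτm t)) (norm_cutR hR0 z).1 (norm_nonneg _) hK0))
    c z0
  have hcont : Continuous y := continuous_iff_continuousAt.2 fun t => (hy t).continuousAt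
  have hg := norm_le_gronwallBound_of_norm_deriv_right_le (f := y) (δ := ‖z0‖) (K := K) (ε := 0)
    (a := c) (b := e) hcont.continuousOn (fun t _ => (hy t).hasDerivWithinAt)
    (by rw [hy0]) fun t _ => by
      rw [add_zero]
      exact (norm_sysField_le _ _).trans
        (mul_le_mul (hK _ (hτm t)) (norm_cutR hR0 _).2 (norm_nonneg _) hK0)
  have hin : ∀ t ∈ Icc c e, sysField P μ (τ t) (cutR R (y t)) = sysField P μ t (y t) := by
    intro t ht
    have h := hg t ht
    rw [gronwallBound_ε0] at h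
    rw [hτe t ht, cutR_eq (h.trans (mul_le_mul_of_nonneg_left (exp_le_exp.2
      (mul_le_mul_of_nonneg_left (by linarith [ht.2]) hK0)) (norm_nonneg _)))]
  exact ⟨y, hy0, hcont, fun t ht => ⟨hin t (Ioo_subset_Icc_self ht) ▸ hy t,
    hin c ⟨le_rfl, hce⟩ ▸ (hy c).hasDerivWithinAt⟩⟩

/-- The global solution which is `exp (l s) v` for `s ≤ 0`. -/
theorem sys_exists (hP : ∀ a b, Continuous fun t => P t a b) (hμ : Continuous μ) (l : ℝ)
    (v : Fin d → ℝ) (hflat : ∀ s ≤ 0, P s *ᵥ v = (l ^ 2 + μ s * l) • v) :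
    ∃ z : ℝ → Phase d, (∀ s, HasDerivAt z (sysField P μ s (z s)) s) ∧
      ∀ s ≤ 0, z s = (exp (l * s) • v, (l * exp (l * s)) • v) := by
  have ex : ∀ n : ℕ, ∃ y : ℝ → Phase d, y 0 = (v, l • v) ∧ Continuous y ∧
      ∀ t ∈ Ioo (0 : ℝ) (n + 1), HasDerivAt y (sysField P μ t (y t)) t ∧
        HasDerivWithinAt y (sysField P μ 0 (y 0)) (Ici 0) 0 := fun n =>
    sys_exists_Icc hP hμ 0 (n + 1) (by positivity) _
  choose y hy0 hyc hy using ex
  have hr : ∀ n : ℕ, ∀ t ∈ Ico (0 : ℝ) (n + 1),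
      HasDerivWithinAt (y n) (sysField P μ t (y n t)) (Ici t) t := fun n t ht => by
    rcases ht.1.lt_or_eq with h | h
    · exact (hy n t ⟨h, ht.2⟩).1.hasDerivWithinAt
    · subst h
      exact (hy n (1 / 2) ⟨by norm_num, by
        have : (0 : ℝ) ≤ n := n.cast_nonneg
        linarith⟩).2
  have agree : ∀ (n m : ℕ), n ≤ m → ∀ t ∈ Icc (0 : ℝ) (n + 1), y n t = y m t := fun n m hnm =>
    sys_unique hP hμ (hyc n).continuousOn (hr n) (hyc m).continuousOn
      (fun t ht => hr m t ⟨ht.1, ht.2.trans_le (by gcongr)⟩) ((hy0 n).trans (hy0 m).symm)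
  set ex : ℝ → Phase d := fun s => (exp (l * s) • v, (l * exp (l * s)) • v) with hex
  set z : ℝ → Phase d := fun s => if s ≤ 0 then ex s else y ⌈s⌉₊ s with hz
  have eloc : ∀ (n : ℕ) (s : ℝ), 0 ≤ s → s ≤ n → z s = y n s := fun n s h0 h1 => by
    rcases h0.lt_or_eq with h | h
    · simp only [z, not_le.2 h, if_false]
      exact agree _ _ (Nat.ceil_le.2 h1) s ⟨h0, (Nat.le_ceil s).trans (by linarith)⟩
    · subst h
      simp [z, ex, hy0]
  have hexd : ∀ s ≤ 0, HasDerivAt ex (sysField P μ s (ex s)) s := fun s hs => by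
    have h1 : HasDerivAt (fun t => exp (l * t)) (l * exp (l * s)) s := by
      simpa [mul_comm] using ((hasDerivAt_id s).const_mul l).exp
    refine ((h1.smul_const v).prodMk ((h1.const_mul l).smul_const v)).congr_deriv ?_
    simp only [sysField, ex, Matrix.mulVec_smul, hflat s hs, smul_smul, ← sub_smul]
    congr 2
    ring
  refine ⟨z, fun s => ?_, fun s hs => by simp [z, ex, hs]⟩
  rcases lt_trichotomy s 0 with hs | rfl | hs
  · have e : z =ᶠ[𝓝 s] ex := by
      filter_upwards [eventually_lt_nhds hs] with t ht using if_pos ht.le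
    rw [e.eq_of_nhds]
    exact (hexd s hs.le).congr_of_eventuallyEq e
  · have e0 : z 0 = ex 0 := if_pos le_rfl
    rw [← hasDerivWithinAt_univ, ← Iic_union_Ici (a := (0 : ℝ))]
    refine HasDerivWithinAt.union ?_ ?_
    · rw [e0]
      exact (hexd 0 le_rfl).hasDerivWithinAt.congr (fun t ht => if_pos ht) e0
    · have e1 : z 0 = y 1 0 := eloc 1 0 le_rfl (by norm_num)
      rw [e1]
      refine (hy 1 (1 / 2) (by norm_num)).2.congr_of_eventuallyEq ?_ e1
      filter_upwards [Icc_mem_nhdsGE (zero_lt_one' ℝ)] with t ht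
      exact eloc 1 t ht.1 (by simpa using ht.2)
  · set n : ℕ := ⌈s⌉₊ + 1 with hn
    have hsn : s < n := by
      have := Nat.le_ceil s
      push_cast [hn]; linarith
    have e : z =ᶠ[𝓝 s] y n := by
      filter_upwards [Ioo_mem_nhds hs hsn] with t ht using eloc n t ht.1.le ht.2.le
    rw [e.eq_of_nhds]
    exact ((hy n s ⟨hs, by linarith⟩).1).congr_of_eventuallyEq e

/-- A solution of a smooth system is smooth and solves the second-order equation. -/
theorem sys_smooth (hP : ∀ a b, ContDiff ℝ ∞ fun t => P t a b) (hμ : ContDiff ℝ ∞ μ)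
    {z : ℝ → Phase d} (hz : ∀ s, HasDerivAt z (sysField P μ s (z s)) s) :
    ContDiff ℝ ∞ (fun s => (z s).1) ∧ ∀ s,
      deriv (deriv fun s => (z s).1) s + μ s • deriv (fun s => (z s).1) s = P s *ᵥ (z s).1 := by
  have h1 : ∀ s, HasDerivAt (fun s => (z s).1) (z s).2 s := fun s => (hz s).fst
  have h2 : ∀ s, HasDerivAt (fun s => (z s).2) (P s *ᵥ (z s).1 - μ s • (z s).2) s := fun s =>
    (hz s).snd
  have e1 : deriv (fun s => (z s).1) = fun s => (z s).2 := funext fun s => (h1 s).deriv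
  refine ⟨?_, fun s => by rw [e1, (h2 s).deriv, sub_add_cancel]⟩
  have key : ∀ n : ℕ, ContDiff ℝ n z := by
    intro n
    induction n with
    | zero =>
      exact contDiff_zero.2 (continuous_iff_continuousAt.2 fun t => (hz t).continuousAt)
    | succ n ih =>
      push_cast
      refine contDiff_succ_iff_deriv.2 ⟨fun t => (hz t).differentiableAt, by simp, ?_⟩
      rw [show deriv z = fun s => sysField P μ s (z s) from funext fun s => (hz s).deriv]
      refine ContDiff.prodMk (contDiff_snd.comp ih) (contDiff_pi.2 fun a => ?_)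
      simp only [Pi.sub_apply, Pi.smul_apply, Matrix.mulVec, dotProduct, smul_eq_mul]
      have hn : ((n : ℕ∞) : WithTop ℕ∞) ≤ ∞ := WithTop.coe_le_coe.2 le_top
      exact (ContDiff.sum fun b _ => ((hP a b).of_le hn).mul
        (contDiff_pi.1 (contDiff_fst.comp ih) b)).sub
        ((hμ.of_le hn).mul (contDiff_pi.1 (contDiff_snd.comp ih) a))
  exact contDiff_fst.comp (contDiff_infty.2 key)

/-! ### the system of the construction -/

variable {M : ℕ} {ρ θ : ℝ → ℝ}

lemma contDiff_pot (hρ : ContDiff ℝ ∞ ρ) (hθ : ContDiff ℝ ∞ θ) (hpos : ∀ s, 0 < ρ s) (l q : ℕ) :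
    ContDiff ℝ ∞ (pot ρ θ l q) := by
  unfold pot
  exact (((contDiff_const.mul hθ).exp).mul (contDiff_const.add
    ((((contDiff_const.mul hθ).exp).sub contDiff_const).mul contDiff_const))).div
    (hρ.pow 2) fun s => pow_ne_zero 2 (hpos s).ne'

lemma contDiff_drift (hρ : ContDiff ℝ ∞ ρ) (hpos : ∀ s, 0 < ρ s) : ContDiff ℝ ∞ (drift ρ) := by
  unfold drift
  exact contDiff_const.add ((contDiff_const.mul (contDiff_infty_iff_deriv.1 hρ).2).div hρ
    fun s => (hpos s).ne')

/-- At the round point the potential matrix is scalar. -/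
lemma potMat_round (sg : ℝ → Option (Fin M)) (l : ℕ) (q : Fin d → ℕ)
    (R Ri : Fin M → Matrix (Fin d) (Fin d) ℝ) (hR : ∀ k, R k * Ri k = 1) {s : ℝ} (h : θ s = 0) :
    potMat ρ θ sg l q R Ri s = (lam l / ρ s ^ 2) • (1 : Matrix (Fin d) (Fin d) ℝ) := by
  have e : (fun a => pot ρ θ l (q a) s) = fun _ => lam l / ρ s ^ 2 := by
    funext a; simp [pot, h]
  have hd : Matrix.diagonal (fun a => pot ρ θ l (q a) s)
      = (lam l / ρ s ^ 2) • (1 : Matrix (Fin d) (Fin d) ℝ) := by
    rw [e, Matrix.smul_one_eq_diagonal]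
  unfold potMat
  cases sg s with
  | none => exact hd
  | some k => simp only [hd, Matrix.mul_smul, mul_one, Matrix.smul_mul, hR]

lemma contDiff_potMat (hρ : ContDiff ℝ ∞ ρ) (hθ : ContDiff ℝ ∞ θ) (hpos : ∀ s, 0 < ρ s)
    (sg : ℝ → Option (Fin M))
    (hsw : ∀ s, (∀ᶠ t in 𝓝 s, sg t = sg s) ∨ (∀ᶠ t in 𝓝 s, θ t = 0))
    (l : ℕ) (q : Fin d → ℕ) (R Ri : Fin M → Matrix (Fin d) (Fin d) ℝ)
    (hR : ∀ k, R k * Ri k = 1) (a b : Fin d) :
    ContDiff ℝ ∞ fun s => potMat ρ θ sg l q R Ri s a b := by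
  refine contDiff_iff_contDiffAt.2 fun s => ?_
  have hdiag : ∀ a b : Fin d, ContDiff ℝ ∞ fun t =>
      Matrix.diagonal (fun c => pot ρ θ l (q c) t) a b := fun a b => by
    by_cases h : a = b
    · subst h
      simpa only [Matrix.diagonal_apply_eq] using contDiff_pot hρ hθ hpos l (q a)
    · simpa only [Matrix.diagonal_apply_ne _ h] using contDiff_const
  rcases hsw s with h | h
  · cases hk : sg s with
    | none =>
      refine (hdiag a b).contDiffAt.congr_of_eventuallyEq ?_
      filter_upwards [h] with t ht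
      simp [potMat, ht, hk]
    | some k =>
      have hc : ContDiff ℝ ∞ fun t =>
          (R k * Matrix.diagonal (fun c => pot ρ θ l (q c) t) * Ri k) a b := by
        simp only [Matrix.mul_apply]
        exact ContDiff.sum fun i _ =>
          (ContDiff.sum fun j _ => contDiff_const.mul (hdiag j i)).mul contDiff_const
      refine hc.contDiffAt.congr_of_eventuallyEq ?_
      filter_upwards [h] with t ht
      simp [potMat, ht, hk]
  · have hc : ContDiff ℝ ∞ fun t => ((lam l / ρ t ^ 2) • (1 : Matrix (Fin d) (Fin d) ℝ)) a b := by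
      simp only [Matrix.smul_apply, smul_eq_mul]
      exact (contDiff_const.div (hρ.pow 2) fun t => pow_ne_zero 2 (hpos t).ne').mul contDiff_const
    refine hc.contDiffAt.congr_of_eventuallyEq ?_
    filter_upwards [h] with t ht
    rw [potMat_round sg l q R Ri hR ht]

/-- The smooth solution with the initial vector `v`, together with its phase. -/
theorem radial_exists (hρ : ContDiff ℝ ∞ ρ) (hθ : ContDiff ℝ ∞ θ)
    (h0 : ∀ s ≤ 0, ρ s = 1 ∧ θ s = 0) (hpos : ∀ s, 0 < ρ s) (sg : ℝ → Option (Fin M))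
    (hsw : ∀ s, (∀ᶠ t in 𝓝 s, sg t = sg s) ∨ (∀ᶠ t in 𝓝 s, θ t = 0))
    (l : ℕ) (q : Fin d → ℕ) (R Ri : Fin M → Matrix (Fin d) (Fin d) ℝ)
    (hR : ∀ k, R k * Ri k = 1) (v : Fin d → ℝ) :
    ∃ z : ℝ → Phase d,
      (∀ s, HasDerivAt z (sysField (potMat ρ θ sg l q R Ri) (drift ρ) s (z s)) s) ∧
      ContDiff ℝ ∞ (fun s => (z s).1) ∧
      (∀ s ≤ 0, z s = (exp (l * s) • v, ((l : ℝ) * exp (l * s)) • v)) ∧
      ∀ s, deriv (deriv fun s => (z s).1) s + drift ρ s • deriv (fun s => (z s).1) s =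
        (potMat ρ θ sg l q R Ri s).mulVec (z s).1 := by
  have hP := contDiff_potMat hρ hθ hpos sg hsw l q R Ri hR
  have hμ := contDiff_drift hρ hpos
  have hd0 : ∀ s ≤ 0, deriv ρ s = 0 := fun s hs => by
    have hd := ((hρ.differentiable (by simp)) s).hasDerivAt
    have h1 : HasDerivWithinAt ρ 0 (Set.Iic s) s :=
      (hasDerivWithinAt_const s (Set.Iic s) (1 : ℝ)).congr
        (fun t ht => (h0 t (le_trans ht hs)).1) (h0 s hs).1
    exact (uniqueDiffWithinAt_Iic s).eq_deriv _ hd.hasDerivWithinAt h1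
  obtain ⟨z, hz, hz0⟩ := sys_exists (fun a b => (hP a b).continuous) hμ.continuous (l : ℝ) v
    fun s hs => by
      rw [potMat_round sg l q R Ri hR (h0 s hs).2, (h0 s hs).1, Matrix.smul_mulVec,
        Matrix.one_mulVec, drift, hd0 s hs, lam]
      congr 1
      ring
  obtain ⟨hs, he⟩ := sys_smooth hP hμ hz
  exact ⟨z, hz, hs, hz0, he⟩

end

end Vale.Agent.P225
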