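import Vale.Agent.P225.Analysis.Period
import Vale.Agent.P225.Analysis.BlockAlg
import Vale.Agent.P225.Analysis.Smooth

/-!
# P225: a solution across one block
-/

namespace Vale.Agent.P225

open Set Filter Topology Real Matrix intervalIntegral MeasureTheory

noncomputable section

variable {d : ℕ}

/-- Phase of a value with state `E` at `t`. -/
def phaseOf (ρ : ℝ → ℝ) (l : ℕ) (t : ℝ) (E : Matrix (Fin d) (Fin d) ℝ) (y : Fin d → ℝ) : Phase d :=
  (y, (roundW ρ l t • (1 : Matrix (Fin d) (Fin d) ℝ) + E) *ᵥ y)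

variable {ρ θ : ℝ → ℝ} {l : ℕ} {q : Fin d → ℕ}

lemma gFun_eq (h : CoefOK ρ θ) (hf : StartsFlat ρ) {q : ℕ} (hq : q ≤ l) (c t : ℝ) :
    gFun ρ θ l q c t = roundG ρ l c t * exp (vInt ρ θ l q c t) := by
  rw [gFun, roundG, vInt, ← exp_add, ← intervalIntegral.integral_add
    ((roundW_continuous h.round hf l).intervalIntegrable _ _)
    ((vRel_continuous h hf hq c).intervalIntegrable _ _)]
  simp [vRel]

lemma roundG_self (ρ : ℝ → ℝ) (l : ℕ) (c : ℝ) : roundG ρ l c c = 1 := by simp [roundG]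

lemma roundG_mul (h : CoefOK ρ θ) (hf : StartsFlat ρ) (l : ℕ) (a b c : ℝ) :
    roundG ρ l a b * roundG ρ l b c = roundG ρ l a c := by
  have hw := roundW_continuous h.round hf l
  rw [roundG, roundG, roundG, ← exp_add,
    intervalIntegral.integral_add_adjacent_intervals (hw.intervalIntegrable _ _)
      (hw.intervalIntegrable _ _)]

/-- `blockT` is `blockX` times the round solution. -/
lemma blockT_eq (h : CoefOK ρ θ) (hf : StartsFlat ρ) (hq : ∀ a, q a ≤ l)
    (R Ri E : Matrix (Fin d) (Fin d) ℝ) (c t : ℝ) :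
    blockT ρ θ l q R Ri E c t = roundG ρ l c t • blockX ρ θ l q R Ri E c t := by
  have e : Matrix.diagonal (fun a => gFun ρ θ l (q a) c t)
      = roundG ρ l c t • Matrix.diagonal (fun a => exp (vInt ρ θ l (q a) c t)) := by
    rw [← Matrix.diagonal_smul]
    congr 1
    funext a
    rw [gFun_eq h hf (hq a)]
    rfl
  rw [blockT, blockX, e, Matrix.smul_mul, Matrix.mul_smul, Matrix.smul_mul]

lemma hasDerivAt_sandwich {A A' : ℝ → Matrix (Fin d) (Fin d) ℝ} {t : ℝ}
    (h : ∀ a b, HasDerivAt (fun s => A s a b) (A' t a b) t) (R Ri : Matrix (Fin d) (Fin d) ℝ)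
    (y : Fin d → ℝ) :
    HasDerivAt (fun s => (R * A s * Ri) *ᵥ y) ((R * A' t * Ri) *ᵥ y) t := by
  refine hasDerivAt_pi.2 fun a => ?_
  simp only [Matrix.mulVec, dotProduct, Matrix.mul_apply]
  exact HasDerivAt.fun_sum fun b _ => (HasDerivAt.fun_sum fun i _ =>
    (HasDerivAt.fun_sum fun k _ => (h k i).const_mul (R a k)).mul_const (Ri i b)).mul_const (y b)

/-- Small perturbations of the identity are invertible. -/
lemma isUnit_one_add {X : Matrix (Fin d) (Fin d) ℝ} (h : ∀ a, ∑ b, |X a b| ≤ 1 / 2) :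
    IsUnit (1 + X) := by
  refine Matrix.mulVec_injective_iff_isUnit.1 ?_
  intro u v huv
  have h0 : (1 + X) *ᵥ (u - v) = 0 := by rw [Matrix.mulVec_sub, huv, sub_self]
  set w := u - v with hw
  have hb : ‖w‖ ≤ ‖w‖ / 2 := by
    refine (pi_norm_le_iff_of_nonneg (by positivity)).2 fun a => ?_
    have h1 := congrFun h0 a
    rw [Matrix.add_mulVec, Matrix.one_mulVec, Pi.add_apply, Pi.zero_apply] at h1
    rw [norm_eq_abs, eq_neg_of_add_eq_zero_left h1, abs_neg]
    show |∑ b, X a b * w b| ≤ ‖w‖ / 2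
    refine (Finset.abs_sum_le_sum_abs (fun b => X a b * w b) Finset.univ).trans ?_
    calc ∑ b, |X a b * w b| ≤ ∑ b, |X a b| * ‖w‖ := Finset.sum_le_sum fun b _ => by
          rw [abs_mul]; exact mul_le_mul_of_nonneg_left (norm_le_pi_norm w b) (abs_nonneg _)
      _ = (∑ b, |X a b|) * ‖w‖ := by rw [Finset.sum_mul]
      _ ≤ ‖w‖ / 2 := by nlinarith [h a, norm_nonneg w]
  have : ‖w‖ = 0 := by linarith [norm_nonneg w]
  exact sub_eq_zero.1 (norm_eq_zero.1 this)

/-- The solution across a block with constant structure matrices. -/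
theorem block_step {P : ℝ → Matrix (Fin d) (Fin d) ℝ}
    (hP : ∀ a b, Continuous fun t => P t a b) {z : ℝ → Phase d}
    (hz : ∀ s, HasDerivAt z (sysField P (drift ρ) s (z s)) s)
    (h : CoefOK ρ θ) (hf : StartsFlat ρ) (hq : ∀ a, q a ≤ l)
    {R Ri E : Matrix (Fin d) (Fin d) ℝ} (hR : R * Ri = 1) (hR' : Ri * R = 1) {c e : ℝ}
    (hce : c ≤ e)
    (hpot : ∀ t ∈ Ico c e, P t = R * Matrix.diagonal (fun a => pot ρ θ l (q a) t) * Ri)
    (hE : ∀ a b, (d : ℝ) * |(Ri * E * R) a b| < 1) {y : Fin d → ℝ}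
    (hc : z c = phaseOf ρ l c E y) :
    z e = phaseOf ρ l e (blockE ρ θ l q R Ri E c e) (blockT ρ θ l q R Ri E c e *ᵥ y) := by
  set μ := drift ρ with hμ
  set W : Fin d → ℝ → ℝ := fun a => wSol ρ θ l (q a) c with hW
  set F := Ri * E * R with hF
  have hWc : ∀ a, Continuous (W a) := fun a => wSol_continuous h (hq a) c
  have hμc : Continuous μ := h.2.2.1
  set Z : ℝ → Phase d := fun t =>
    ((R * Block.blk μ W F c t * Ri) *ᵥ y, (R * Block.blkD μ W F c t * Ri) *ᵥ y) with hZ
  have hcancel : ∀ X : Matrix (Fin d) (Fin d) ℝ, Ri * (R * X) = X := fun X => by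
    rw [← mul_assoc, hR', one_mul]
  have hd : ∀ t ∈ Icc c e, HasDerivAt Z ((R * Block.blkD μ W F c t * Ri) *ᵥ y,
      (R * (Matrix.diagonal (fun a => pot ρ θ l (q a) t) * Block.blk μ W F c t
        - μ t • Block.blkD μ W F c t) * Ri) *ᵥ y) t := by
    intro t ht
    refine (hasDerivAt_sandwich (A' := Block.blkD μ W F c)
      (fun a b => Block.hasDerivAt_blk hμc hWc F c t a b) R Ri y).prodMk
      (hasDerivAt_sandwich (A' := fun t => Matrix.diagonal (fun a => pot ρ θ l (q a) t) *
        Block.blk μ W F c t - μ t • Block.blkD μ W F c t) (fun a b => ?_) R Ri y)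
    refine (Block.hasDerivAt_blkD hμc hWc F c t (fun a => pot ρ θ l (q a) t) a b
      (wSol_deriv h (hq a) ht.1)).congr_deriv ?_
    simp [Matrix.diagonal_mul]
  have hd' : ∀ t ∈ Ico c e, HasDerivWithinAt Z (sysField P μ t (Z t)) (Ici t) t := by
    intro t ht
    refine (hd t (Ico_subset_Icc_self ht)).hasDerivWithinAt.congr_deriv ?_
    simp only [sysField, Z, hpot t ht, Matrix.mulVec_mulVec, ← Matrix.smul_mulVec]
    congr 1
    rw [← Matrix.sub_mulVec]
    congr 1
    simp only [mul_assoc, hcancel, Matrix.mul_sub, Matrix.sub_mul, Matrix.mul_smul, Matrix.smul_mul]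
  have h0 : z c = Z c := by
    have hdiag : Matrix.diagonal (fun a => W a c) = roundW ρ l c • (1 : Matrix (Fin d) (Fin d) ℝ) := by
      rw [Matrix.smul_one_eq_diagonal]
      congr 1; funext a; exact wSol_self h (hq a) c
    simp only [hc, phaseOf, Z, Block.blk_self, Block.blkD_self, mul_one, hR, Matrix.one_mulVec,
      hdiag, hF]
    congr 2
    simp only [mul_add, add_mul, Matrix.mul_smul, Matrix.smul_mul, mul_one, hR, mul_assoc]
    rw [← mul_assoc R Ri, hR, one_mul]
  have hze : z e = Z e := sys_unique hP hμc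
    (continuous_iff_continuousAt.2 fun t => (hz t).continuousAt).continuousOn
    (fun t _ => (hz t).hasDerivWithinAt)
    (fun t ht => (hd t ht).continuousAt.continuousWithinAt) hd' h0 ⟨hce, le_rfl⟩
  set H := Matrix.diagonal (fun a => hFun ρ θ l (q a) c e) with hH
  have hU : IsUnit (1 + H * F) := by
    refine isUnit_one_add fun a => ?_
    have hd0 : (0 : ℝ) < d := by exact_mod_cast Fin.pos_iff_nonempty.2 ⟨a⟩
    calc ∑ b, |(H * F) a b| ≤ ∑ _b : Fin d, (1 / 14) * (1 / (d : ℝ)) := by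
          refine Finset.sum_le_sum fun b _ => ?_
          rw [hH, Matrix.diagonal_mul, abs_mul]
          obtain ⟨h1, h2⟩ := hFun_mem h (hq a) hce
          rw [abs_of_nonneg h1]
          refine mul_le_mul (h2.trans_eq (by norm_num [p₀])) ?_ (abs_nonneg _) (by norm_num)
          rw [le_div_iff₀ hd0]
          linarith [hE a b]
      _ ≤ 1 / 2 := by
          rw [Finset.sum_const, Finset.card_univ, Fintype.card_fin, nsmul_eq_mul]
          field_simp
          norm_num
  have hinv : (1 + H * F)⁻¹ * (1 + H * F) = 1 :=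
    Matrix.nonsing_inv_mul _ ((Matrix.isUnit_iff_isUnit_det _).1 hU)
  have hT : blockT ρ θ l q R Ri E c e = R * Block.blk μ W F c e * Ri := rfl
  have hkey : Block.blkD μ W F c e = (roundW ρ l e • (1 : Matrix (Fin d) (Fin d) ℝ) +
      (Matrix.diagonal (fun a => vRel ρ θ l (q a) c e) +
        Matrix.diagonal (fun a => hDer ρ θ l (q a) c e * exp (vInt ρ θ l (q a) c e)) * F *
          (1 + H * F)⁻¹ * Matrix.diagonal (fun a => exp (-vInt ρ θ l (q a) c e)))) *
      Block.blk μ W F c e := by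
    rw [Block.blkD_eq F ((1 + H * F)⁻¹) c e hinv]
    congr 1
    rw [← add_assoc]
    have e1 : Matrix.diagonal (fun a => W a e) = roundW ρ l e • (1 : Matrix (Fin d) (Fin d) ℝ) +
        Matrix.diagonal (fun a => vRel ρ θ l (q a) c e) := by
      rw [Matrix.smul_one_eq_diagonal, Matrix.diagonal_add]
      congr 1; funext a
      simp [vRel, W]
    rw [e1]
    congr 1
    have e2 : Matrix.diagonal (fun a => Block.gFac (W a) c e * Block.hDer μ (W a) c e)
        = roundG ρ l c e • Matrix.diagonal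
          (fun a => hDer ρ θ l (q a) c e * exp (vInt ρ θ l (q a) c e)) := by
      rw [← Matrix.diagonal_smul]
      congr 1; funext a
      show gFun ρ θ l (q a) c e * hDer ρ θ l (q a) c e = _
      rw [gFun_eq h hf (hq a), Pi.smul_apply, smul_eq_mul]
      ring
    have e3 : Matrix.diagonal (fun a => (Block.gFac (W a) c e)⁻¹)
        = (roundG ρ l c e)⁻¹ • Matrix.diagonal (fun a => exp (-vInt ρ θ l (q a) c e)) := by
      rw [← Matrix.diagonal_smul]
      congr 1; funext a
      show (gFun ρ θ l (q a) c e)⁻¹ = _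
      rw [gFun_eq h hf (hq a), mul_inv, Pi.smul_apply, smul_eq_mul, exp_neg]
    rw [e2, e3, Matrix.smul_mul, Matrix.smul_mul, Matrix.smul_mul, Matrix.mul_smul, smul_smul,
      mul_inv_cancel₀ (show roundG ρ l c e ≠ 0 from (exp_pos _).ne'), one_smul]
  rw [hze]
  simp only [phaseOf, Z, hT, hkey, Matrix.mulVec_mulVec, blockE, ← hF, ← hH]
  congr 2
  simp only [mul_add, add_mul, Matrix.smul_mul, Matrix.mul_smul, one_mul, mul_assoc, hcancel]

end

end Vale.Agent.P225
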