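import Vale.Agent.P225.Analysis.Dwell
import Vale.Agent.P225.Analysis.Growth

/-!
# P225: growth of a glued solution along a cycle

The values at the checkpoints given by `GlueStmt`, the solved period equations and the dwell bound
give growth `O(exp (k s))` as soon as the mean dwell exponent over the cycle is below `k`.
-/

namespace Vale.Agent.P225

open Filter Topology Real Finset
open scoped Matrix

noncomputable section

lemma succ_pow_le_plen (j : ℕ) : ((j : ℝ) + 1) ^ 7 ≤ plen j := by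
  have h := mul_le_mul_of_nonneg_left
    (pow_le_pow_left₀ (show (0 : ℝ) ≤ (j : ℝ) by positivity)
      (show (j : ℝ) ≤ (j : ℝ) + 1 by linarith) 7)
    (show (0 : ℝ) ≤ (j : ℝ) by positivity)
  rw [plen]
  linarith

theorem growth_of_glue {κ : ℝ} {j₀ M l d : ℕ} (hr : RhoOK κ j₀)
    (h : CoefOK (rho κ j₀) noTheta) {q : Fin d → ℕ} (hq : ∀ b, q b ≤ l)
    (R Ri : Fin M → Matrix (Fin d) (Fin d) ℝ) (σ : Equiv.Perm (Fin d)) {ε : Fin d → ℝ}
    (hε : ∀ b, |ε b| = 1) (τ : ℕ → Fin M → ℝ) (E : ℕ → Matrix (Fin d) (Fin d) ℝ) {γ : ℕ → ℝ}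
    {T : ℝ} (hγ : ∀ j, j₀ ≤ j → |γ j| ≤ T)
    (hX : ∀ j, j₀ ≤ j → periodX (rho κ j₀) j l q R Ri (τ j) (E j) =
      exp (γ j) • Matrix.of (monoMat σ ε))
    {Y : ℝ → Fin d → ℝ} (hY : Continuous Y) {a : Fin d} {x₀ : ℝ}
    (hY0 : Y ((j₀ : ℝ) ^ 8) = x₀ • Pi.single a 1)
    (hT : ∀ j, j₀ ≤ j → Y (((j : ℝ) + 1) ^ 8) =
      (roundG (rho κ j₀) l ((j : ℝ) ^ 8) (exStart j M) •
        (Matrix.diagonal
            (fun b => gFun (rho κ j₀) (dwTheta M j) l (q b) (exStart j M) (((j : ℝ) + 1) ^ 8)) *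
          periodX (rho κ j₀) j l q R Ri (τ j) (E j))).mulVec (Y ((j : ℝ) ^ 8)))
    (hin : ∃ C : ℝ, ∀ j, j₀ ≤ j → ∀ s, (j : ℝ) ^ 8 ≤ s → s < ((j : ℝ) + 1) ^ 8 →
      ∑ b, |Y s b| ≤ exp (C * ((j : ℝ) + 1) ^ 7) * ∑ b, |Y ((j : ℝ) ^ 8) b|)
    {k P : ℕ} (hP : 1 ≤ P) (hcyc : (σ ^ P) a = a)
    (hmean : ∑ e ∈ range P, dwellExp l (q ((σ ^ e) a)) < k * P) :
    ∃ C : ℝ, ∀ s, 0 ≤ s → ∑ b, |Y s b| ≤ C * exp (k * s) := by
  obtain ⟨C, hC⟩ := hin
  have hcast : ∀ n : ℕ, ((j₀ + (n + 1) : ℕ) : ℝ) = ((j₀ + n : ℕ) : ℝ) + 1 := fun n => by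
    push_cast; ring
  have htend : Tendsto (fun n : ℕ => j₀ + n) atTop atTop :=
    tendsto_atTop_mono (fun n => Nat.le_add_left n j₀) tendsto_id
  refine growth_of_transfer (B := max C 0) hY σ hε a (fun b => dwellExp l (q b)) j₀ hP hcyc hmean
    hY0 (γ := fun n => roundG (rho κ j₀) l (((j₀ + n : ℕ) : ℝ) ^ 8) (exStart (j₀ + n) M) *
      exp (γ (j₀ + n)))
    (G := fun n b => gFun (rho κ j₀) (dwTheta M (j₀ + n)) l (q b) (exStart (j₀ + n) M)
      ((((j₀ + n : ℕ) : ℝ) + 1) ^ 8)) (fun n => ?_) (fun η hη => ?_) ?_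
  · rw [hcast, hT _ (Nat.le_add_right j₀ n), hX _ (Nat.le_add_right j₀ n), Matrix.mul_smul,
      smul_smul, Matrix.smul_mulVec, ← Matrix.mulVec_mulVec]
  · have hb : ∀ b, ∀ᶠ j : ℕ in atTop,
        roundG (rho κ j₀) l ((j : ℝ) ^ 8) (exStart j M) *
            gFun (rho κ j₀) (dwTheta M j) l (q b) (exStart j M) (((j : ℝ) + 1) ^ 8) ≤
          exp ((dwellExp l (q b) + η / 2) * plen j) := fun b =>
      period_factor_le hr h (hq b) M (half_pos hη)
    filter_upwards [htend.eventually ((eventually_all.2 hb).and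
      (eventually_unit_small T (half_pos hη)))] with n hn b
    obtain ⟨h1, hN, h2⟩ := hn
    have hT0 : 0 ≤ T := (abs_nonneg _).trans (hγ j₀ le_rfl)
    have h3 : exp (γ (j₀ + n)) ≤ exp (η / 2 * plen (j₀ + n)) :=
      exp_le_exp.2 (((le_abs_self _).trans (hγ _ (Nat.le_add_right j₀ n))).trans
        ((le_mul_of_one_le_right hT0 hN).trans h2))
    rw [abs_of_nonneg (by unfold roundG gFun; positivity), mul_right_comm]
    refine (mul_le_mul (h1 b) h3 (exp_pos _).le (exp_pos _).le).trans (le_of_eq ?_)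
    rw [← exp_add]; ring_nf
  · refine Eventually.of_forall fun n s h1 h2 => ?_
    rw [hcast] at h2
    refine (hC _ (Nat.le_add_right j₀ n) s h1 h2).trans ?_
    rw [mul_comm]
    refine mul_le_mul_of_nonneg_left (exp_le_exp.2 ?_) (sum_nonneg fun b _ => abs_nonneg _)
    exact (mul_le_mul_of_nonneg_right (le_max_left C 0) (by positivity)).trans
      (mul_le_mul_of_nonneg_left (succ_pow_le_plen _) (le_max_right C 0))

end

end Vale.Agent.P225
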