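import Vale.Agent.P225.Analysis.Period

/-!
# P225: all excursions of all periods take place near the limit
-/

namespace Vale.Agent.P225

open Filter Topology Real Set

noncomputable section

lemma le_exStart {j₀ j : ℕ} (hj : j₀ ≤ j) (k : ℕ) : (j₀ : ℝ) ^ 8 ≤ exStart j k := by
  have h1 : (j₀ : ℝ) ^ 8 ≤ (j : ℝ) ^ 8 := by gcongr
  have h2 : 0 ≤ 3 * (k : ℝ) * unit' j := by have := unit_nonneg j; positivity
  rw [exStart]; linarith

/-- The three limits on the tail. -/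
lemma eventually_near {κ : ℝ} (hκ : 0 < κ) (l : ℕ) {η : ℝ} (hη : 0 < η) :
    ∀ᶠ j₀ : ℕ in atTop, ∀ t : ℝ, (j₀ : ℝ) ^ 8 ≤ t →
      |rho κ j₀ t - rhoInf| ≤ η ∧ |drift (rho κ j₀) t - 2 * p₀| ≤ η ∧
        |roundW (rho κ j₀) l t - alphaInf l| ≤ η := by
  have hl := lam_nonneg l
  have ha := alphaInf_nonneg l
  set K := (3 * lam l + alphaInf l) / p₀ with hK
  have hK0 : 0 ≤ K := by rw [hK]; positivity
  set η' := min η (η / (2 * (K + 1))) with hη'def
  have hη' : 0 < η' := lt_min hη (by positivity)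
  have hexp : Tendsto (fun j : ℕ => (wMax l + alphaInf l) * exp (-((p₀ : ℝ) * ((j : ℝ) ^ 8 / 2))))
      atTop (𝓝 0) := by
    have h1 : Tendsto (fun j : ℕ => ((j : ℝ) ^ 8)) atTop atTop :=
      (tendsto_pow_atTop (by norm_num)).comp tendsto_natCast_atTop_atTop
    simpa using (tendsto_exp_neg_atTop_nhds_zero.comp
      ((h1.atTop_div_const two_pos).const_mul_atTop (by norm_num [p₀]))).const_mul _
  filter_upwards [eventually_tail hκ hη', eventually_coefOK hκ 0 0,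
    hexp.eventually (eventually_lt_nhds (half_pos hη))] with j htail hc he t ht
  obtain ⟨hr, -, hcoef⟩ := hc
  have hflat : StartsFlat (rho κ j) := hr.startsFlat
  have hround : CoefOK (rho κ j) noTheta := (hcoef (fun _ _ => 0) (fun _ k => Fin.elim0 k)).round
  have h8 : (0 : ℝ) < (j : ℝ) ^ 8 := hr.S_pos
  obtain ⟨a, b⟩ := htail hr t (by linarith)
  refine ⟨a.trans (min_le_left _ _), b.trans (min_le_left _ _), ?_⟩
  refine (roundW_tail hround hflat l hη'.le (a := (j : ℝ) ^ 8 / 2) (fun s hs => htail hr s hs)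
    (by linarith)).trans ?_
  have hmono : exp (-((p₀ : ℝ) * (t - (j : ℝ) ^ 8 / 2))) ≤ exp (-((p₀ : ℝ) * ((j : ℝ) ^ 8 / 2))) :=
    exp_le_exp.2 (neg_le_neg (mul_le_mul_of_nonneg_left (by linarith) (by positivity)))
  have hW : 0 ≤ wMax l + alphaInf l :=
    add_nonneg ((Nat.cast_nonneg l).trans (l_le_wMax l)) ha
  have e1 := mul_le_mul_of_nonneg_left hmono hW
  have e2 : (3 * lam l + alphaInf l) * η' / p₀ ≤ η / 2 := by
    have e : (3 * lam l + alphaInf l) * η' / p₀ = K * η' := by rw [hK]; ring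
    rw [e]
    refine (mul_le_mul_of_nonneg_left (min_le_right _ _) hK0).trans ?_
    rw [mul_div, div_le_div_iff₀ (by positivity) two_pos]
    nlinarith
  linarith

/-- `ExOK` for every excursion of every period. -/
lemma eventually_exOK {κ : ℝ} (hκ : 0 < κ) (l : ℕ) {T Cb η : ℝ} (hT : 0 ≤ T)
    (hCb : ∀ x, bump x ≤ Cb) (hη : 0 < η) (hη1 : η ≤ 1) :
    ∀ᶠ j₀ : ℕ in atTop, ∀ j, j₀ ≤ j → ∀ k : ℕ,
      ExOK (rho κ j₀) l T Cb (unit' j) (exStart j k) η := by
  have hCb0 : 0 ≤ Cb := (bump_nonneg 0).trans (hCb 0)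
  have hsmall : Tendsto (fun j : ℕ => T * Cb / (j : ℝ) ^ 6) atTop (𝓝 0) :=
    ((tendsto_pow_atTop (by norm_num : (6 : ℕ) ≠ 0)).comp
      tendsto_natCast_atTop_atTop).const_div_atTop _
  filter_upwards [eventually_near hκ l hη, eventually_coefOK hκ 0 0,
    hsmall.eventually (eventually_lt_nhds (show (0 : ℝ) < 1 / 100 by norm_num)),
    eventually_ge_atTop 1] with j₀ hnear hc hs h1 j hj k
  obtain ⟨hr, -, hcoef⟩ := hc
  have hj1 : (1 : ℝ) ≤ j := by exact_mod_cast h1.trans hj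
  refine ⟨one_le_pow₀ hj1, hη.le, hη1, hCb, hT, ?_, hr.startsFlat,
    (hcoef (fun _ _ => 0) (fun _ i => Fin.elim0 i)).round,
    fun t ht => hnear t ((le_exStart hj k).trans ht)⟩
  refine le_trans ?_ hs.le
  have hj0 : (1 : ℝ) ≤ j₀ := by exact_mod_cast h1
  rw [unit']
  gcongr

end

end Vale.Agent.P225
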