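import Vale.Agent.P225.Analysis.Small
import Vale.Agent.P225.Analysis.Near

/-!
# P225: the period maps converge to the word map
-/

namespace Vale.Agent.P225

open Filter Topology Real Small Set

noncomputable section

namespace Limit

variable {M L : ℕ} {dim : Fin L → ℕ}

/-- Parameters: first checkpoint, period, state. -/
abbrev Par (dim : Fin L → ℕ) := ℕ × ℕ × State dim

/-- The first checkpoint is large, the period is at least that, and the state is small. -/
def lim (dim : Fin L → ℕ) : Filter (Par dim) :=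
  (atTop ×ˢ (⊤ ×ˢ 𝓝 (0 : State dim))) ⊓ 𝓟 {a | a.1 ≤ a.2.1}

/-- The ball of parameters. -/
def ball (M L : ℕ) (T : ℝ) : Set ((Fin M → ℝ) × (Fin L → ℝ)) := {z | ‖z‖ ≤ T}

lemma eventually_lim {P : Par dim → Prop} (h : ∀ᶠ a in lim dim, P a) :
    ∃ δ > 0, ∀ᶠ j₀ : ℕ in atTop, ∀ j, j₀ ≤ j → ∀ E : State dim, ‖E‖ ≤ δ → P (j₀, j, E) := by
  rw [lim, eventually_inf_principal, eventually_prod_iff] at h
  obtain ⟨pa, hpa, pb, hpb, hP⟩ := h
  rw [eventually_prod_iff] at hpb
  obtain ⟨pc, hpc, pd, hpd, hb⟩ := hpb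
  rw [eventually_top] at hpc
  obtain ⟨δ, hδ, hball⟩ := Metric.eventually_nhds_iff_ball.1 hpd
  refine ⟨δ / 2, half_pos hδ, hpa.mono fun j₀ hj₀ j hj E hE =>
    hP hj₀ (hb (hpc j) (hball E ?_)) hj⟩
  rw [mem_ball_zero_iff]
  exact hE.trans_lt (half_lt_self hδ)

lemma lim_of_atTop {P : ℕ → ℕ → Prop} (h : ∀ᶠ j₀ : ℕ in atTop, ∀ j, j₀ ≤ j → P j₀ j) :
    ∀ᶠ a in lim dim, P a.1 a.2.1 := by
  rw [lim, eventually_inf_principal]
  exact (h.prod_inl _).mono fun a ha hle => ha a.2.1 hle

lemma lim_state (i : Fin L) (a b : Fin (dim i)) {ε : ℝ} (hε : 0 < ε) :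
    ∀ᶠ x in lim dim, |x.2.2 i a b| ≤ ε := by
  have h1 : ∀ᶠ E : State dim in 𝓝 0, ‖E‖ ≤ ε := by
    filter_upwards [Metric.closedBall_mem_nhds (0 : State dim) hε] with E hE
    simpa using hE
  refine Eventually.filter_mono inf_le_left ((h1.prod_inr ⊤).prod_inr atTop |>.mono fun x hx => ?_)
  exact ((norm_le_pi_norm (x.2.2 i a) b).trans ((norm_le_pi_norm (x.2.2 i) a).trans
    (norm_le_pi_norm x.2.2 i))).trans hx

variable {T : ℝ}

lemma sm_state (i : Fin L) :
    SmM (lim dim) (ball M L T) fun x _ => Matrix.of (x.2.2 i) := fun a b ε hε =>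
  (lim_state i a b hε).mono fun x hx => ⟨fun _ _ => hx, fun _ _ _ _ => by
    rw [sub_self, abs_zero]; positivity⟩

lemma abs_fst_le {z : (Fin M → ℝ) × (Fin L → ℝ)} (k : Fin M) : |z.1 k| ≤ ‖z‖ :=
  (norm_le_pi_norm z.1 k).trans (norm_fst_le z)

lemma abs_snd_le {z : (Fin M → ℝ) × (Fin L → ℝ)} (i : Fin L) : |z.2 i| ≤ ‖z‖ :=
  (norm_le_pi_norm z.2 i).trans (norm_snd_le z)

lemma bdd_fst (k : Fin M) :
    Bdd (lim dim) (ball M L T) fun _ z => z.1 k :=
  Bdd.of_le (C := max T 1) (Eventually.of_forall fun _ =>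
    ⟨fun _ hz => ((abs_fst_le k).trans hz).trans (le_max_left _ _), fun z _ w _ => by
      calc |z.1 k - w.1 k| ≤ 1 * ‖z - w‖ := by rw [one_mul]; exact abs_fst_le (z := z - w) k
        _ ≤ max T 1 * ‖z - w‖ := mul_le_mul_of_nonneg_right (le_max_right _ _) (norm_nonneg _)⟩)

lemma bdd_snd (i : Fin L) :
    Bdd (lim dim) (ball M L T) fun _ z => z.2 i :=
  Bdd.of_le (C := max T 1) (Eventually.of_forall fun _ =>
    ⟨fun _ hz => ((abs_snd_le i).trans hz).trans (le_max_left _ _), fun z _ w _ => by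
      calc |z.2 i - w.2 i| ≤ 1 * ‖z - w‖ := by rw [one_mul]; exact abs_snd_le (z := z - w) i
        _ ≤ max T 1 * ‖z - w‖ := mul_le_mul_of_nonneg_right (le_max_right _ _) (norm_nonneg _)⟩)

/-- The profile of excursion `k`. -/
def exθ (x : Par dim) (z : (Fin M → ℝ) × (Fin L → ℝ)) (k : Fin M) : ℝ → ℝ :=
  exTheta (unit' x.2.1) (exStart x.2.1 k) (z.1 k)

/-- The end of excursion `k`. -/
def exStop (x : Par dim) (k : Fin M) : ℝ := exStart x.2.1 k + 3 * unit' x.2.1

variable {κ : ℝ} {l q : ℕ}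

lemma eventually_ok (hκ : 0 < κ) (l : ℕ) (T : ℝ) {η : ℝ} (hη : 0 < η) (hη1 : η ≤ 1) {Cb : ℝ}
    (hCb : ∀ y, bump y ≤ Cb) :
    ∀ᶠ x in lim dim, ∀ k : ℕ, ExOK (rho κ x.1) l (max T 0) Cb (unit' x.2.1) (exStart x.2.1 k) η :=
  lim_of_atTop (P := fun j₀ j => ∀ k : ℕ, ExOK (rho κ j₀) l (max T 0) Cb (unit' j) (exStart j k) η)
    (eventually_exOK hκ l (le_max_right _ _) hCb hη hη1)

lemma eventually_unit (A : ℝ) : ∀ᶠ x in lim dim, A ≤ unit' x.2.1 := by
  refine lim_of_atTop (P := fun _ j => A ≤ unit' j) ?_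
  filter_upwards [((tendsto_pow_atTop (by norm_num : (6 : ℕ) ≠ 0)).comp
    tendsto_natCast_atTop_atTop).eventually_ge_atTop A] with j₀ h j hj
  refine le_trans h ?_
  simp only [Function.comp, unit']
  gcongr

/-- A bound `B / N` gets below `ε` once `N` is large. -/
lemma div_le_of_le {B N ε : ℝ} (hε : 0 < ε) (hN : 0 < N) (h : B / ε ≤ N) : B / N ≤ ε := by
  rw [div_le_iff₀ hN]
  rw [div_le_iff₀ hε] at h
  linarith

/-- The integral of `vRel` over an excursion minus its linearisation is tiny. -/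
lemma sm_vInt (hκ : 0 < κ) (hq : q ≤ l) (k : Fin M) :
    Sm (lim dim) (ball M L T) fun x z =>
      vInt (rho κ x.1) (exθ x z k) l q (exStart x.2.1 k) (exStop x k) - genY l q * z.1 k := by
  intro ε hε
  obtain ⟨Cb, hCb0, hCb⟩ := bump_bounded
  set C := exC l (max T 0) Cb with hC
  have hC0 : 0 ≤ C := by rw [hC, exC]; positivity
  set T' := max T 0
  have hT : 0 ≤ T' := le_max_right _ _
  set δ := ε / (2 * (C + 1) * (T' + 1)) with hδ
  have hδ0 : 0 < δ := by positivity
  filter_upwards [eventually_ok (dim := dim) hκ l T (η := min 1 δ) (lt_min one_pos hδ0)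
    (min_le_left _ _) hCb, eventually_unit (1 / δ), eventually_unit 1] with x hx hN hN1
  have hN0 : 0 < unit' x.2.1 := zero_lt_one.trans_le hN1
  have hsum : C * (min 1 δ + 1 / unit' x.2.1) * (T' + 1) ≤ ε := by
    have h1 : min 1 δ + 1 / unit' x.2.1 ≤ 2 * δ := by
      linarith [min_le_right 1 δ, div_le_of_le hδ0 hN0 hN]
    calc C * (min 1 δ + 1 / unit' x.2.1) * (T' + 1) ≤ (C + 1) * (2 * δ) * (T' + 1) := by
          gcongr; linarith
      _ = ε := by rw [hδ]; field_simp
  have hω : 0 ≤ min 1 δ + 1 / unit' x.2.1 := by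
    have : 0 ≤ min 1 δ := le_min zero_le_one hδ0.le
    positivity
  have hmem : ∀ z ∈ ball M L T, |z.1 k| ≤ T' := fun z hz =>
    ((abs_fst_le k).trans hz).trans (le_max_left _ _)
  have hlip := fun {a b : ℝ} (ha : |a| ≤ T') (hb : |b| ≤ T') =>
    exInt_sub_le (q := q) (x := a) (y := b) (hx k) hq ha hb
  refine ⟨fun z hz => ?_, fun z hz w hw => ?_⟩
  · have h := hlip (hmem z hz) (show |(0 : ℝ)| ≤ T' by simpa using hT)
    rw [exInt_zero (hx k) hq, sub_zero, sub_zero] at h
    refine h.trans (le_trans ?_ hsum)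
    exact mul_le_mul_of_nonneg_left (by linarith [hmem z hz]) (mul_nonneg hC0 hω)
  · rw [sub_sub_sub_comm, ← mul_sub]
    refine (hlip (hmem z hz) (hmem w hw)).trans ?_
    refine le_trans (mul_le_mul_of_nonneg_left (abs_fst_le (z := z - w) k) (mul_nonneg hC0 hω)) ?_
    refine mul_le_mul_of_nonneg_right (le_trans ?_ hsum) (norm_nonneg _)
    exact le_mul_of_one_le_right (mul_nonneg hC0 hω) (by linarith)

/-- `hFun` over an excursion is bounded. -/
lemma bdd_hFun (hκ : 0 < κ) (hq : q ≤ l) (k : Fin M) :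
    Bdd (lim dim) (ball M L T) fun x z =>
      hFun (rho κ x.1) (exθ x z k) l q (exStart x.2.1 k) (exStop x k) := by
  obtain ⟨Cb, hCb0, hCb⟩ := bump_bounded
  refine Bdd.of_le (C := max 1 (exA l Cb)) ?_
  filter_upwards [eventually_ok (dim := dim) hκ l T one_pos le_rfl hCb] with x hx
  have hN := (hx k).hN
  have hmem : ∀ z ∈ ball M L T, |z.1 k| ≤ max T 0 := fun z hz =>
    ((abs_fst_le k).trans hz).trans (le_max_left _ _)
  refine ⟨fun z hz => ?_, fun z hz w hw => ?_⟩
  · obtain ⟨h0, h1⟩ := hFun_mem ((hx k).coefOK (hmem z hz)) hq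
      (show exStart x.2.1 k ≤ exStop x k by rw [exStop]; linarith)
    refine (abs_of_nonneg h0).trans_le ?_
    exact h1.trans (le_trans (by norm_num [p₀]) (le_max_left _ _))
  · refine (exH_sub_le (hx k) hq (hmem z hz) (hmem w hw)).trans ?_
    have hA := exA_nonneg (hx k)
    have e : exA l Cb * |z.1 k - w.1 k| / unit' x.2.1 / p₀ =
        exA l Cb * |z.1 k - w.1 k| * (1 / (unit' x.2.1 * 14)) := by norm_num [p₀]; field_simp
    rw [e]
    have h14 : 1 / (unit' x.2.1 * 14) ≤ 1 := by rw [div_le_one (by positivity)]; linarith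
    refine (mul_le_of_le_one_right (by positivity) h14).trans ?_
    exact mul_le_mul (le_max_right _ _) (abs_fst_le (z := z - w) k) (abs_nonneg _)
      (le_trans zero_le_one (le_max_left _ _))

/-- The end value of `hDer` on an excursion is tiny. -/
lemma sm_hDer (hκ : 0 < κ) (hq : q ≤ l) (k : Fin M) :
    Sm (lim dim) (ball M L T) fun x z =>
      hDer (rho κ x.1) (exθ x z k) l q (exStart x.2.1 k) (exStop x k) := by
  intro ε hε
  obtain ⟨Cb, hCb0, hCb⟩ := bump_bounded
  filter_upwards [eventually_ok (dim := dim) hκ l T one_pos le_rfl hCb,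
    eventually_unit ((exA l Cb + 1) / ε)] with x hx hNε
  have hN := (hx k).hN
  have hA := exA_nonneg (hx k)
  have hN0 : 0 < unit' x.2.1 := zero_lt_one.trans_le hN
  have hdec : exp (-((p₀ : ℝ) * unit' x.2.1)) ≤ 1 / unit' x.2.1 := by
    rw [exp_neg, one_div]
    refine inv_anti₀ hN0 ((le_add_of_nonneg_right zero_le_one).trans
      ((add_one_le_exp _).trans (exp_le_exp.2 ?_)))
    norm_num [p₀]; linarith
  have hsmall : (exA l Cb + 1) / unit' x.2.1 ≤ ε := div_le_of_le hε hN0 hNε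
  have hmem : ∀ z ∈ ball M L T, |z.1 k| ≤ max T 0 := fun z hz =>
    ((abs_fst_le k).trans hz).trans (le_max_left _ _)
  refine ⟨fun z hz => ?_, fun z hz w hw => ?_⟩
  · obtain ⟨h0, h1⟩ := hDer_le ((hx k).coefOK (hmem z hz)) hq
      (show exStart x.2.1 k ≤ exStop x k by rw [exStop]; linarith)
    refine (abs_of_nonneg h0).trans_le ?_
    refine h1.trans (le_trans ((exp_le_exp.2 ?_).trans hdec) (le_trans ?_ hsmall))
    · rw [exStop, add_sub_cancel_left]; norm_num [p₀]; linarith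
    · exact div_le_div_of_nonneg_right (by linarith) hN0.le
  · refine (exDer_sub_le (hx k) hq (hmem z hz) (hmem w hw)).trans ?_
    rw [← mul_assoc]
    refine mul_le_mul (le_trans ?_ hsmall) (abs_fst_le (z := z - w) k) (abs_nonneg _) hε.le
    refine (mul_le_mul_of_nonneg_right hdec hA).trans ?_
    rw [one_div_mul_eq_div]
    exact div_le_div_of_nonneg_right (by linarith) hN0.le

/-- The end value of `vRel` on an excursion is tiny. -/
lemma sm_vRel (hκ : 0 < κ) (hq : q ≤ l) (k : Fin M) :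
    Sm (lim dim) (ball M L T) fun x z =>
      vRel (rho κ x.1) (exθ x z k) l q (exStart x.2.1 k) (exStop x k) := by
  intro ε hε
  obtain ⟨Cb, hCb0, hCb⟩ := bump_bounded
  set A := exA l Cb * (max T 0 + 1)
  filter_upwards [eventually_ok (dim := dim) hκ l T one_pos le_rfl hCb,
    eventually_unit ((A + 1) / ε)] with x hx hNε
  have hN := (hx k).hN
  have hA := exA_nonneg (hx k)
  have hN0 : 0 < unit' x.2.1 := zero_lt_one.trans_le hN
  have hT : 0 ≤ max T 0 := le_max_right _ _
  have hsmall : A / unit' x.2.1 ≤ ε :=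
    (div_le_div_of_nonneg_right (by linarith) hN0.le).trans (div_le_of_le hε hN0 hNε)
  have hend : exStart x.2.1 k + 3 * unit' x.2.1 ∈
      Icc (exStart x.2.1 k) (exStart x.2.1 k + 3 * unit' x.2.1) := ⟨by linarith, le_rfl⟩
  have h14 : ∀ {B : ℝ}, 0 ≤ B → B / unit' x.2.1 / p₀ ≤ B / unit' x.2.1 := fun hB =>
    div_le_self (by positivity) (by norm_num [p₀])
  have hmem : ∀ z ∈ ball M L T, |z.1 k| ≤ max T 0 := fun z hz =>
    ((abs_fst_le k).trans hz).trans (le_max_left _ _)
  refine ⟨fun z hz => ?_, fun z hz w hw => ?_⟩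
  · refine ((exV_le (hx k) hq (hmem z hz)).1 _ hend).trans ((h14 (by positivity)).trans ?_)
    refine le_trans (div_le_div_of_nonneg_right ?_ hN0.le) hsmall
    exact mul_le_mul_of_nonneg_left (by linarith) hA
  · refine ((exV_sub_le (hx k) hq (hmem z hz) (hmem w hw)).1 _ hend).trans
      ((h14 (by positivity)).trans ?_)
    rw [mul_div_right_comm]
    refine mul_le_mul (le_trans (div_le_div_of_nonneg_right ?_ hN0.le) hsmall)
      (abs_fst_le (z := z - w) k) (abs_nonneg _) hε.le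
    exact le_mul_of_one_le_right hA (by linarith)

variable {d : ℕ}

/-- `exp` of the integral over an excursion. -/
lemma bdd_expInt (hκ : 0 < κ) (hq : q ≤ l) (k : Fin M) (s : ℝ) :
    Bdd (lim dim) (ball M L T) fun x z =>
      exp (s * vInt (rho κ x.1) (exθ x z k) l q (exStart x.2.1 k) (exStop x k)) := by
  have h := (bdd_const s).mul ((sm_vInt (dim := dim) (T := T) hκ hq k).bdd.add
    ((bdd_const (genY l q)).mul (bdd_fst k)))
  simpa using h.exp

lemma sm_expDiff (hκ : 0 < κ) (hq : q ≤ l) (k : Fin M) :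
    Sm (lim dim) (ball M L T) fun x z =>
      exp (vInt (rho κ x.1) (exθ x z k) l q (exStart x.2.1 k) (exStop x k)) -
        exp (z.1 k * genY l q) := by
  have h := ((bdd_fst (dim := dim) (T := T) k).mul (bdd_const (genY l q))).exp.mul_sm
    (sm_vInt (dim := dim) (T := T) hκ hq k).exp_sub_one
  refine h.congr (Eventually.of_forall fun x z _ => ?_)
  rw [mul_sub, mul_one, ← exp_add]
  ring_nf

variable {qs : Fin d → ℕ} {Rk Rik : Matrix (Fin d) (Fin d) ℝ}
  {E : Par dim → ((Fin M → ℝ) × (Fin L → ℝ)) → Matrix (Fin d) (Fin d) ℝ}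

/-- One excursion changes a tiny state into a tiny state. -/
lemma sm_blockE (hκ : 0 < κ) (hq : ∀ a, qs a ≤ l) (k : Fin M) (hE : SmM (lim dim) (ball M L T) E) :
    SmM (lim dim) (ball M L T) fun x z =>
      blockE (rho κ x.1) (exθ x z k) l qs Rk Rik (E x z) (exStart x.2.1 k) (exStop x k) := by
  unfold blockE
  have hEt : SmM (lim dim) (ball M L T) fun x z => Rik * E x z * Rk :=
    ((bddM_const Rik).mul_sm hE).mul_bdd (bddM_const Rk)
  have hB := ((bddM_diag fun a => bdd_hFun hκ (hq a) k).mul_sm hEt).inv_one_add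
  refine ((bddM_const Rk).mul_sm ((smM_diag fun a => sm_vRel hκ (hq a) k).add ?_)).mul_bdd
    (bddM_const Rik)
  refine (((smM_diag fun a => (sm_hDer hκ (hq a) k).mul_bdd ?_).mul_bdd hEt.bdd).mul_bdd hB).mul_bdd
    (bddM_diag fun a => ?_)
  · simpa using bdd_expInt (dim := dim) (T := T) hκ (hq a) k 1
  · simpa using bdd_expInt (dim := dim) (T := T) hκ (hq a) k (-1)

/-- One excursion is close to its first-order transfer. -/
lemma sm_blockX (hκ : 0 < κ) (hq : ∀ a, qs a ≤ l) (k : Fin M) (hE : SmM (lim dim) (ball M L T) E) :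
    SmM (lim dim) (ball M L T) fun x z =>
      blockX (rho κ x.1) (exθ x z k) l qs Rk Rik (E x z) (exStart x.2.1 k) (exStop x k) -
        segExp Rk Rik (fun a => genY l (qs a)) (z.1 k) := by
  have hEt : SmM (lim dim) (ball M L T) fun x z => Rik * E x z * Rk :=
    ((bddM_const Rik).mul_sm hE).mul_bdd (bddM_const Rk)
  have hG : BddM (lim dim) (ball M L T) fun x z => Matrix.diagonal fun a =>
      exp (vInt (rho κ x.1) (exθ x z k) l (qs a) (exStart x.2.1 k) (exStop x k)) :=
    bddM_diag fun a => by simpa using bdd_expInt (dim := dim) (T := T) hκ (hq a) k 1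
  have h := ((bddM_const Rk).mul_sm ((smM_diag fun a => sm_expDiff hκ (hq a) k).add
    (hG.mul_sm ((bddM_diag fun a => bdd_hFun hκ (hq a) k).mul_sm hEt)))).mul_bdd (bddM_const Rik)
  refine h.congr (Eventually.of_forall fun x z _ => ?_)
  rw [← Matrix.diagonal_sub]
  simp only [blockX, segExp]
  noncomm_ring

/-- The first-order transfer is bounded. -/
lemma bdd_segExp (k : Fin M) (Y : Fin d → ℝ) :
    BddM (lim dim) (ball M L T) fun _ z => segExp Rk Rik Y (z.1 k) := by
  unfold segExp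
  exact ((bddM_const Rk).mul (bddM_diag fun a => ((bdd_fst k).mul (bdd_const (Y a))).exp)).mul
    (bddM_const Rik)

/-- The first-order transfer after `k` segments. -/
def segPre (R Ri : Fin M → Matrix (Fin d) (Fin d) ℝ) (Y : Fin d → ℝ) (τ : Fin M → ℝ) :
    ℕ → Matrix (Fin d) (Fin d) ℝ
  | 0 => 1
  | k + 1 => if h : k < M then segExp (R ⟨k, h⟩) (Ri ⟨k, h⟩) Y (τ ⟨k, h⟩) * segPre R Ri Y τ k
    else segPre R Ri Y τ k

lemma segPre_eq (R Ri : Fin M → Matrix (Fin d) (Fin d) ℝ) (Y : Fin d → ℝ) (τ : Fin M → ℝ) :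
    segPre R Ri Y τ M = segProd R Ri Y τ := by
  have h : ∀ k, k ≤ M → segPre R Ri Y τ k =
      ((List.ofFn fun i => segExp (R i) (Ri i) Y (τ i)).take k).reverse.prod := by
    intro k hk
    induction k with
    | zero => simp [segPre]
    | succ k ih =>
      rw [segPre, dif_pos (Nat.lt_of_succ_le hk), ih (Nat.le_of_succ_le hk),
        List.take_succ_eq_append_getElem (i := k) (by simpa using Nat.lt_of_succ_le hk)]
      simp
  rw [h M le_rfl, segProd, List.take_of_length_le (by simp)]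

variable (hκ : 0 < κ) (i : Fin L) (qv : Fin (dim i) → ℕ) (hq : ∀ a, qv a ≤ l)
  (R Ri : Fin M → Matrix (Fin (dim i)) (Fin (dim i)) ℝ)

include hκ hq in
/-- States and transfers of all excursions. -/
lemma sm_exState (k : ℕ) :
    SmM (lim dim) (ball M L T) (fun x z =>
      (exState (rho κ x.1) x.2.1 l qv R Ri z.1 (Matrix.of (x.2.2 i)) k).1) ∧
    SmM (lim dim) (ball M L T) (fun x z =>
      (exState (rho κ x.1) x.2.1 l qv R Ri z.1 (Matrix.of (x.2.2 i)) k).2 -
        segPre R Ri (fun a => genY l (qv a)) z.1 k) ∧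
    BddM (lim dim) (ball M L T) (fun _ z => segPre R Ri (fun a => genY l (qv a)) z.1 k) := by
  induction k with
  | zero =>
    simp only [exState, segPre, sub_self]
    exact ⟨sm_state i, smM_zero, bddM_const 1⟩
  | succ k ih =>
    by_cases h : k < M
    · simp only [exState, segPre, dif_pos h]
      obtain ⟨h1, h2, h3⟩ := ih
      have hX := sm_blockX (Rk := R ⟨k, h⟩) (Rik := Ri ⟨k, h⟩) hκ hq ⟨k, h⟩ h1
      refine ⟨sm_blockE hκ hq ⟨k, h⟩ h1, ?_, (bdd_segExp ⟨k, h⟩ _).mul h3⟩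
      refine ((hX.mul_bdd (h2.bdd.add h3)).add
        ((bdd_segExp (Rk := R ⟨k, h⟩) (Rik := Ri ⟨k, h⟩) ⟨k, h⟩ fun a => genY l (qv a)).mul_sm
          h2)).congr (Eventually.of_forall fun x z _ => ?_)
      simp only [exθ, exStop]
      noncomm_ring
    · simp only [exState, segPre, dif_neg h]
      exact ih

lemma eventually_dwell (hκ : 0 < κ) (M : ℕ) :
    ∀ᶠ x in lim dim, RhoOK κ x.1 ∧ CoefOK (rho κ x.1) (dwTheta M x.2.1) ∧
      1 ≤ unit' x.2.1 ∧ (3 * (M : ℝ) + 4) * unit' x.2.1 ≤ plen x.2.1 := by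
  refine lim_of_atTop (P := fun j₀ j => RhoOK κ j₀ ∧ CoefOK (rho κ j₀) (dwTheta M j) ∧
    1 ≤ unit' j ∧ (3 * (M : ℝ) + 4) * unit' j ≤ plen j) ?_
  filter_upwards [eventually_coefOK hκ M 0] with j₀ ⟨hr, hM, hc⟩ j hj
  obtain ⟨h1, -, h3, h4⟩ := hc (fun _ _ => 0) fun _ _ => by simp
  have hj1 : (1 : ℝ) ≤ j := by exact_mod_cast (show 1 ≤ j by omega)
  refine ⟨hr, ⟨h1, ?_, h3, fun s => ⟨(h4 s).1, ?_, (h4 s).2.2⟩⟩, one_le_pow₀ hj1,
    fits (hM.trans hj)⟩
  · unfold dwTheta plateau
    have hs : Continuous smoothTransition := smoothTransition.continuous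
    exact continuous_const.mul ((hs.comp (by fun_prop)).mul (hs.comp (by fun_prop)))
  · rw [dwTheta, abs_mul, abs_of_pos thetaStar_pos, abs_of_nonneg (plateau_mem _).1]
    linarith [mul_le_of_le_one_right thetaStar_pos.le (plateau_mem (M := M) (j := j)
      (s - (j : ℝ) ^ 8)).2, thetaStar_le]

variable {a b : ℕ}

/-- Constants in the parameters. -/
lemma bdd_of {f : Par dim → ℝ} (C : ℝ) (hC : 0 ≤ C) (h : ∀ᶠ x in lim dim, |f x| ≤ C) :
    Bdd (lim dim) (ball M L T) fun x _ => f x :=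
  ⟨C, hC, h.mono fun _ hx => ⟨fun _ _ => hx, fun _ _ _ _ => by
    rw [sub_self, abs_zero]; positivity⟩⟩

lemma sm_of {f : Par dim → ℝ} (h : ∀ ε > 0, ∀ᶠ x in lim dim, |f x| ≤ ε) :
    Sm (lim dim) (ball M L T) fun x _ => f x := fun ε hε =>
  (h ε hε).mono fun _ hx => ⟨fun _ _ => hx, fun _ _ _ _ => by
    rw [sub_self, abs_zero]; positivity⟩

lemma bdd_dwellH (hκ : 0 < κ) (hq : q ≤ l) :
    Bdd (lim dim) (ball M L T) fun x _ =>
      hFun (rho κ x.1) (dwTheta M x.2.1) l q (exStart x.2.1 M) (((x.2.1 : ℝ) + 1) ^ 8) := by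
  refine bdd_of 1 zero_le_one ?_
  filter_upwards [eventually_dwell hκ M] with x ⟨_, hc, hN, hfit⟩
  obtain ⟨h0, h1⟩ := hFun_mem hc hq (c := exStart x.2.1 M) (e := ((x.2.1 : ℝ) + 1) ^ 8)
    (by rw [exStart]; rw [plen] at hfit; nlinarith)
  rw [abs_of_nonneg h0]
  exact h1.trans (by norm_num [p₀])

lemma sm_dwellV (hκ : 0 < κ) (hq : q ≤ l) :
    Sm (lim dim) (ball M L T) fun x _ =>
      vRel (rho κ x.1) (dwTheta M x.2.1) l q (exStart x.2.1 M) (((x.2.1 : ℝ) + 1) ^ 8) := by
  refine sm_of fun ε hε => ?_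
  filter_upwards [eventually_dwell hκ M, eventually_unit (2 * wMax l / ε)]
    with x ⟨hr, hc, hN, hfit⟩ hNε
  set j := x.2.1
  have hN0 : 0 < unit' j := zero_lt_one.trans_le hN
  set e := ((j : ℝ) + 1) ^ 8
  set c := exStart j M
  have hcb : c ≤ e - unit' j := by
    simp only [c, e, exStart]; rw [plen] at hfit; nlinarith
  refine (vRel_bound hc hr.startsFlat hq (b := e - unit' j) (e := e) hcb le_rfl (fun t ht => ?_) e
    ⟨by linarith, le_rfl⟩).trans ?_
  · have h0 : dwTheta M j t = 0 := by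
      rw [dwTheta, plateau_zero_right hN0 (by rw [plen]; have := ht.1; simp only [e] at this; linarith),
        mul_zero]
    rw [pot_eq, h0, potNum_zero, sub_self, abs_zero]
  · rw [zero_div, add_zero, sub_sub_cancel]
    have hW : 0 ≤ wMax l := (Nat.cast_nonneg l).trans (l_le_wMax l)
    have hv : |vRel (rho κ x.1) (dwTheta M j) l q c (e - unit' j)| ≤ 2 * wMax l := by
      obtain ⟨a1, a2⟩ := wSol_mem hc hq (t := e - unit' j) hcb
      obtain ⟨b1, b2⟩ := roundW_mem hc.round l (e - unit' j)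
      rw [vRel, abs_le]; constructor <;> linarith
    refine (mul_le_mul_of_nonneg_right hv (exp_pos _).le).trans ?_
    have hd : exp (-((p₀ : ℝ) * unit' j)) ≤ 1 / unit' j := by
      rw [exp_neg, one_div]
      refine inv_anti₀ hN0 ((le_add_of_nonneg_right zero_le_one).trans
        ((add_one_le_exp _).trans (exp_le_exp.2 ?_)))
      norm_num [p₀]; linarith
    refine (mul_le_mul_of_nonneg_left hd (by linarith)).trans ?_
    rw [mul_one_div]
    exact div_le_of_le hε hN0 hNε

/-- The off-diagonal factor at the end of a dwell. -/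
lemma sm_dwellD (hκ : 0 < κ) {q' : ℕ} (hq : q ≤ l) (hq' : q' ≤ l) :
    Sm (lim dim) (ball M L T) fun x _ =>
      hDer (rho κ x.1) (dwTheta M x.2.1) l q (exStart x.2.1 M) (((x.2.1 : ℝ) + 1) ^ 8) *
        exp (vInt (rho κ x.1) (dwTheta M x.2.1) l q (exStart x.2.1 M) (((x.2.1 : ℝ) + 1) ^ 8)) *
        exp (-vInt (rho κ x.1) (dwTheta M x.2.1) l q' (exStart x.2.1 M) (((x.2.1 : ℝ) + 1) ^ 8)) := by
  refine sm_of fun ε hε => ?_
  filter_upwards [eventually_dwell hκ M, eventually_unit (1 / ε)] with x ⟨hr, hc, hN, hfit⟩ hNε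
  set j := x.2.1
  set e := ((j : ℝ) + 1) ^ 8
  set c := exStart j M
  have hN0 : 0 < unit' j := zero_lt_one.trans_le hN
  have hce : unit' j ≤ e - c := by
    simp only [c, e, exStart]; rw [plen] at hfit; nlinarith
  have hce' : c ≤ e := by linarith
  have hf := hr.startsFlat
  set u := vRel (rho κ x.1) (dwTheta M j) l q c
  set u' := vRel (rho κ x.1) (dwTheta M j) l q' c
  have i0 := (hExp_continuous hc hq c).intervalIntegrable (μ := MeasureTheory.volume) c e
  have i1 := (vRel_continuous hc hf hq c).intervalIntegrable (μ := MeasureTheory.volume) c e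
  have i2 := (vRel_continuous hc hf hq' c).intervalIntegrable (μ := MeasureTheory.volume) c e
  rw [abs_of_pos (by exact mul_pos (mul_pos (exp_pos _) (exp_pos _)) (exp_pos _)), hDer, ← exp_add,
    ← exp_add, vInt, vInt]
  have key : (p₀ : ℝ) * (e - c) ≤ (∫ t in c..e,
      (drift (rho κ x.1) t + 2 * wSol (rho κ x.1) (dwTheta M j) l q c t - u t + u' t)) := by
    have := intervalIntegral.integral_mono_on (μ := MeasureTheory.volume) hce'
      intervalIntegrable_const ((i0.sub i1).add i2) (f := fun _ => (p₀ : ℝ)) fun t ht => by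
      simp only [vRel]
      linarith [(hc.2.2.2 t).2.2.1, (wSol_mem hc hq ht.1).1, (wSol_mem hc hq' ht.1).1]
    rw [intervalIntegral.integral_const, smul_eq_mul] at this
    linarith
  rw [intervalIntegral.integral_add (i0.sub i1) i2, intervalIntegral.integral_sub i0 i1] at key
  refine (exp_le_exp.2 (show _ ≤ -((p₀ : ℝ) * unit' j) from ?_)).trans ?_
  · have := mul_le_mul_of_nonneg_left hce (Nat.cast_nonneg p₀ : (0 : ℝ) ≤ p₀)
    linarith
  · refine le_trans ?_ (div_le_of_le hε hN0 hNε)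
    rw [exp_neg, one_div]
    refine inv_anti₀ hN0 ((le_add_of_nonneg_right zero_le_one).trans
      ((add_one_le_exp _).trans (exp_le_exp.2 ?_)))
    norm_num [p₀]; linarith

include hκ hq in
/-- The state at the end of the period is tiny. -/
lemma sm_nextE :
    SmM (lim dim) (ball M L T) fun x z =>
      nextE (rho κ x.1) x.2.1 l qv R Ri z.1 (Matrix.of (x.2.2 i)) := by
  have hend := (sm_exState (T := T) hκ i qv hq R Ri M).1
  have hEt : SmM (lim dim) (ball M L T) fun x z =>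
      (1 : Matrix (Fin (dim i)) (Fin (dim i)) ℝ) *
        exEnd (rho κ x.1) x.2.1 l qv R Ri z.1 (Matrix.of (x.2.2 i)) * 1 := by
    simp only [Matrix.one_mul, Matrix.mul_one]
    exact hend
  have hB := ((bddM_diag fun a => bdd_dwellH (dim := dim) (M := M) (T := T) hκ (hq a)).mul_sm
    hEt).inv_one_add
  have hX := hEt.bdd.mul hB
  unfold nextE blockE
  refine ((bddM_const (1 : Matrix (Fin (dim i)) (Fin (dim i)) ℝ)).mul_sm
    ((smM_diag fun a => sm_dwellV hκ (hq a)).add fun a b => ?_)).mul_bdd (bddM_const 1)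
  refine ((sm_dwellD hκ (hq a) (hq b)).mul_bdd (hX a b)).congr
    (Eventually.of_forall fun x z _ => ?_)
  simp only [Matrix.mul_assoc, Matrix.diagonal_mul, Matrix.mul_diagonal, Matrix.one_mul,
    Matrix.mul_one]
  ring

include hκ hq in
/-- The transfer of a period is close to the word. -/
lemma sm_periodX :
    SmM (lim dim) (ball M L T) fun x z =>
      periodX (rho κ x.1) x.2.1 l qv R Ri z.1 (Matrix.of (x.2.2 i)) -
        segProd R Ri (fun a => genY l (qv a)) z.1 := by
  obtain ⟨h1, h2, h3⟩ := sm_exState (T := T) hκ i qv hq R Ri M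
  have hD := ((bddM_diag fun a => bdd_dwellH (dim := dim) (M := M) (T := T) hκ (hq a)).mul_sm
    h1).mul_bdd (h2.bdd.add h3)
  refine (h2.add hD).congr (Eventually.of_forall fun x z _ => ?_)
  rw [periodX, exEnd, ← segPre_eq, add_mul, one_mul, sub_add_cancel]
  abel

end Limit

open Limit in
theorem periodLimit_ok : PeriodLimitStmt := by
  intro κ L M l dim q R Ri T hκ hq _ ε hε
  apply eventually_lim (P := fun x => ∀ z w : (Fin M → ℝ) × (Fin L → ℝ), ‖z‖ ≤ T → ‖w‖ ≤ T →
    ‖periodMap (rho κ x.1) x.2.1 l q R Ri x.2.2 z -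
        wordMap dim R Ri (fun i a => genY (l i) (q i a)) z‖ ≤ ε ∧
      ‖periodMap (rho κ x.1) x.2.1 l q R Ri x.2.2 z -
          wordMap dim R Ri (fun i a => genY (l i) (q i a)) z -
        (periodMap (rho κ x.1) x.2.1 l q R Ri x.2.2 w -
          wordMap dim R Ri (fun i a => genY (l i) (q i a)) w)‖ ≤ ε * ‖z - w‖ ∧
      (∀ k, k ≤ M → ∀ i a b,
        |(exState (rho κ x.1) x.2.1 (l i) (q i) (fun k => R k i) (fun k => Ri k i) z.1
          (Matrix.of (x.2.2 i)) k).1 a b| ≤ ε) ∧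
      ‖nextState (rho κ x.1) x.2.1 l q R Ri x.2.2 z.1‖ ≤ ε)
  have hmap : ∀ i a b, Sm (lim dim) (ball M L T) fun x z =>
      periodMap (rho κ x.1) x.2.1 l q R Ri x.2.2 z i a b -
        wordMap dim R Ri (fun i a => genY (l i) (q i a)) z i a b := fun i a b => by
    refine ((bdd_snd i).neg.exp.mul_sm
      (sm_periodX (T := T) hκ i (q i) (hq i) (fun k => R k i) (fun k => Ri k i) a b)).congr
      (Eventually.of_forall fun x z _ => ?_)
    simp only [periodMap, wordMap, Matrix.sub_apply]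
    ring
  have hst : ∀ k i a b, Sm (lim dim) (ball M L T) fun x z =>
      (exState (rho κ x.1) x.2.1 (l i) (q i) (fun k => R k i) (fun k => Ri k i) z.1
          (Matrix.of (x.2.2 i)) k).1 a b := fun k i a b =>
    (sm_exState (T := T) hκ i (q i) (hq i) (fun k => R k i) (fun k => Ri k i) k).1 a b
  filter_upwards [eventually_all.2 fun i => eventually_all.2 fun a => eventually_all.2 fun b =>
      hmap i a b ε hε,
    eventually_all.2 fun k : Fin (M + 1) => eventually_all.2 fun i => eventually_all.2 fun a =>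
      eventually_all.2 fun b => hst k i a b ε hε,
    eventually_all.2 fun i => eventually_all.2 fun a => eventually_all.2 fun b =>
      sm_nextE (T := T) hκ i (q i) (hq i) (fun k => R k i) (fun k => Ri k i) a b ε hε]
    with x h1 h2 h3 z w hz hw
  have hε' : 0 ≤ ε * ‖z - w‖ := by positivity
  refine ⟨?_, ?_, fun k hk i a b => (h2 ⟨k, Nat.lt_succ_of_le hk⟩ i a b).1 z hz, ?_⟩
  all_goals
    simp only [pi_norm_le_iff_of_nonneg hε.le, pi_norm_le_iff_of_nonneg hε', norm_eq_abs, Pi.sub_apply]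
    intro i a b
  · exact (h1 i a b).1 z hz
  · exact (h1 i a b).2 z hz w hw
  · exact (h3 i a b).1 z hz

end

end Vale.Agent.P225
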