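import Vale.Agent.P225.Interfaces
import Vale.Agent.P225.Analysis.Excursion

/-!
# P225: the exact transfers over one period

On a block starting at `c` with structure matrices `R`, `Ri` and state `E = W(c) - w₀(c)` the
transfer is `R G (1 + H Ẽ) Ri`, `Ẽ = Ri E R`, and the new state is `blockE`.
-/

namespace Vale.Agent.P225

open Real

noncomputable section

/-- The profile of a dwell. -/
def dwTheta (M j : ℕ) (t : ℝ) : ℝ := thetaStar * plateau M j (t - (j : ℝ) ^ 8)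

/-- The start of the excursion `k` of period `j`; for `k = M` the start of the dwell. -/
def exStart (j : ℕ) (k : ℕ) : ℝ := (j : ℝ) ^ 8 + 3 * (k : ℝ) * unit' j

/-- The round fundamental solution. -/
def roundG (ρ : ℝ → ℝ) (l : ℕ) (c t : ℝ) : ℝ := exp (∫ x in c..t, roundW ρ l x)

variable {d : ℕ}

/-- The relative transfer of a block. -/
def blockX (ρ θ : ℝ → ℝ) (l : ℕ) (q : Fin d → ℕ) (R Ri E : Matrix (Fin d) (Fin d) ℝ) (c t : ℝ) :
    Matrix (Fin d) (Fin d) ℝ :=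
  R * (Matrix.diagonal (fun a => exp (vInt ρ θ l (q a) c t)) *
    (1 + Matrix.diagonal (fun a => hFun ρ θ l (q a) c t) * (Ri * E * R))) * Ri

/-- The transfer of a block. -/
def blockT (ρ θ : ℝ → ℝ) (l : ℕ) (q : Fin d → ℕ) (R Ri E : Matrix (Fin d) (Fin d) ℝ) (c t : ℝ) :
    Matrix (Fin d) (Fin d) ℝ :=
  R * (Matrix.diagonal (fun a => gFun ρ θ l (q a) c t) *
    (1 + Matrix.diagonal (fun a => hFun ρ θ l (q a) c t) * (Ri * E * R))) * Ri

/-- The state at the end of a block. -/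
def blockE (ρ θ : ℝ → ℝ) (l : ℕ) (q : Fin d → ℕ) (R Ri E : Matrix (Fin d) (Fin d) ℝ) (c t : ℝ) :
    Matrix (Fin d) (Fin d) ℝ :=
  R * (Matrix.diagonal (fun a => vRel ρ θ l (q a) c t) +
    Matrix.diagonal (fun a => hDer ρ θ l (q a) c t * exp (vInt ρ θ l (q a) c t)) * (Ri * E * R) *
      (1 + Matrix.diagonal (fun a => hFun ρ θ l (q a) c t) * (Ri * E * R))⁻¹ *
        Matrix.diagonal (fun a => exp (-vInt ρ θ l (q a) c t))) * Ri

variable {M : ℕ}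

/-- State and relative transfer after `k` excursions of period `j`. -/
def exState (ρ : ℝ → ℝ) (j l : ℕ) (q : Fin d → ℕ) (R Ri : Fin M → Matrix (Fin d) (Fin d) ℝ)
    (τ : Fin M → ℝ) (E : Matrix (Fin d) (Fin d) ℝ) :
    ℕ → Matrix (Fin d) (Fin d) ℝ × Matrix (Fin d) (Fin d) ℝ
  | 0 => (E, 1)
  | k + 1 =>
    if h : k < M then
      (blockE ρ (exTheta (unit' j) (exStart j k) (τ ⟨k, h⟩)) l q (R ⟨k, h⟩) (Ri ⟨k, h⟩)
          (exState ρ j l q R Ri τ E k).1 (exStart j k) (exStart j k + 3 * unit' j),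
        blockX ρ (exTheta (unit' j) (exStart j k) (τ ⟨k, h⟩)) l q (R ⟨k, h⟩) (Ri ⟨k, h⟩)
            (exState ρ j l q R Ri τ E k).1 (exStart j k) (exStart j k + 3 * unit' j) *
          (exState ρ j l q R Ri τ E k).2)
    else exState ρ j l q R Ri τ E k

/-- The state at the end of the excursions. -/
def exEnd (ρ : ℝ → ℝ) (j l : ℕ) (q : Fin d → ℕ) (R Ri : Fin M → Matrix (Fin d) (Fin d) ℝ)
    (τ : Fin M → ℝ) (E : Matrix (Fin d) (Fin d) ℝ) : Matrix (Fin d) (Fin d) ℝ :=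
  (exState ρ j l q R Ri τ E M).1

/-- What must equal the signed permutation, before the scalar. -/
def periodX (ρ : ℝ → ℝ) (j l : ℕ) (q : Fin d → ℕ) (R Ri : Fin M → Matrix (Fin d) (Fin d) ℝ)
    (τ : Fin M → ℝ) (E : Matrix (Fin d) (Fin d) ℝ) : Matrix (Fin d) (Fin d) ℝ :=
  (1 + Matrix.diagonal
      (fun a => hFun ρ (dwTheta M j) l (q a) (exStart j M) (((j : ℝ) + 1) ^ 8)) *
      exEnd ρ j l q R Ri τ E) *
    (exState ρ j l q R Ri τ E M).2

/-- The state at the end of the period. -/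
def nextE (ρ : ℝ → ℝ) (j l : ℕ) (q : Fin d → ℕ) (R Ri : Fin M → Matrix (Fin d) (Fin d) ℝ)
    (τ : Fin M → ℝ) (E : Matrix (Fin d) (Fin d) ℝ) : Matrix (Fin d) (Fin d) ℝ :=
  blockE ρ (dwTheta M j) l q 1 1 (exEnd ρ j l q R Ri τ E) (exStart j M) (((j : ℝ) + 1) ^ 8)

variable {L : ℕ} {dim : Fin L → ℕ}

/-- The states of all levels. -/
abbrev State (dim : Fin L → ℕ) := (i : Fin L) → Fin (dim i) → Fin (dim i) → ℝ

/-- The equation map of period `j`; the analogue of `wordMap`. -/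
def periodMap (ρ : ℝ → ℝ) (j : ℕ) (l : Fin L → ℕ) (q : (i : Fin L) → Fin (dim i) → ℕ)
    (R Ri : Fin M → (i : Fin L) → Matrix (Fin (dim i)) (Fin (dim i)) ℝ) (E : State dim)
    (z : (Fin M → ℝ) × (Fin L → ℝ)) : State dim :=
  fun i a b => exp (-z.2 i) *
    periodX ρ j (l i) (q i) (fun k => R k i) (fun k => Ri k i) z.1 (Matrix.of (E i)) a b

/-- All the states at the end of period `j`. -/
def nextState (ρ : ℝ → ℝ) (j : ℕ) (l : Fin L → ℕ) (q : (i : Fin L) → Fin (dim i) → ℕ)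
    (R Ri : Fin M → (i : Fin L) → Matrix (Fin (dim i)) (Fin (dim i)) ℝ) (E : State dim)
    (τ : Fin M → ℝ) : State dim :=
  fun i a b => nextE ρ j (l i) (q i) (fun k => R k i) (fun k => Ri k i) τ (Matrix.of (E i)) a b

/-- One step of the recursion: the equation is solved and the state is passed on. -/
def IsStep (ρ : ℝ → ℝ) (j : ℕ) (l : Fin L → ℕ) (q : (i : Fin L) → Fin (dim i) → ℕ)
    (R Ri : Fin M → (i : Fin L) → Matrix (Fin (dim i)) (Fin (dim i)) ℝ)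
    (target : State dim) (E : State dim) (z : (Fin M → ℝ) × (Fin L → ℝ)) (E' : State dim) : Prop :=
  periodMap ρ j l q R Ri E z = target ∧ E' = nextState ρ j l q R Ri E z.1

/-- The period maps converge to the word map, in Lipschitz norm, uniformly in small states. -/
def PeriodLimitStmt : Prop :=
  ∀ (κ : ℝ) (L M : ℕ) (l : Fin L → ℕ) (dim : Fin L → ℕ) (q : (i : Fin L) → Fin (dim i) → ℕ)
    (R Ri : Fin M → (i : Fin L) → Matrix (Fin (dim i)) (Fin (dim i)) ℝ) (T : ℝ),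
    0 < κ → (∀ i a, q i a ≤ l i) → (∀ k i, R k i * Ri k i = 1 ∧ Ri k i * R k i = 1) →
    ∀ ε > 0, ∃ δ > 0, ∀ᶠ j₀ : ℕ in Filter.atTop, ∀ j, j₀ ≤ j → ∀ E : State dim, ‖E‖ ≤ δ →
      ∀ z w : (Fin M → ℝ) × (Fin L → ℝ), ‖z‖ ≤ T → ‖w‖ ≤ T →
        ‖periodMap (rho κ j₀) j l q R Ri E z -
            wordMap dim R Ri (fun i a => genY (l i) (q i a)) z‖ ≤ ε ∧
          ‖periodMap (rho κ j₀) j l q R Ri E z -
              wordMap dim R Ri (fun i a => genY (l i) (q i a)) z -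
            (periodMap (rho κ j₀) j l q R Ri E w -
              wordMap dim R Ri (fun i a => genY (l i) (q i a)) w)‖ ≤ ε * ‖z - w‖ ∧
          (∀ k, k ≤ M → ∀ i a b,
            |(exState (rho κ j₀) j (l i) (q i) (fun k => R k i) (fun k => Ri k i) z.1
              (Matrix.of (E i)) k).1 a b| ≤ ε) ∧
          ‖nextState (rho κ j₀) j l q R Ri E z.1‖ ≤ ε

/-- From steps to a smooth solution of the radial system, with its values at the checkpoints and a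
bound inside the periods. -/
def GlueStmt : Prop :=
  ∀ (κ : ℝ) (M : ℕ) (T : ℝ) (l d : ℕ) (q : Fin d → ℕ)
    (R Ri : Fin M → Matrix (Fin d) (Fin d) ℝ) (j₀ : ℕ) (τ : ℕ → Fin M → ℝ)
    (E : ℕ → Matrix (Fin d) (Fin d) ℝ) (v : Fin d → ℝ),
    RhoOK κ j₀ → 3 * M + 4 ≤ j₀ → (∀ j k, |τ j k| ≤ T) →
    CoefOK (rho κ j₀) (theta M j₀ τ) → (∀ a, q a ≤ l) →
    (∀ k, R k * Ri k = 1 ∧ Ri k * R k = 1) → E j₀ = 0 →
    (∀ j, j₀ ≤ j → E (j + 1) = nextE (rho κ j₀) j l q R Ri (τ j) (E j) ∧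
      (∀ k, k ≤ M → ∀ a b, |(exState (rho κ j₀) j l q R Ri (τ j) (E j) k).1 a b| ≤ 1) ∧
      (∀ k, ∀ h : k < M, ∀ a b, (d : ℝ) *
        |(Ri ⟨k, h⟩ * (exState (rho κ j₀) j l q R Ri (τ j) (E j) k).1 * R ⟨k, h⟩) a b| < 1) ∧
      (∀ a b, (d : ℝ) * |exEnd (rho κ j₀) j l q R Ri (τ j) (E j) a b| < 1)) →
    ∃ Y : ℝ → Fin d → ℝ, ContDiff ℝ (⊤ : ℕ∞) Y ∧ (∀ s ≤ 0, Y s = exp (l * s) • v) ∧
      (∀ s, deriv (deriv Y) s + drift (rho κ j₀) s • deriv Y s =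
        (potMat (rho κ j₀) (theta M j₀ τ) (segment M j₀) l q R Ri s).mulVec (Y s)) ∧
      Y ((j₀ : ℝ) ^ 8) = roundG (rho κ j₀) l 0 ((j₀ : ℝ) ^ 8) • v ∧
      (∀ j, j₀ ≤ j → Y (((j : ℝ) + 1) ^ 8) =
        (roundG (rho κ j₀) l ((j : ℝ) ^ 8) (exStart j M) •
          (Matrix.diagonal
              (fun a => gFun (rho κ j₀) (dwTheta M j) l (q a) (exStart j M) (((j : ℝ) + 1) ^ 8)) *
            periodX (rho κ j₀) j l q R Ri (τ j) (E j))).mulVec (Y ((j : ℝ) ^ 8))) ∧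
      ∃ C : ℝ, ∀ j, j₀ ≤ j → ∀ s, (j : ℝ) ^ 8 ≤ s → s < ((j : ℝ) + 1) ^ 8 →
        ∑ a, |Y s a| ≤ exp (C * ((j : ℝ) + 1) ^ 7) * ∑ a, |Y ((j : ℝ) ^ 8) a|

end

end Vale.Agent.P225
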