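import Vale.Agent.P225.Analysis.Setup

/-!
# P225: the solution of the round Riccati equation and the solutions started from it
-/

namespace Vale.Agent.P225

open Filter Topology Real Set

noncomputable section

/-- The constant profile `θ = 0`. -/
def noTheta : ℝ → ℝ := fun _ => 0

/-- The regular round solution: equal to `l` for `s ≤ 0`. -/
def roundW (ρ : ℝ → ℝ) (l : ℕ) (s : ℝ) : ℝ :=
  if s ≤ 0 then (l : ℝ) else ricSol (wMax l) (drift ρ) (pot ρ noTheta l 0) 0 l s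

/-- The limit exponent at the round point. -/
def alphaInf (l : ℕ) : ℝ := √((p₀ : ℝ) ^ 2 + lam l / rhoInf ^ 2) - p₀

/-- The solution of eigenvalue `q` started at `c` from the round one. -/
def wSol (ρ θ : ℝ → ℝ) (l q : ℕ) (c : ℝ) : ℝ → ℝ :=
  ricSol (wMax l) (drift ρ) (pot ρ θ l q) c (roundW ρ l c)

/-- Its difference to the round one. -/
def vRel (ρ θ : ℝ → ℝ) (l q : ℕ) (c t : ℝ) : ℝ := wSol ρ θ l q c t - roundW ρ l t

/-- Profiles equal to the flat ones for `s ≤ 0`. -/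
def StartsFlat (ρ : ℝ → ℝ) : Prop := ∀ s ≤ 0, ρ s = 1 ∧ drift ρ s = 2 * p₀

lemma RhoOK.startsFlat {κ : ℝ} {j₀ : ℕ} (h : RhoOK κ j₀) : StartsFlat (rho κ j₀) := fun s hs => by
  refine ⟨h.rho_nonpos hs, ?_⟩
  have hd : HasDerivAt (rho κ j₀) (deriv (rho κ j₀) s) s :=
    (h.contDiff.differentiable (by simp) s).hasDerivAt
  have h1 : HasDerivWithinAt (rho κ j₀) 0 (Set.Iic s) s :=
    (hasDerivWithinAt_const s (Set.Iic s) (1 : ℝ)).congr
      (fun t ht => h.rho_nonpos (le_trans ht hs)) (h.rho_nonpos hs)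
  rw [drift, (uniqueDiffWithinAt_Iic s).eq_deriv _ hd.hasDerivWithinAt h1]
  simp

variable {ρ θ θ' : ℝ → ℝ} {l q : ℕ}

lemma CoefOK.round (h : CoefOK ρ θ) : CoefOK ρ noTheta :=
  ⟨h.1, continuous_const, h.2.2.1, fun s => ⟨(h.2.2.2 s).1, by simp [noTheta], (h.2.2.2 s).2.2⟩⟩

lemma pot_noTheta (ρ : ℝ → ℝ) (l q : ℕ) (s : ℝ) : pot ρ noTheta l q s = lam l / ρ s ^ 2 := by
  rw [pot_eq, show noTheta s = 0 from rfl, potNum_zero]

lemma l_le_wMax (l : ℕ) : (l : ℝ) ≤ wMax l := by rw [wMax]; linarith [Nat.cast_nonneg (α := ℝ) l]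

lemma roundW_mem (h : CoefOK ρ noTheta) (l : ℕ) (s : ℝ) :
    0 ≤ roundW ρ l s ∧ roundW ρ l s ≤ wMax l := by
  rw [roundW]; split_ifs with hs
  · exact ⟨Nat.cast_nonneg l, l_le_wMax l⟩
  · exact (h.ricData (Nat.zero_le l)).sol_mem (Nat.cast_nonneg l) (l_le_wMax l) (not_le.1 hs).le

lemma roundW_deriv (h : CoefOK ρ noTheta) (hf : StartsFlat ρ) (l : ℕ) (s : ℝ) :
    HasDerivAt (roundW ρ l) (lam l / ρ s ^ 2 - drift ρ s * roundW ρ l s - roundW ρ l s ^ 2) s := by
  have hR := h.ricData (Nat.zero_le l)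
  set w := ricSol (wMax l) (drift ρ) (pot ρ noTheta l 0) 0 (l : ℝ) with hw
  have hz : ∀ t ≤ 0, lam l / ρ t ^ 2 - drift ρ t * (l : ℝ) - (l : ℝ) ^ 2 = 0 := fun t ht => by
    rw [(hf t ht).1, (hf t ht).2, lam]; ring
  rcases lt_trichotomy s 0 with hs | rfl | hs
  · have e : roundW ρ l =ᶠ[𝓝 s] fun _ => (l : ℝ) := by
      filter_upwards [eventually_lt_nhds hs] with t ht using if_pos ht.le
    rw [e.eq_of_nhds, hz s hs.le]
    exact (hasDerivAt_const s (l : ℝ)).congr_of_eventuallyEq e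
  · have e0 : roundW ρ l 0 = (l : ℝ) := if_pos le_rfl
    rw [e0, hz 0 le_rfl, ← hasDerivWithinAt_univ, ← Iic_union_Ici (a := (0 : ℝ))]
    refine HasDerivWithinAt.union ((hasDerivWithinAt_const _ _ (l : ℝ)).congr
      (fun t ht => if_pos ht) e0) ?_
    have hd := hR.sol_deriv (Nat.cast_nonneg l) (l_le_wMax l) (c := 0) le_rfl
    rw [hR.sol_init, pot_noTheta, hz 0 le_rfl] at hd
    refine hd.hasDerivWithinAt.congr (fun t ht => ?_) (by rw [e0, hR.sol_init])
    rcases (mem_Ici.1 ht).lt_or_eq with ht' | ht'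
    · exact if_neg (not_le.2 ht')
    · rw [← ht', e0, hR.sol_init]
  · have e : roundW ρ l =ᶠ[𝓝 s] w := by
      filter_upwards [eventually_gt_nhds hs] with t ht using if_neg (not_le.2 ht)
    rw [e.eq_of_nhds]
    have hd := hR.sol_deriv (Nat.cast_nonneg l) (l_le_wMax l) (c := 0) hs.le
    rw [pot_noTheta] at hd
    exact hd.congr_of_eventuallyEq e

lemma roundW_continuous (h : CoefOK ρ noTheta) (hf : StartsFlat ρ) (l : ℕ) :
    Continuous (roundW ρ l) :=
  continuous_iff_continuousAt.2 fun s => (roundW_deriv h hf l s).continuousAt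

lemma alphaInf_nonneg (l : ℕ) : 0 ≤ alphaInf l := by
  have h : (p₀ : ℝ) ≤ √((p₀ : ℝ) ^ 2 + lam l / rhoInf ^ 2) :=
    le_sqrt_of_sq_le (le_add_of_nonneg_right (div_nonneg (lam_nonneg l) (sq_nonneg _)))
  rw [alphaInf]; linarith

lemma alphaInf_eq (l : ℕ) : alphaInf l ^ 2 + 2 * p₀ * alphaInf l = lam l / rhoInf ^ 2 := by
  have := sq_sqrt (show 0 ≤ (p₀ : ℝ) ^ 2 + lam l / rhoInf ^ 2 from
    add_nonneg (sq_nonneg _) (div_nonneg (lam_nonneg l) (sq_nonneg _)))
  rw [alphaInf]; nlinarith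

/-- On the tail the round solution is close to its limit. -/
lemma roundW_tail (h : CoefOK ρ noTheta) (hf : StartsFlat ρ) (l : ℕ) {a η : ℝ}
    (hη : 0 ≤ η) (hρ : ∀ s, a ≤ s → |ρ s - rhoInf| ≤ η ∧ |drift ρ s - 2 * p₀| ≤ η) {s : ℝ}
    (hs : a ≤ s) :
    |roundW ρ l s - alphaInf l| ≤
      (wMax l + alphaInf l) * exp (-((p₀ : ℝ) * (s - a))) +
        (3 * lam l + alphaInf l) * η / p₀ := by
  have ha := alphaInf_nonneg l
  have hl := lam_nonneg l
  have key := linear_abs (f := fun t => roundW ρ l t - alphaInf l)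
    (r := fun t => lam l / ρ t ^ 2 - lam l / rhoInf ^ 2 + (2 * p₀ - drift ρ t) * alphaInf l)
    (a := fun t => drift ρ t + roundW ρ l t + alphaInf l) (p := (p₀ : ℝ))
    (R := (3 * lam l + alphaInf l) * η) (c := a) (e := s) (by norm_num [p₀])
    (by positivity) ((roundW_continuous h hf l).sub continuous_const).continuousOn
    (fun t _ => ((roundW_deriv h hf l t).sub_const _).congr_deriv
      (by have := alphaInf_eq l; linear_combination -this))
    (fun t _ => by linarith [(h.2.2.2 t).2.2.1, (roundW_mem h l t).1])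
    (fun t ht => ?_) s ⟨hs, le_rfl⟩
  · refine key.trans (add_le_add (mul_le_mul_of_nonneg_right ?_ (exp_pos _).le) le_rfl)
    rw [abs_le]
    constructor <;> linarith [(roundW_mem h l a).1, (roundW_mem h l a).2,
      (show 0 ≤ wMax l from (Nat.cast_nonneg l).trans (l_le_wMax l))]
  · obtain ⟨h1, h2⟩ := hρ t ht.1.le
    have hρ0 := rhoInf_le_rho h t
    have hsq : 99 / 100 ≤ ρ t ^ 2 :=
      half_le_rhoInf_sq.trans (pow_le_pow_left₀ rhoInf_pos.le hρ0 2)
    have hge := rhoInf_ge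
    have hlt := rhoInf_lt_one
    have hρpos : 0 < ρ t := by linarith
    have e1 : |lam l / ρ t ^ 2 - lam l / rhoInf ^ 2| ≤ 3 * lam l * η := by
      have e : lam l / ρ t ^ 2 - lam l / rhoInf ^ 2 =
          -(lam l * (ρ t - rhoInf)) * ((1 / (ρ t * rhoInf ^ 2)) + 1 / (ρ t ^ 2 * rhoInf)) := by
        have := rhoInf_pos.ne'
        field_simp; ring
      have b1 : 1 / (ρ t * rhoInf ^ 2) ≤ 3 / 2 := by
        rw [div_le_iff₀ (by positivity)]; nlinarith [half_le_rhoInf_sq]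
      have b2 : 1 / (ρ t ^ 2 * rhoInf) ≤ 3 / 2 := by
        rw [div_le_iff₀ (by positivity)]; nlinarith
      have hB : (0 : ℝ) ≤ 1 / (ρ t * rhoInf ^ 2) + 1 / (ρ t ^ 2 * rhoInf) := by positivity
      rw [e, abs_mul, abs_neg, abs_mul, abs_of_nonneg hl, abs_of_nonneg hB]
      have a1 := mul_le_mul_of_nonneg_left h1 hl
      have a2 := mul_le_mul a1 (add_le_add b1 b2) hB (mul_nonneg hl hη)
      linarith
    refine (abs_add_le _ _).trans ?_
    have e2 : |(2 * (p₀ : ℝ) - drift ρ t) * alphaInf l| ≤ alphaInf l * η := by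
      rw [abs_mul, abs_of_nonneg ha, abs_sub_comm, mul_comm]
      exact mul_le_mul_of_nonneg_left h2 ha
    linarith
where
  rhoInf_le_rho {ρ : ℝ → ℝ} (h : CoefOK ρ noTheta) (t : ℝ) : rhoInf ≤ ρ t := (h.2.2.2 t).1

end

end Vale.Agent.P225
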