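import Vale.Agent.P225.Analysis.Coef

/-!
# P225: the coefficient conditions hold for large `j₀`
-/

namespace Vale.Agent.P225

open Filter Topology Real Set

noncomputable section

variable {κ : ℝ} {M j₀ : ℕ}

lemma theta_small {T : ℝ} (hM : 3 * M + 4 ≤ j₀) {τ : ℕ → Fin M → ℝ} (hτ : ∀ j k, |τ j k| ≤ T)
    {Cb : ℝ} (hCb : ∀ x, bump x ≤ Cb) (s : ℝ) :
    |theta M j₀ τ s| ≤ (M : ℝ) * (|T| * Cb) / (j₀ : ℝ) ^ 6 + thetaStar := by
  have hCb0 : 0 ≤ Cb := (bump_nonneg 0).trans (hCb 0)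
  have h0 : 0 ≤ (M : ℝ) * (|T| * Cb) / (j₀ : ℝ) ^ 6 + thetaStar := by
    have := thetaStar_pos; positivity
  rcases theta_eventually hM τ s with h | ⟨j, hj, _, _, h⟩
  · rw [h.eq_of_nhds]; simpa using h0
  · rw [h.eq_of_nhds, thetaPiece_eq]
    refine (abs_add_le _ _).trans (add_le_add ?_ ?_)
    · refine (Finset.abs_sum_le_sum_abs _ _).trans ?_
      have hN : 0 < unit' j := unit_pos (by omega)
      have hNle : (j₀ : ℝ) ^ 6 ≤ unit' j := by rw [unit']; gcongr
      have hj0 : (0 : ℝ) < (j₀ : ℝ) ^ 6 := by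
        have : (1 : ℝ) ≤ j₀ := by exact_mod_cast (show 1 ≤ j₀ by omega)
        positivity
      have : ∀ i : Fin M, |τ j i / unit' j *
          bump ((s - (j : ℝ) ^ 8 - (3 * (i : ℝ) + 1) * unit' j) / unit' j)| ≤
          |T| * Cb / (j₀ : ℝ) ^ 6 := fun i => by
        rw [abs_mul, abs_div, abs_of_pos hN, abs_of_nonneg (bump_nonneg _), div_mul_eq_mul_div]
        exact div_le_div₀ (by positivity)
          (mul_le_mul ((hτ j i).trans (le_abs_self T)) (hCb _) (bump_nonneg _) (abs_nonneg _))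
          hj0 hNle
      refine (Finset.sum_le_sum fun i _ => this i).trans ?_
      rw [Finset.sum_const, Finset.card_univ, Fintype.card_fin, nsmul_eq_mul]
      exact le_of_eq (by ring)
    · rw [abs_mul, abs_of_pos thetaStar_pos, abs_of_nonneg (plateau_mem _).1]
      exact mul_le_of_le_one_right thetaStar_pos.le (plateau_mem _).2

lemma one_sub_rhoInf_le : 1 - rhoInf ≤ 1 / 100 := by linarith [rhoInf_ge]

lemma RhoOK.capCoef_le (h : RhoOK κ j₀) : capCoef κ j₀ ≤ 1 / 100 := by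
  have : 0 ≤ κ * (cap 2 / √((j₀ : ℝ) ^ 8)) :=
    mul_nonneg h.1.le (div_nonneg cap_two_pos.le (sqrt_nonneg _))
  have := one_sub_rhoInf_le
  unfold capCoef; linarith

/-- The derivative of `rho` is small everywhere. -/
lemma RhoOK.abs_deriv_small (h : RhoOK κ j₀) (s : ℝ) :
    |deriv (rho κ j₀) s| ≤ 8 * κ / (j₀ : ℝ) ^ 8 + 2 / 100 := by
  have hκ := h.1
  have h0 : 0 ≤ 8 * κ / (j₀ : ℝ) ^ 8 + 2 / 100 := by positivity
  rw [abs_of_nonpos (h.deriv_nonpos s)]
  rcases lt_trichotomy s 0 with hs | rfl | hs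
  · have : rho κ j₀ =ᶠ[𝓝 s] fun _ => 1 := by
      filter_upwards [eventually_lt_nhds hs] with t ht using h.rho_nonpos ht.le
    simpa [this.deriv_eq] using h0
  · have hd : HasDerivAt (rho κ j₀) (deriv (rho κ j₀) 0) 0 :=
      (h.contDiff.differentiable (by simp) 0).hasDerivAt
    have h1 : HasDerivWithinAt (rho κ j₀) 0 (Set.Iic 0) 0 :=
      (hasDerivWithinAt_const (0 : ℝ) (Set.Iic 0) (1 : ℝ)).congr
        (fun t ht => h.rho_nonpos ht) (h.rho_nonpos le_rfl)
    rw [(uniqueDiffWithinAt_Iic 0).eq_deriv _ hd.hasDerivWithinAt h1]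
    simpa using h0
  · rw [(h.hasDerivAt hs).deriv]
    have h1 : κ * (capD (√((j₀ : ℝ) ^ 8) / √s) / (2 * s * √s)) ≤ 8 * κ / (j₀ : ℝ) ^ 8 := by
      rcases lt_or_ge s ((j₀ : ℝ) ^ 8 / 4) with h4 | h4
      · rw [capD_of_two_le, zero_div, mul_zero]
        · positivity
        · rw [le_div_iff₀ (sqrt_pos.2 hs), ← sqrt_sq (show (0 : ℝ) ≤ 2 by norm_num),
            ← sqrt_mul (by norm_num)]
          exact sqrt_le_sqrt (by linarith)
      · have hj : (2 : ℝ) ≤ j₀ := by exact_mod_cast h.2.1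
        have h8 : (256 : ℝ) ≤ (j₀ : ℝ) ^ 8 :=
          le_trans (by norm_num) (pow_le_pow_left₀ (by norm_num) hj 8)
        have hs1 : 1 ≤ √s := by rw [one_le_sqrt]; linarith
        have hden : (j₀ : ℝ) ^ 8 / 2 ≤ 2 * s * √s := by nlinarith
        calc κ * (capD (√((j₀ : ℝ) ^ 8) / √s) / (2 * s * √s))
            ≤ κ * (1 / ((j₀ : ℝ) ^ 8 / 2)) :=
              mul_le_mul_of_nonneg_left
                (div_le_div₀ zero_le_one (capD_le_one _) (by positivity) hden) hκ.le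
          _ ≤ 8 * κ / (j₀ : ℝ) ^ 8 := by
              rw [one_div_div, mul_div]; gcongr ?_ / _; linarith
    have h2 : capCoef κ j₀ * (capD (2 * exp (-s)) * (2 * exp (-s)) / cap 2) ≤ 2 / 100 := by
      have he : exp (-s) ≤ 1 := exp_le_one_iff.2 (by linarith)
      have a : capD (2 * exp (-s)) * (2 * exp (-s)) / cap 2 ≤ 2 := by
        rw [div_le_iff₀ cap_two_pos]
        nlinarith [capD_le_one (2 * exp (-s)), capD_nonneg (2 * exp (-s)), exp_pos (-s),
          one_le_cap_two]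
      have := mul_le_mul h.capCoef_le a
        (div_nonneg (mul_nonneg (capD_nonneg _) (by positivity)) cap_two_pos.le) (by norm_num)
      linarith
    rw [neg_div, mul_neg, mul_neg]; linarith

lemma RhoOK.contDiff_deriv (h : RhoOK κ j₀) : Continuous (deriv (rho κ j₀)) :=
  h.contDiff.continuous_deriv (by simp)

lemma RhoOK.drift_eq (s : ℝ) :
    drift (rho κ j₀) s = 28 + 29 * deriv (rho κ j₀) s / rho κ j₀ s := by
  norm_num [drift, p₀]

lemma eventually_coefOK (hκ : 0 < κ) (M : ℕ) (T : ℝ) :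
    ∀ᶠ j₀ : ℕ in atTop, RhoOK κ j₀ ∧ 3 * M + 4 ≤ j₀ ∧
      ∀ τ : ℕ → Fin M → ℝ, (∀ j k, |τ j k| ≤ T) → CoefOK (rho κ j₀) (theta M j₀ τ) := by
  obtain ⟨Cb, -, hCb⟩ := bump_bounded
  have hp : ∀ i : ℕ, i ≠ 0 → Tendsto (fun j : ℕ => ((j : ℝ) ^ i)) atTop atTop := fun i hi =>
    (tendsto_pow_atTop hi).comp tendsto_natCast_atTop_atTop
  have h1 : Tendsto (fun j : ℕ => (M : ℝ) * (|T| * Cb) / (j : ℝ) ^ 6) atTop (𝓝 0) :=
    (hp 6 (by norm_num)).const_div_atTop _
  have h2 : Tendsto (fun j : ℕ => 8 * κ / (j : ℝ) ^ 8) atTop (𝓝 0) :=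
    (hp 8 (by norm_num)).const_div_atTop _
  filter_upwards [eventually_rhoOK hκ, eventually_ge_atTop (3 * M + 4),
    h1.eventually (eventually_lt_nhds (show (0 : ℝ) < 1 / 200 by norm_num)),
    h2.eventually (eventually_lt_nhds (show (0 : ℝ) < 1 / 100 by norm_num))] with j hr hM ha hb
  refine ⟨hr, hM, fun τ hτ => ⟨hr.contDiff.continuous, (contDiff_theta hM τ).continuous, ?_,
    fun s => ⟨hr.rhoInf_le s, ?_, ?_, ?_⟩⟩⟩
  · rw [show drift (rho κ j) = fun s => 28 + 29 * deriv (rho κ j) s / rho κ j s from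
      funext RhoOK.drift_eq]
    exact continuous_const.add ((continuous_const.mul hr.contDiff_deriv).div
      hr.contDiff.continuous fun s => (hr.rho_pos s).ne')
  · have := theta_small hM hτ hCb s
    have := thetaStar_le
    linarith
  · rw [RhoOK.drift_eq]
    have hd := hr.abs_deriv_small s
    have hρ : 99 / 100 ≤ rho κ j s := rhoInf_ge.trans (hr.rhoInf_le s)
    have : -(29 * (3 / 100) / (99 / 100)) ≤ 29 * deriv (rho κ j) s / rho κ j s := by
      rw [le_div_iff₀ (by linarith)]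
      nlinarith [(abs_le.1 hd).1]
    norm_num [p₀] at *; linarith
  · rw [RhoOK.drift_eq]
    have : 29 * deriv (rho κ j) s / rho κ j s ≤ 0 :=
      div_nonpos_of_nonpos_of_nonneg (by linarith [hr.deriv_nonpos s]) (hr.rho_pos s).le
    norm_num [p₀]; linarith

/-- On the tail `rho` and the drift are close to their limits. -/
lemma eventually_tail (hκ : 0 < κ) {η : ℝ} (hη : 0 < η) :
    ∀ᶠ j₀ : ℕ in atTop, RhoOK κ j₀ → ∀ s : ℝ, (j₀ : ℝ) ^ 8 / 2 ≤ s →
      |rho κ j₀ s - rhoInf| ≤ η ∧ |drift (rho κ j₀) s - 2 * p₀| ≤ η := by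
  have hp : ∀ i : ℕ, i ≠ 0 → Tendsto (fun j : ℕ => ((j : ℝ) ^ i)) atTop atTop := fun i hi =>
    (tendsto_pow_atTop hi).comp tendsto_natCast_atTop_atTop
  have he : Tendsto (fun j : ℕ => exp (-((j : ℝ) ^ 8 / 2))) atTop (𝓝 0) :=
    tendsto_exp_neg_atTop_nhds_zero.comp ((hp 8 (by norm_num)).atTop_div_const two_pos)
  have h1 : Tendsto (fun j : ℕ => 2 * κ / (j : ℝ) ^ 4 + 2 * exp (-((j : ℝ) ^ 8 / 2))) atTop (𝓝 0) := by
    simpa using ((hp 4 (by norm_num)).const_div_atTop _).add (he.const_mul 2)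
  have h2 : Tendsto (fun j : ℕ => 30 * (4 * κ / (j : ℝ) ^ 8 + 2 * exp (-((j : ℝ) ^ 8 / 2))))
      atTop (𝓝 0) := by
    simpa using (((hp 8 (by norm_num)).const_div_atTop _).add (he.const_mul 2)).const_mul 30
  filter_upwards [h1.eventually (eventually_lt_nhds hη), h2.eventually (eventually_lt_nhds hη),
    eventually_ge_atTop 2] with j a b hj2 hr s hs
  have hj : (2 : ℝ) ≤ j := by exact_mod_cast hj2
  have h8 : (256 : ℝ) ≤ (j : ℝ) ^ 8 := le_trans (by norm_num) (pow_le_pow_left₀ (by norm_num) hj 8)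
  have hes : exp (-s) ≤ exp (-((j : ℝ) ^ 8 / 2)) := exp_le_exp.2 (by linarith)
  refine ⟨?_, ?_⟩
  · rw [abs_of_nonneg (by linarith [hr.rhoInf_le s])]
    linarith [hr.rho_sub_le s]
  · rw [RhoOK.drift_eq, show (2 : ℝ) * p₀ = 28 by norm_num [p₀]]
    have hd := hr.abs_deriv_le (show 0 < s by linarith)
    have hρ : 99 / 100 ≤ rho κ j s := rhoInf_ge.trans (hr.rhoInf_le s)
    have hq : κ / (s * √s) ≤ 4 * κ / (j : ℝ) ^ 8 := by
      have hs1 : 1 ≤ √s := by rw [one_le_sqrt]; linarith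
      have hs0 : 0 < s := by linarith
      rw [div_le_div_iff₀ (by positivity) (by positivity)]
      have : (j : ℝ) ^ 8 ≤ 4 * (s * √s) := by nlinarith
      nlinarith [mul_le_mul_of_nonneg_left this hκ.le]
    rw [add_sub_cancel_left, abs_div, abs_mul, abs_of_pos (show (0 : ℝ) < 29 by norm_num),
      abs_of_pos (hr.rho_pos s), div_le_iff₀ (hr.rho_pos s)]
    nlinarith [mul_le_mul_of_nonneg_left hρ hη.le]

end

end Vale.Agent.P225
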