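import Mathlib

/-!
# P225: functions bounded or tiny in Lipschitz norm along a filter

`Bdd 𝔉 S f` says that eventually `f α` is bounded with bounded Lipschitz constant on `S`;
`Sm 𝔉 S f` says that both bounds can be taken arbitrarily small.
-/

namespace Vale.Agent.P225.Small

open Filter Real

noncomputable section

variable {ι Z : Type*} [NormedAddCommGroup Z] (𝔉 : Filter ι) (S : Set Z)

/-- Bound and Lipschitz bound on `S`. -/
def LB (f : Z → ℝ) (C : ℝ) : Prop :=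
  (∀ z ∈ S, |f z| ≤ C) ∧ ∀ z ∈ S, ∀ w ∈ S, |f z - f w| ≤ C * ‖z - w‖

/-- Eventually bounded. -/
def Bdd (f : ι → Z → ℝ) : Prop := ∃ C, 0 ≤ C ∧ ∀ᶠ α in 𝔉, LB S (f α) C

/-- Eventually tiny. -/
def Sm (f : ι → Z → ℝ) : Prop := ∀ ε > 0, ∀ᶠ α in 𝔉, LB S (f α) ε

variable {𝔉 S}

lemma LB.mono {f : Z → ℝ} {C C' : ℝ} (h : LB S f C) (hC : C ≤ C') : LB S f C' :=
  ⟨fun z hz => (h.1 z hz).trans hC,
    fun z hz w hw => (h.2 z hz w hw).trans (mul_le_mul_of_nonneg_right hC (norm_nonneg _))⟩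

lemma LB.add {f g : Z → ℝ} {A B : ℝ} (hf : LB S f A) (hg : LB S g B) :
    LB S (fun z => f z + g z) (A + B) :=
  ⟨fun z hz => (abs_add_le _ _).trans (add_le_add (hf.1 z hz) (hg.1 z hz)), fun z hz w hw => by
    rw [add_sub_add_comm, add_mul]
    exact (abs_add_le _ _).trans (add_le_add (hf.2 z hz w hw) (hg.2 z hz w hw))⟩

lemma LB.mul {f g : Z → ℝ} {A B : ℝ} (hA : 0 ≤ A) (hf : LB S f A) (hg : LB S g B) :
    LB S (fun z => f z * g z) (2 * A * B) := by
  refine ⟨fun z hz => ?_, fun z hz w hw => ?_⟩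
  · have h1 := mul_le_mul (hf.1 z hz) (hg.1 z hz) (abs_nonneg _) hA
    have h2 : 0 ≤ A * B := (mul_nonneg (abs_nonneg (f z)) (abs_nonneg (g z))).trans h1
    rw [abs_mul]; linarith
  · rw [show f z * g z - f w * g w = (f z - f w) * g z + f w * (g z - g w) by ring]
    refine (abs_add_le _ _).trans ?_
    rw [abs_mul, abs_mul]
    have h1 := mul_le_mul (hf.2 z hz w hw) (hg.1 z hz) (abs_nonneg _)
      (mul_nonneg hA (norm_nonneg _))
    have h2 := mul_le_mul (hf.1 w hw) (hg.2 z hz w hw) (abs_nonneg _) hA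
    linarith

lemma LB.neg {f : Z → ℝ} {A : ℝ} (hf : LB S f A) : LB S (fun z => -f z) A :=
  ⟨fun z hz => by rw [abs_neg]; exact hf.1 z hz, fun z hz w hw => by
    rw [neg_sub_neg, abs_sub_comm]; exact hf.2 z hz w hw⟩

lemma exp_lip_le {C a b : ℝ} (ha : a ≤ C) (hb : b ≤ C) :
    |exp a - exp b| ≤ exp C * |a - b| := by
  have := Convex.norm_image_sub_le_of_norm_hasDerivWithin_le (f := exp) (f' := exp)
    (s := Set.Iic C) (C := exp C) (fun x _ => (hasDerivAt_exp x).hasDerivWithinAt)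
    (fun x hx => by rw [norm_eq_abs, abs_of_pos (exp_pos _)]; exact exp_le_exp.2 hx)
    (convex_Iic C) hb ha
  simpa [norm_eq_abs] using this

lemma Bdd.of_le {f : ι → Z → ℝ} {C : ℝ} (h : ∀ᶠ α in 𝔉, LB S (f α) C) : Bdd 𝔉 S f :=
  ⟨max C 0, le_max_right _ _, h.mono fun _ ha => ha.mono (le_max_left _ _)⟩

lemma Sm.bdd {f : ι → Z → ℝ} (h : Sm 𝔉 S f) : Bdd 𝔉 S f := ⟨1, zero_le_one, h 1 one_pos⟩

lemma Sm.congr {f g : ι → Z → ℝ} (h : Sm 𝔉 S f) (he : ∀ᶠ α in 𝔉, ∀ z ∈ S, f α z = g α z) :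
    Sm 𝔉 S g := fun ε hε => by
  filter_upwards [h ε hε, he] with α ha hb
  exact ⟨fun z hz => hb z hz ▸ ha.1 z hz, fun z hz w hw => by
    rw [← hb z hz, ← hb w hw]; exact ha.2 z hz w hw⟩

lemma bdd_const (c : ℝ) : Bdd 𝔉 S (fun _ _ => c) :=
  ⟨|c|, abs_nonneg c, Eventually.of_forall fun _ => ⟨fun _ _ => le_rfl, fun _ _ _ _ => by
    rw [sub_self, abs_zero]; positivity⟩⟩

lemma sm_zero : Sm 𝔉 S (fun _ _ => (0 : ℝ)) := fun ε hε =>
  Eventually.of_forall fun _ => ⟨fun _ _ => by simpa using hε.le, fun _ _ _ _ => by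
    rw [sub_self, abs_zero]; positivity⟩

lemma Bdd.add {f g : ι → Z → ℝ} (hf : Bdd 𝔉 S f) (hg : Bdd 𝔉 S g) :
    Bdd 𝔉 S (fun α z => f α z + g α z) := by
  obtain ⟨A, hA, hf⟩ := hf
  obtain ⟨B, hB, hg⟩ := hg
  exact ⟨A + B, add_nonneg hA hB, by filter_upwards [hf, hg] with α a b using a.add b⟩

lemma Sm.add {f g : ι → Z → ℝ} (hf : Sm 𝔉 S f) (hg : Sm 𝔉 S g) :
    Sm 𝔉 S (fun α z => f α z + g α z) := fun ε hε => by
  filter_upwards [hf (ε / 2) (half_pos hε), hg (ε / 2) (half_pos hε)] with α a b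
  exact (a.add b).mono (add_halves ε).le

lemma Bdd.neg {f : ι → Z → ℝ} (hf : Bdd 𝔉 S f) : Bdd 𝔉 S (fun α z => -f α z) := by
  obtain ⟨A, hA, hf⟩ := hf
  exact ⟨A, hA, hf.mono fun _ a => a.neg⟩

lemma Sm.neg {f : ι → Z → ℝ} (hf : Sm 𝔉 S f) : Sm 𝔉 S (fun α z => -f α z) :=
  fun ε hε => (hf ε hε).mono fun α a => a.neg

lemma Sm.sub {f g : ι → Z → ℝ} (hf : Sm 𝔉 S f) (hg : Sm 𝔉 S g) :
    Sm 𝔉 S (fun α z => f α z - g α z) := by
  simpa [sub_eq_add_neg] using hf.add hg.neg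

lemma Bdd.mul {f g : ι → Z → ℝ} (hf : Bdd 𝔉 S f) (hg : Bdd 𝔉 S g) :
    Bdd 𝔉 S (fun α z => f α z * g α z) := by
  obtain ⟨A, hA, hf⟩ := hf
  obtain ⟨B, hB, hg⟩ := hg
  exact ⟨2 * A * B, by positivity, by filter_upwards [hf, hg] with α a b using a.mul hA b⟩

lemma Sm.mul_bdd {f g : ι → Z → ℝ} (hf : Sm 𝔉 S f) (hg : Bdd 𝔉 S g) :
    Sm 𝔉 S (fun α z => f α z * g α z) := fun ε hε => by
  obtain ⟨B, hB, hg⟩ := hg
  have hδ : 0 < ε / (2 * (B + 1)) := by positivity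
  filter_upwards [hf _ hδ, hg] with α a b
  refine (a.mul hδ.le b).mono ?_
  calc 2 * (ε / (2 * (B + 1))) * B = ε * (B / (B + 1)) := by field_simp
    _ ≤ ε * 1 := mul_le_mul_of_nonneg_left (div_le_one_of_le₀ (by linarith) (by positivity)) hε.le
    _ = ε := mul_one ε

lemma Bdd.mul_sm {f g : ι → Z → ℝ} (hf : Bdd 𝔉 S f) (hg : Sm 𝔉 S g) :
    Sm 𝔉 S (fun α z => f α z * g α z) := by
  simpa [mul_comm] using hg.mul_bdd hf

lemma Bdd.sum {κ : Type*} (s : Finset κ) {f : κ → ι → Z → ℝ} (h : ∀ k ∈ s, Bdd 𝔉 S (f k)) :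
    Bdd 𝔉 S (fun α z => ∑ k ∈ s, f k α z) := by
  classical
  induction s using Finset.induction_on with
  | empty => simpa using bdd_const (𝔉 := 𝔉) (S := S) 0
  | insert a s ha ih =>
    simp only [Finset.sum_insert ha]
    exact (h a (Finset.mem_insert_self a s)).add (ih fun k hk => h k (Finset.mem_insert_of_mem hk))

lemma Sm.sum {κ : Type*} (s : Finset κ) {f : κ → ι → Z → ℝ} (h : ∀ k ∈ s, Sm 𝔉 S (f k)) :
    Sm 𝔉 S (fun α z => ∑ k ∈ s, f k α z) := by
  classical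
  induction s using Finset.induction_on with
  | empty => simpa using sm_zero (𝔉 := 𝔉) (S := S)
  | insert a s ha ih =>
    simp only [Finset.sum_insert ha]
    exact (h a (Finset.mem_insert_self a s)).add (ih fun k hk => h k (Finset.mem_insert_of_mem hk))

lemma Bdd.exp {f : ι → Z → ℝ} (hf : Bdd 𝔉 S f) : Bdd 𝔉 S (fun α z => exp (f α z)) := by
  obtain ⟨A, hA, hf⟩ := hf
  refine Bdd.of_le (C := Real.exp A * (A + 1)) (hf.mono fun α a => ⟨fun z hz => ?_, fun z hz w hw => ?_⟩)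
  · rw [abs_of_pos (exp_pos _)]
    refine (exp_le_exp.2 ((le_abs_self _).trans (a.1 z hz))).trans ?_
    nlinarith [exp_pos A]
  · refine (exp_lip_le ((le_abs_self _).trans (a.1 z hz)) ((le_abs_self _).trans (a.1 w hw))).trans ?_
    rw [mul_assoc]
    refine mul_le_mul_of_nonneg_left ((a.2 z hz w hw).trans ?_) (exp_pos A).le
    exact mul_le_mul_of_nonneg_right (by linarith) (norm_nonneg _)

lemma Sm.exp_sub_one {f : ι → Z → ℝ} (hf : Sm 𝔉 S f) :
    Sm 𝔉 S (fun α z => Real.exp (f α z) - 1) := fun ε hε => by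
  have he : 0 < exp (1 : ℝ) := exp_pos 1
  filter_upwards [hf (min 1 (ε / exp 1)) (lt_min one_pos (by positivity))] with α a
  have h1 : min 1 (ε / exp 1) * exp 1 ≤ ε :=
    (mul_le_mul_of_nonneg_right (min_le_right _ _) he.le).trans (div_mul_cancel₀ ε he.ne').le
  refine ⟨fun z hz => ?_, fun z hz w hw => ?_⟩
  · rw [← exp_zero]
    refine (exp_lip_le (C := 1) ((le_abs_self _).trans ((a.1 z hz).trans (min_le_left _ _)))
      zero_le_one).trans ?_
    rw [sub_zero, mul_comm]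
    exact (mul_le_mul_of_nonneg_right (a.1 z hz) he.le).trans h1
  · rw [sub_sub_sub_cancel_right]
    refine (exp_lip_le (C := 1) ((le_abs_self _).trans ((a.1 z hz).trans (min_le_left _ _)))
      ((le_abs_self _).trans ((a.1 w hw).trans (min_le_left _ _)))).trans ?_
    refine (mul_le_mul_of_nonneg_left (a.2 z hz w hw) he.le).trans ?_
    rw [← mul_assoc, mul_comm (Real.exp 1)]
    exact mul_le_mul_of_nonneg_right h1 (norm_nonneg _)

/-! ### matrices -/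

variable {d : ℕ}

/-- Every entry is eventually bounded. -/
def BddM (𝔉 : Filter ι) (S : Set Z) (P : ι → Z → Matrix (Fin d) (Fin d) ℝ) : Prop :=
  ∀ a b, Bdd 𝔉 S fun α z => P α z a b

/-- Every entry is eventually tiny. -/
def SmM (𝔉 : Filter ι) (S : Set Z) (P : ι → Z → Matrix (Fin d) (Fin d) ℝ) : Prop :=
  ∀ a b, Sm 𝔉 S fun α z => P α z a b

variable {P Q : ι → Z → Matrix (Fin d) (Fin d) ℝ}

lemma SmM.bdd (h : SmM 𝔉 S P) : BddM 𝔉 S P := fun a b => (h a b).bdd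

lemma bddM_const (A : Matrix (Fin d) (Fin d) ℝ) : BddM 𝔉 S (fun _ _ => A) :=
  fun _ _ => bdd_const _

lemma smM_zero : SmM 𝔉 S (fun _ _ => (0 : Matrix (Fin d) (Fin d) ℝ)) := fun _ _ => sm_zero

lemma BddM.add (hP : BddM 𝔉 S P) (hQ : BddM 𝔉 S Q) : BddM 𝔉 S (fun α z => P α z + Q α z) :=
  fun a b => (hP a b).add (hQ a b)

lemma SmM.add (hP : SmM 𝔉 S P) (hQ : SmM 𝔉 S Q) : SmM 𝔉 S (fun α z => P α z + Q α z) :=
  fun a b => (hP a b).add (hQ a b)

lemma SmM.sub (hP : SmM 𝔉 S P) (hQ : SmM 𝔉 S Q) : SmM 𝔉 S (fun α z => P α z - Q α z) :=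
  fun a b => (hP a b).sub (hQ a b)

lemma BddM.mul (hP : BddM 𝔉 S P) (hQ : BddM 𝔉 S Q) : BddM 𝔉 S (fun α z => P α z * Q α z) :=
  fun a b => by
    simp only [Matrix.mul_apply]
    exact Bdd.sum _ fun k _ => (hP a k).mul (hQ k b)

lemma SmM.mul_bdd (hP : SmM 𝔉 S P) (hQ : BddM 𝔉 S Q) : SmM 𝔉 S (fun α z => P α z * Q α z) :=
  fun a b => by
    simp only [Matrix.mul_apply]
    exact Sm.sum _ fun k _ => (hP a k).mul_bdd (hQ k b)

lemma BddM.mul_sm (hP : BddM 𝔉 S P) (hQ : SmM 𝔉 S Q) : SmM 𝔉 S (fun α z => P α z * Q α z) :=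
  fun a b => by
    simp only [Matrix.mul_apply]
    exact Sm.sum _ fun k _ => (hP a k).mul_sm (hQ k b)

lemma SmM.congr (hP : SmM 𝔉 S P) (he : ∀ᶠ α in 𝔉, ∀ z ∈ S, P α z = Q α z) : SmM 𝔉 S Q :=
  fun a b => (hP a b).congr (he.mono fun α h z hz => by rw [h z hz])

lemma bddM_diag {f : Fin d → ι → Z → ℝ} (h : ∀ a, Bdd 𝔉 S (f a)) :
    BddM 𝔉 S (fun α z => Matrix.diagonal fun a => f a α z) := fun a b => by
  rcases eq_or_ne a b with rfl | hab
  · simpa using h a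
  · simpa [hab] using bdd_const (𝔉 := 𝔉) (S := S) 0

lemma smM_diag {f : Fin d → ι → Z → ℝ} (h : ∀ a, Sm 𝔉 S (f a)) :
    SmM 𝔉 S (fun α z => Matrix.diagonal fun a => f a α z) := fun a b => by
  rcases eq_or_ne a b with rfl | hab
  · simpa using h a
  · simpa [hab] using sm_zero (𝔉 := 𝔉) (S := S)

/-- A matrix with small entries plus one is invertible, with entries of the inverse at most two. -/
lemma inv_bound {X : Matrix (Fin d) (Fin d) ℝ} (hX : ∀ a b, (d : ℝ) * |X a b| ≤ 1 / 2) :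
    IsUnit (1 + X).det ∧ ∀ a b, |(1 + X)⁻¹ a b| ≤ 2 := by
  have key : ∀ (u r : Fin d → ℝ), (∀ a, u a = r a - X.mulVec u a) → (∀ a, |r a| ≤ 1) →
      ∀ a, |u a| ≤ 2 := by
    intro u r hu hr a
    obtain ⟨m, -, hm⟩ := Finset.exists_max_image Finset.univ (fun a => |u a|) ⟨a, Finset.mem_univ a⟩
    have hd : (0 : ℝ) < d := by exact_mod_cast Fin.pos a
    have h1 : |X.mulVec u m| ≤ |u m| / 2 := by
      change |∑ k, X m k * u k| ≤ _
      refine (Finset.abs_sum_le_sum_abs _ _).trans ?_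
      refine (Finset.sum_le_sum (g := fun _ => |u m| / 2 / d) fun k _ => ?_).trans (le_of_eq ?_)
      · rw [abs_mul, le_div_iff₀ hd]
        have h2 := mul_le_mul (hX m k) (hm k (Finset.mem_univ k)) (abs_nonneg _) (by norm_num)
        linarith
      · rw [Finset.sum_const, Finset.card_univ, Fintype.card_fin, nsmul_eq_mul,
          mul_div_cancel₀ _ hd.ne']
    have h2 : |u m| ≤ |r m| + |X.mulVec u m| := (congrArg abs (hu m)).le.trans (abs_sub _ _)
    linarith [hm a (Finset.mem_univ a), hr m]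
  have hdet : IsUnit (1 + X).det := by
    rw [isUnit_iff_ne_zero]
    intro h0
    obtain ⟨v, hv, hv0⟩ := Matrix.exists_mulVec_eq_zero_iff.2 h0
    obtain ⟨a, ha⟩ := Function.ne_iff.1 hv
    rw [Matrix.add_mulVec, Matrix.one_mulVec] at hv0
    -- scale `v` beyond the bound
    have := key (fun k => 3 / |v a| * v k) 0 (fun k => by
      have h1 := congrFun hv0 k
      simp only [Pi.add_apply, Pi.zero_apply] at h1
      rw [show (fun k => 3 / |v a| * v k) = (3 / |v a|) • v from rfl, Matrix.mulVec_smul]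
      simp only [Pi.zero_apply, Pi.smul_apply, smul_eq_mul]
      linear_combination (3 / |v a|) * h1) (fun k => by simp) a
    rw [abs_mul, abs_div, abs_abs, div_mul_cancel₀ _ (abs_ne_zero.2 ha)] at this
    norm_num at this
  refine ⟨hdet, fun a b => ?_⟩
  refine key (fun k => (1 + X)⁻¹ k b) (fun k => (1 : Matrix (Fin d) (Fin d) ℝ) k b) (fun k => ?_)
    (fun k => by rw [Matrix.one_apply]; split <;> simp) a
  have h := congrFun (congrFun (Matrix.mul_nonsing_inv (1 + X) hdet) k) b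
  rw [Matrix.add_mul, Matrix.one_mul, Matrix.add_apply] at h
  rw [← h]
  exact (add_sub_cancel_right _ _).symm

/-- The inverse of one plus a tiny matrix is bounded. -/
lemma SmM.inv_one_add (h : SmM 𝔉 S P) : BddM 𝔉 S (fun α z => (1 + P α z)⁻¹) := by
  have hev : ∀ᶠ α in 𝔉, ∀ a b, LB S (fun z => P α z a b) (1 / (2 * ((d : ℝ) + 1))) :=
    eventually_all.2 fun a => eventually_all.2 fun b => h a b _ (by positivity)
  intro a b
  refine Bdd.of_le (C := 2 + 4 * (d : ℝ) * (d : ℝ)) (hev.mono fun α hα => ?_)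
  have hsmall : ∀ z ∈ S, ∀ a b, (d : ℝ) * |P α z a b| ≤ 1 / 2 := fun z hz a b => by
    refine (mul_le_mul_of_nonneg_left ((hα a b).1 z hz) (Nat.cast_nonneg d)).trans ?_
    rw [mul_one_div, div_le_iff₀ (by positivity)]; linarith
  refine ⟨fun z hz => ((inv_bound (hsmall z hz)).2 a b).trans (le_add_of_nonneg_right (by positivity)),
    fun z hz w hw => ?_⟩
  obtain ⟨hu, hz2⟩ := inv_bound (hsmall z hz)
  obtain ⟨hv, hw2⟩ := inv_bound (hsmall w hw)
  have he : (1 + P α z)⁻¹ - (1 + P α w)⁻¹ =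
      (1 + P α z)⁻¹ * (P α w - P α z) * (1 + P α w)⁻¹ := by
    rw [show P α w - P α z = (1 + P α w) - (1 + P α z) by abel, mul_sub, sub_mul,
      Matrix.nonsing_inv_mul _ hu, one_mul, mul_assoc, Matrix.mul_nonsing_inv _ hv, mul_one]
  change |((1 + P α z)⁻¹ a b) - (1 + P α w)⁻¹ a b| ≤ _
  rw [show (1 + P α z)⁻¹ a b - (1 + P α w)⁻¹ a b = ((1 + P α z)⁻¹ - (1 + P α w)⁻¹) a b from rfl, he,
    Matrix.mul_apply]
  refine (Finset.abs_sum_le_sum_abs _ _).trans ?_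
  have hk : ∀ k, |((1 + P α z)⁻¹ * (P α w - P α z)) a k * (1 + P α w)⁻¹ k b| ≤
      (d : ℝ) * 4 * ‖z - w‖ := by
    intro k
    rw [abs_mul, Matrix.mul_apply]
    have hin : |∑ x, (1 + P α z)⁻¹ a x * (P α w - P α z) x k| ≤ (d : ℝ) * (2 * ‖z - w‖) := by
      refine (Finset.abs_sum_le_sum_abs _ _).trans ((Finset.sum_le_sum
        (g := fun _ => 2 * ‖z - w‖) fun x _ => ?_).trans (le_of_eq ?_))
      · rw [abs_mul]
        refine mul_le_mul (hz2 a x) ?_ (abs_nonneg _) zero_le_two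
        rw [Matrix.sub_apply, abs_sub_comm]
        refine ((hα x k).2 z hz w hw).trans (mul_le_of_le_one_left (norm_nonneg _) ?_)
        rw [div_le_one (by positivity)]
        linarith [(Nat.cast_nonneg d : (0 : ℝ) ≤ d)]
      · rw [Finset.sum_const, Finset.card_univ, Fintype.card_fin, nsmul_eq_mul]
    exact (mul_le_mul hin (hw2 k b) (abs_nonneg _) (by positivity)).trans (le_of_eq (by ring))
  refine (Finset.sum_le_card_nsmul _ _ _ fun k _ => hk k).trans ?_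
  rw [Finset.card_univ, Fintype.card_fin, nsmul_eq_mul]
  nlinarith [norm_nonneg (z - w)]

end

end Vale.Agent.P225.Small
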